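import Vale.Agent.Lib.P062.Core

namespace Vale.Agent.Lib.P062.CV
open Vale.Agent.Lib.P062.Core
set_option maxRecDepth 100000
set_option linter.all false

noncomputable def D7684 : OP := win (nat_lit 0) (nat_lit 8) (nat_lit 8) (nat_lit 5)
noncomputable def D7683 : OP := win (nat_lit 0) (nat_lit 7) (nat_lit 8) (nat_lit 0)
noncomputable def D7686 : OP := orK (nat_lit 168) (fin (add (start D7683) D7684))
noncomputable def D7819 : OP := win (nat_lit 3) (nat_lit 10) (nat_lit 8) (nat_lit 0)
noncomputable def D9 : OP := win (nat_lit 3) (nat_lit 10) (nat_lit 7) (nat_lit 5)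
noncomputable def D11 : OP := win (nat_lit 7) (nat_lit 9) (nat_lit 7) (nat_lit 5)
noncomputable def D42 : OP := win (nat_lit 6) (nat_lit 9) (nat_lit 7) (nat_lit 3)
noncomputable def D41 : OP := win (nat_lit 6) (nat_lit 9) (nat_lit 6) (nat_lit 0)
noncomputable def D43 : AP := fin (add (start D41) D42)
noncomputable def D57 : OP := win (nat_lit 7) (nat_lit 9) (nat_lit 8) (nat_lit 0)
noncomputable def D59 : AP := fin (add (start D57) (orK (nat_lit 149) D43))
noncomputable def D60 : OP := orK (nat_lit 189) D59
noncomputable def D5388 : OP := win (nat_lit 5) (nat_lit 7) (nat_lit 9) (nat_lit 4)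
noncomputable def D5387 : OP := win (nat_lit 5) (nat_lit 6) (nat_lit 9) (nat_lit 5)
noncomputable def D5390 : OP := orK (nat_lit 207) (fin (add (start D5387) D5388))
noncomputable def D5385 : OP := win (nat_lit 2) (nat_lit 7) (nat_lit 8) (nat_lit 4)
noncomputable def D5386 : OP := win (nat_lit 2) (nat_lit 6) (nat_lit 8) (nat_lit 5)
noncomputable def D5563 : AP := fin (add (start D5386) D5385)
noncomputable def D5564 : OP := orK (nat_lit 167) D5563
noncomputable def D7811 : AP := fin (add (start D5564) D5390)
noncomputable def D7790 : OP := win (nat_lit 3) (nat_lit 10) (nat_lit 7) (nat_lit 3)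
noncomputable def D7789 : OP := win (nat_lit 1) (nat_lit 10) (nat_lit 6) (nat_lit 0)
noncomputable def D7792 : OP := orK (nat_lit 151) (fin (add (start D7789) D7790))
noncomputable def D7774 : OP := win (nat_lit 4) (nat_lit 8) (nat_lit 8) (nat_lit 5)
noncomputable def D6002 : OP := win (nat_lit 2) (nat_lit 7) (nat_lit 8) (nat_lit 3)
noncomputable def D7768 : OP := win (nat_lit 0) (nat_lit 6) (nat_lit 8) (nat_lit 0)
noncomputable def D7767 : OP := win (nat_lit 2) (nat_lit 8) (nat_lit 8) (nat_lit 0)
noncomputable def D7682 : OP := win (nat_lit 5) (nat_lit 10) (nat_lit 8) (nat_lit 0)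
noncomputable def D5857 : OP := win (nat_lit 4) (nat_lit 9) (nat_lit 8) (nat_lit 3)
noncomputable def D7779 : OP := win (nat_lit 4) (nat_lit 8) (nat_lit 8) (nat_lit 0)
noncomputable def D40 : OP := win (nat_lit 7) (nat_lit 9) (nat_lit 7) (nat_lit 3)
noncomputable def D46 : OP := orK (nat_lit 149) (fin (add (start D40) (orK (nat_lit 189) D43)))
noncomputable def D7826 : AP := fin (add (add (add (start D46) (orK (nat_lit 189) (fin (add (start D57) (orK (nat_lit 191) (fin (add (add (add (start (orK (nat_lit 168) (fin (add (start D7767) (orK (nat_lit 167) (fin (add (start D7768) (win (nat_lit 0) (nat_lit 7) (nat_lit 8) (nat_lit 3))))))))) (orK (nat_lit 171) (fin (add (start (orK (nat_lit 172) (fin (add (start D7779) (orK (nat_lit 173) (fin (add (start D5857) D7682))))))) D7792)))) (orK (nat_lit 168) (fin (add (start D7767) (orK (nat_lit 167) (fin (add (start D7768) D6002))))))) (orK (nat_lit 188) (fin (add (start (orK (nat_lit 171) (fin (add (start D7774) D7792)))) (orK (nat_lit 187) D7811))))))))))) D60) (orK (nat_lit 170) (fin (add (start D11) (orK (nat_lit 171) (fin (add (start D9) (orK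 (nat_lit 191) (fin (add (start D7819) D7686))))))))))
noncomputable def D7660 : OP := win (nat_lit 5) (nat_lit 7) (nat_lit 8) (nat_lit 4)
noncomputable def D7659 : OP := win (nat_lit 5) (nat_lit 6) (nat_lit 8) (nat_lit 5)
noncomputable def D7662 : OP := orK (nat_lit 187) (fin (add (start D7659) D7660))
noncomputable def D7657 : OP := win (nat_lit 2) (nat_lit 7) (nat_lit 7) (nat_lit 4)
noncomputable def D7658 : OP := win (nat_lit 2) (nat_lit 6) (nat_lit 7) (nat_lit 5)
noncomputable def D8542 : OP := orK (nat_lit 147) (fin (add (start D7658) D7657))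
noncomputable def D8546 : OP := orK (nat_lit 167) (fin (add (start D8542) D7662))
noncomputable def D8522 : OP := win (nat_lit 0) (nat_lit 7) (nat_lit 8) (nat_lit 5)
noncomputable def D8533 : OP := win (nat_lit 5) (nat_lit 7) (nat_lit 8) (nat_lit 5)
noncomputable def D7655 : OP := win (nat_lit 0) (nat_lit 9) (nat_lit 8) (nat_lit 5)
noncomputable def D7656 : OP := win (nat_lit 0) (nat_lit 8) (nat_lit 8) (nat_lit 4)
noncomputable def D8532 : OP := orK (nat_lit 192) (fin (add (start D7656) D7655))
noncomputable def D8548 : OP := orK (nat_lit 168) (fin (add (add (start (orK (nat_lit 172) (fin (add (start D8532) (orK (nat_lit 188) (fin (add (start D8533) (win (nat_lit 5) (nat_lit 8) (nat_lit 8) (nat_lit 4))))))))) (orK (nat_lit 167) (fin (add (start D8522) D8542)))) D8546))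
noncomputable def D48 : OP := win (nat_lit 6) (nat_lit 10) (nat_lit 9) (nat_lit 5)
noncomputable def D47 : OP := win (nat_lit 6) (nat_lit 10) (nat_lit 8) (nat_lit 4)
noncomputable def D50 : OP := orK (nat_lit 251) (fin (add (start D47) D48))
noncomputable def D103 : OP := win (nat_lit 1) (nat_lit 9) (nat_lit 9) (nat_lit 4)
noncomputable def D8 : OP := win (nat_lit 3) (nat_lit 10) (nat_lit 8) (nat_lit 4)
noncomputable def D16228 : AP := fin (add (start D11) (orK (nat_lit 171) (fin (add (start D9) (orK (nat_lit 250) (fin (add (start D8) (orK (nat_lit 269) (fin (add (start D103) D50))))))))))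
noncomputable def D106 : OP := win (nat_lit 6) (nat_lit 10) (nat_lit 10) (nat_lit 5)
noncomputable def D105 : OP := win (nat_lit 6) (nat_lit 10) (nat_lit 9) (nat_lit 4)
noncomputable def D108 : OP := orK (nat_lit 271) (fin (add (start D105) D106))
noncomputable def D104 : OP := win (nat_lit 1) (nat_lit 9) (nat_lit 10) (nat_lit 5)
noncomputable def D112 : OP := orK (nat_lit 269) (fin (add (start D103) (orK (nat_lit 270) (fin (add (start D104) D108)))))
noncomputable def D12 : OP := win (nat_lit 7) (nat_lit 9) (nat_lit 8) (nat_lit 4)
noncomputable def D15571 : OP := orK (nat_lit 250) (fin (add (start D12) D112))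
noncomputable def D4299 : OP := win (nat_lit 7) (nat_lit 6) (nat_lit 7) (nat_lit 4)
noncomputable def D4298 : OP := win (nat_lit 7) (nat_lit 6) (nat_lit 6) (nat_lit 5)
noncomputable def D4301 : OP := orK (nat_lit 146) (fin (add (start D4298) D4299))
noncomputable def D4289 : OP := win (nat_lit 1) (nat_lit 6) (nat_lit 8) (nat_lit 5)
noncomputable def D4288 : OP := win (nat_lit 1) (nat_lit 6) (nat_lit 7) (nat_lit 4)
noncomputable def D4291 : OP := orK (nat_lit 226) (fin (add (start D4288) D4289))
noncomputable def D4302 : AP := fin (add (start D4291) D4301)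
noncomputable def D6142 : OP := orK (nat_lit 227) D4302
noncomputable def D4769 : OP := win (nat_lit 6) (nat_lit 7) (nat_lit 7) (nat_lit 5)
noncomputable def D12635 : OP := win (nat_lit 6) (nat_lit 7) (nat_lit 6) (nat_lit 4)
noncomputable def D14211 : OP := orK (nat_lit 208) (fin (add (start D12635) D4769))
noncomputable def D5957 : OP := win (nat_lit 3) (nat_lit 7) (nat_lit 6) (nat_lit 4)
noncomputable def D5958 : OP := win (nat_lit 3) (nat_lit 7) (nat_lit 5) (nat_lit 5)
noncomputable def D6051 : OP := orK (nat_lit 128) (fin (add (start D5958) D5957))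
noncomputable def D16202 : AP := fin (add (start D6051) D14211)
noncomputable def D16203 : OP := orK (nat_lit 127) D16202
noncomputable def D2662 : OP := win (nat_lit 6) (nat_lit 7) (nat_lit 8) (nat_lit 5)
noncomputable def D5956 : OP := win (nat_lit 6) (nat_lit 7) (nat_lit 7) (nat_lit 4)
noncomputable def D8474 : OP := orK (nat_lit 228) (fin (add (start D5956) D2662))
noncomputable def D16088 : OP := orK (nat_lit 227) (fin (add (start D4291) D8474))
noncomputable def D6003 : OP := win (nat_lit 3) (nat_lit 7) (nat_lit 7) (nat_lit 0)
noncomputable def D12986 : OP := win (nat_lit 2) (nat_lit 7) (nat_lit 7) (nat_lit 0)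
noncomputable def D4292 : OP := win (nat_lit 3) (nat_lit 7) (nat_lit 6) (nat_lit 5)
noncomputable def D11849 : OP := win (nat_lit 6) (nat_lit 6) (nat_lit 4) (nat_lit 0)
noncomputable def D14389 : AP := fin (add (start D11849) (win (nat_lit 6) (nat_lit 6) (nat_lit 5) (nat_lit 3)))
noncomputable def D14382 : OP := win (nat_lit 7) (nat_lit 6) (nat_lit 6) (nat_lit 0)
noncomputable def D13035 : OP := win (nat_lit 2) (nat_lit 6) (nat_lit 7) (nat_lit 2)
noncomputable def D16095 : OP := orK (nat_lit 146) (fin (add (start D13035) (orK (nat_lit 126) (fin (add (start D14382) (orK (nat_lit 106) D14389))))))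
noncomputable def D16074 : AP := fin (add (start D7658) (orK (nat_lit 171) (fin (add (start D7657) D7660))))
noncomputable def D6046 : OP := win (nat_lit 1) (nat_lit 6) (nat_lit 6) (nat_lit 4)
noncomputable def D6047 : OP := win (nat_lit 1) (nat_lit 6) (nat_lit 7) (nat_lit 5)
noncomputable def D12814 : OP := orK (nat_lit 206) (fin (add (start D6047) (orK (nat_lit 127) (fin (add (start D6046) D6051)))))
noncomputable def D1496 : OP := win (nat_lit 0) (nat_lit 7) (nat_lit 10) (nat_lit 2)
noncomputable def D10 : OP := win (nat_lit 6) (nat_lit 10) (nat_lit 8) (nat_lit 5)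
noncomputable def D9480 : OP := win (nat_lit 5) (nat_lit 4) (nat_lit 11) (nat_lit 5)
noncomputable def D9578 : OP := win (nat_lit 2) (nat_lit 4) (nat_lit 10) (nat_lit 5)
noncomputable def D16171 : OP := win (nat_lit 5) (nat_lit 6) (nat_lit 10) (nat_lit 1)
noncomputable def D4333 : OP := win (nat_lit 7) (nat_lit 6) (nat_lit 7) (nat_lit 5)
noncomputable def D4334 : OP := win (nat_lit 7) (nat_lit 6) (nat_lit 8) (nat_lit 4)
noncomputable def D4336 : OP := orK (nat_lit 166) (fin (add (start D4333) D4334))
noncomputable def D4305 : OP := win (nat_lit 1) (nat_lit 6) (nat_lit 9) (nat_lit 5)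
noncomputable def D4304 : OP := win (nat_lit 1) (nat_lit 6) (nat_lit 8) (nat_lit 4)
noncomputable def D5953 : OP := orK (nat_lit 246) (fin (add (start D4304) (orK (nat_lit 247) (fin (add (start D4305) D4336)))))
noncomputable def D3935 : OP := win (nat_lit 6) (nat_lit 7) (nat_lit 9) (nat_lit 5)
noncomputable def D4778 : OP := win (nat_lit 6) (nat_lit 7) (nat_lit 8) (nat_lit 4)
noncomputable def D12886 : OP := orK (nat_lit 248) (fin (add (start D4778) (orK (nat_lit 247) (fin (add (start D3935) D4336)))))
noncomputable def D4779 : AP := fin (add (start D4778) D3935)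
noncomputable def D4780 : OP := orK (nat_lit 248) D4779
noncomputable def D12878 : OP := orK (nat_lit 246) (fin (add (start D4304) (orK (nat_lit 247) (fin (add (start D4305) D4780)))))
noncomputable def D5960 : OP := win (nat_lit 7) (nat_lit 6) (nat_lit 6) (nat_lit 4)
noncomputable def D5959 : OP := win (nat_lit 7) (nat_lit 6) (nat_lit 5) (nat_lit 5)
noncomputable def D5962 : OP := orK (nat_lit 126) (fin (add (start D5959) D5960))
noncomputable def D6058 : OP := orK (nat_lit 127) (fin (add (start D6051) D5962))
noncomputable def D6049 : OP := orK (nat_lit 206) (fin (add (start D6046) D6047))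
noncomputable def D6053 : OP := orK (nat_lit 127) (fin (add (start D6049) D6051))
noncomputable def D6144 : OP := orK (nat_lit 147) (fin (add (add (start D6053) D6142) D6058))
noncomputable def D2983 : OP := win (nat_lit 7) (nat_lit 7) (nat_lit 9) (nat_lit 0)
noncomputable def D3029 : OP := win (nat_lit 6) (nat_lit 7) (nat_lit 8) (nat_lit 3)
noncomputable def D2661 : OP := win (nat_lit 6) (nat_lit 7) (nat_lit 7) (nat_lit 0)
noncomputable def D5948 : AP := fin (add (start D2661) (orK (nat_lit 248) (fin (add (start D3029) D2983))))
noncomputable def D13433 : OP := orK (nat_lit 228) D5948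
noncomputable def D8664 : OP := win (nat_lit 1) (nat_lit 7) (nat_lit 7) (nat_lit 5)
noncomputable def D4341 : OP := win (nat_lit 1) (nat_lit 7) (nat_lit 6) (nat_lit 0)
noncomputable def D142 : OP := win (nat_lit 4) (nat_lit 7) (nat_lit 11) (nat_lit 0)
noncomputable def D7 : OP := win (nat_lit 1) (nat_lit 9) (nat_lit 9) (nat_lit 5)
noncomputable def D11599 : OP := win (nat_lit 5) (nat_lit 7) (nat_lit 8) (nat_lit 0)
noncomputable def D6039 : OP := win (nat_lit 3) (nat_lit 6) (nat_lit 8) (nat_lit 3)
noncomputable def D550 : OP := win (nat_lit 2) (nat_lit 5) (nat_lit 11) (nat_lit 5)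
noncomputable def D555 : OP := win (nat_lit 5) (nat_lit 5) (nat_lit 12) (nat_lit 5)
noncomputable def D556 : OP := win (nat_lit 5) (nat_lit 6) (nat_lit 12) (nat_lit 4)
noncomputable def D408 : OP := win (nat_lit 4) (nat_lit 7) (nat_lit 11) (nat_lit 5)
noncomputable def D11966 : OP := win (nat_lit 1) (nat_lit 7) (nat_lit 6) (nat_lit 3)
noncomputable def D6004 : OP := win (nat_lit 1) (nat_lit 7) (nat_lit 5) (nat_lit 0)
noncomputable def D11969 : AP := fin (add (start D6003) (orK (nat_lit 128) (fin (add (start D6004) D11966))))
noncomputable def D11970 : OP := orK (nat_lit 148) D11969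
noncomputable def D2984 : OP := win (nat_lit 7) (nat_lit 7) (nat_lit 8) (nat_lit 3)
noncomputable def D16118 : AP := fin (add (start D2984) D2983)
noncomputable def D12704 : OP := win (nat_lit 2) (nat_lit 6) (nat_lit 9) (nat_lit 1)
noncomputable def D12175 : OP := win (nat_lit 5) (nat_lit 6) (nat_lit 8) (nat_lit 2)
noncomputable def D4308 : OP := win (nat_lit 3) (nat_lit 7) (nat_lit 7) (nat_lit 5)
noncomputable def D549 : OP := win (nat_lit 2) (nat_lit 6) (nat_lit 11) (nat_lit 4)
noncomputable def D4939 : OP := win (nat_lit 0) (nat_lit 7) (nat_lit 12) (nat_lit 5)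
noncomputable def D561 : OP := win (nat_lit 2) (nat_lit 6) (nat_lit 11) (nat_lit 5)
noncomputable def D6055 : AP := fin (add (start D6049) D5962)
noncomputable def D6056 : OP := orK (nat_lit 127) D6055
noncomputable def D16080 : OP := win (nat_lit 3) (nat_lit 6) (nat_lit 7) (nat_lit 3)
noncomputable def D11529 : OP := win (nat_lit 1) (nat_lit 6) (nat_lit 6) (nat_lit 0)
noncomputable def D16086 : OP := orK (nat_lit 186) (fin (add (start D12175) (orK (nat_lit 206) (fin (add (start D11529) (orK (nat_lit 226) (fin (add (start (win (nat_lit 1) (nat_lit 6) (nat_lit 7) (nat_lit 3))) D16080))))))))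
noncomputable def D11527 : AP := fin (add (start D7658) D7659)
noncomputable def D16078 : OP := orK (nat_lit 168) D11527
noncomputable def D16214 : AP := fin (add (add (add (add (start (orK (nat_lit 168) (fin (add (start D7659) (orK (nat_lit 147) D16074))))) (orK (nat_lit 147) (fin (add (add (add (start D16078) D16086) (orK (nat_lit 207) (fin (add (add (start D6056) D16088) (orK (nat_lit 227) (fin (add (start D8474) D4301))))))) D16095)))) (orK (nat_lit 250) (fin (add (add (add (start D50) D112) (orK (nat_lit 249) (fin (add (start D7) (orK (nat_lit 248) (fin (add (add (add (start (orK (nat_lit 247) (fin (add (start D408) (orK (nat_lit 227) (fin (add (start D561) (orK (nat_lit 207) D4779)))))))) (orK (nat_lit 247) (fin (add (start D408) (orK (nat_lit 270) (fin (add (start D4939) (orK (nat_lit 226) (fin (add (start D549) (orK (nat_lit 246) (fin (add (start D550) (orK (nat_lit 186) (fin (add (start (win (nat_lit 3) (nat_lit 6) (nat_lit 8) (nat_lit 2))) D12175)))))))))))))))) (orK (nat_lit 207) (fin (add (add (add (start (orK (nat_lit 168) (fin (add (start D7659) (orK (nat_lit 227) (fin (add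 (start D4308) D4778))))))) (orK (nat_lit 228) (fin (add (start D3029) (orK (nat_lit 208) D16118))))) (orK (nat_lit 186) (fin (add (start D12175) (orK (nat_lit 208) (fin (add (start D12704) (orK (nat_lit 228) D16118)))))))) (orK (nat_lit 168) (fin (add (start D7659) D11970))))))) (orK (nat_lit 247) (fin (add (start D408) (orK (nat_lit 266) (fin (add (start D556) (orK (nat_lit 246) (fin (add (start D555) (orK (nat_lit 226) (fin (add (start D550) (orK (nat_lit 206) (fin (add (start D6039) (win (nat_lit 3) (nat_lit 6) (nat_lit 9) (nat_lit 4)))))))))))))))))))))))) (orK (nat_lit 168) (fin (add (start D7659) (orK (nat_lit 231) (fin (add (start D10) (orK (nat_lit 188) (fin (add (start D11599) (orK (nat_lit 249) (fin (add (start D7) (orK (nat_lit 248) (fin (add (start D142) (orK (nat_lit 208) (fin (add (start (win (nat_lit 7) (nat_lit 7) (nat_lit 8) (nat_lit 1))) (orK (nat_lit 207) (fin (add (start D1496) (orK (nat_lit 148) (fin (add (start D4341) D8664)))))))))))))))))))))))))))) (orK (nat_lit 207) (fin (add (add (add (start (orK (nat_lit 231) (fin (add (start D10) (orK (nat_lit 208) (fin (add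 (start D1496) D13433))))))) (orK (nat_lit 231) (fin (add (start D10) D6144)))) (orK (nat_lit 227) (fin (add (add (add (start D12878) D12886) D5953) (orK (nat_lit 166) (fin (add (start D4333) (orK (nat_lit 226) (fin (add (start D4289) (orK (nat_lit 208) (fin (add (start D16171) (orK (nat_lit 228) (fin (add (start D2662) (orK (nat_lit 225) (fin (add (start (win (nat_lit 4) (nat_lit 4) (nat_lit 10) (nat_lit 0))) (orK (nat_lit 205) (fin (add (start D9578) (orK (nat_lit 245) (fin (add (start D9480) (orK (nat_lit 186) (fin (add (start (win (nat_lit 1) (nat_lit 5) (nat_lit 8) (nat_lit 2))) (win (nat_lit 3) (nat_lit 5) (nat_lit 8) (nat_lit 3)))))))))))))))))))))))))))))) (orK (nat_lit 231) (fin (add (start D10) (orK (nat_lit 208) (fin (add (start D1496) (orK (nat_lit 147) (fin (add (start D4769) D12814))))))))))))) (orK (nat_lit 147) (fin (add (add (add (start (orK (nat_lit 168) D16074)) D16095) (orK (nat_lit 207) (fin (add (add (start D16203) (orK (nat_lit 148) (fin (add (start D4292) (orK (nat_lit 168) (fin (add (start D12986) D6003))))))) D16088)))) (orK (nat_lit 207) (fin (add (start D16203)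 D6142)))))))
noncomputable def D5850 : OP := win (nat_lit 7) (nat_lit 12) (nat_lit 6) (nat_lit 4)
noncomputable def D5849 : OP := win (nat_lit 7) (nat_lit 12) (nat_lit 5) (nat_lit 5)
noncomputable def D5852 : OP := orK (nat_lit 132) (fin (add (start D5849) D5850))
noncomputable def D5834 : OP := win (nat_lit 3) (nat_lit 13) (nat_lit 6) (nat_lit 4)
noncomputable def D5833 : OP := win (nat_lit 3) (nat_lit 13) (nat_lit 5) (nat_lit 5)
noncomputable def D5836 : OP := orK (nat_lit 134) (fin (add (start D5833) D5834))
noncomputable def D5854 : OP := orK (nat_lit 133) (fin (add (start D5836) D5852))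
noncomputable def D5780 : OP := win (nat_lit 6) (nat_lit 13) (nat_lit 8) (nat_lit 5)
noncomputable def D5779 : OP := win (nat_lit 6) (nat_lit 13) (nat_lit 7) (nat_lit 4)
noncomputable def D5782 : OP := orK (nat_lit 234) (fin (add (start D5779) D5780))
noncomputable def D6334 : OP := win (nat_lit 1) (nat_lit 12) (nat_lit 8) (nat_lit 5)
noncomputable def D8259 : OP := win (nat_lit 1) (nat_lit 12) (nat_lit 7) (nat_lit 4)
noncomputable def D9280 : OP := orK (nat_lit 232) (fin (add (start D8259) D6334))
noncomputable def D15938 : OP := win (nat_lit 7) (nat_lit 12) (nat_lit 5) (nat_lit 3)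
noncomputable def D15939 : OP := win (nat_lit 6) (nat_lit 12) (nat_lit 4) (nat_lit 0)
noncomputable def D15940 : OP := win (nat_lit 7) (nat_lit 12) (nat_lit 6) (nat_lit 0)
noncomputable def D16050 : OP := win (nat_lit 4) (nat_lit 9) (nat_lit 7) (nat_lit 3)
noncomputable def D7648 : OP := win (nat_lit 4) (nat_lit 10) (nat_lit 7) (nat_lit 5)
noncomputable def D7647 : OP := win (nat_lit 4) (nat_lit 9) (nat_lit 7) (nat_lit 4)
noncomputable def D7649 : AP := fin (add (start D7647) D7648)
noncomputable def D133 : OP := win (nat_lit 4) (nat_lit 10) (nat_lit 11) (nat_lit 5)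
noncomputable def D131 : OP := win (nat_lit 0) (nat_lit 10) (nat_lit 12) (nat_lit 5)
noncomputable def D1605 : AP := fin (add (start D131) D133)
noncomputable def D130 : OP := win (nat_lit 0) (nat_lit 9) (nat_lit 12) (nat_lit 4)
noncomputable def D132 : OP := win (nat_lit 4) (nat_lit 9) (nat_lit 11) (nat_lit 4)
noncomputable def D15827 : OP := orK (nat_lit 252) (fin (add (start D132) (orK (nat_lit 273) (fin (add (start D130) (orK (nat_lit 253) D1605))))))
noncomputable def D16024 : OP := win (nat_lit 7) (nat_lit 12) (nat_lit 7) (nat_lit 1)
noncomputable def D11302 : OP := win (nat_lit 4) (nat_lit 9) (nat_lit 7) (nat_lit 5)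
noncomputable def D7646 : OP := win (nat_lit 0) (nat_lit 10) (nat_lit 8) (nat_lit 5)
noncomputable def D2717 : OP := win (nat_lit 0) (nat_lit 11) (nat_lit 11) (nat_lit 5)
noncomputable def D2716 : OP := win (nat_lit 0) (nat_lit 10) (nat_lit 11) (nat_lit 4)
noncomputable def D919 : OP := win (nat_lit 2) (nat_lit 9) (nat_lit 10) (nat_lit 5)
noncomputable def D15928 : OP := win (nat_lit 0) (nat_lit 10) (nat_lit 8) (nat_lit 1)
noncomputable def D6238 : OP := win (nat_lit 7) (nat_lit 12) (nat_lit 7) (nat_lit 5)
noncomputable def D5788 : OP := win (nat_lit 3) (nat_lit 13) (nat_lit 7) (nat_lit 5)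
noncomputable def D7673 : OP := win (nat_lit 5) (nat_lit 10) (nat_lit 8) (nat_lit 4)
noncomputable def D207 : OP := win (nat_lit 4) (nat_lit 10) (nat_lit 10) (nat_lit 5)
noncomputable def D15886 : OP := orK (nat_lit 232) (fin (add (start D919) (orK (nat_lit 213) (fin (add (start D6334) D207)))))
noncomputable def D62 : OP := orK (nat_lit 250) (fin (add (start D8) D50))
noncomputable def D8132 : OP := win (nat_lit 6) (nat_lit 10) (nat_lit 9) (nat_lit 3)
noncomputable def D881 : OP := win (nat_lit 5) (nat_lit 10) (nat_lit 12) (nat_lit 5)
noncomputable def D1199 : OP := win (nat_lit 1) (nat_lit 12) (nat_lit 9) (nat_lit 5)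
noncomputable def D5622 : OP := win (nat_lit 6) (nat_lit 13) (nat_lit 9) (nat_lit 5)
noncomputable def D5621 : OP := win (nat_lit 6) (nat_lit 13) (nat_lit 8) (nat_lit 4)
noncomputable def D15857 : OP := orK (nat_lit 251) (fin (add (start D47) (orK (nat_lit 250) (fin (add (start D48) (orK (nat_lit 249) (fin (add (start D7) D15827))))))))
noncomputable def D5795 : OP := orK (nat_lit 254) (fin (add (start D5621) D5622))
noncomputable def D5785 : OP := win (nat_lit 1) (nat_lit 12) (nat_lit 8) (nat_lit 4)
noncomputable def D15918 : OP := orK (nat_lit 233) (fin (add (add (add (start (orK (nat_lit 213) (fin (add (start D6238) (orK (nat_lit 252) (fin (add (start D5785) (orK (nat_lit 253) (fin (add (start D1199) (orK (nat_lit 174) (fin (add (start D5788) D5795))))))))))))) D15857) (orK (nat_lit 213) (fin (add (start D6238) (orK (nat_lit 174) (fin (add (start D5788) (orK (nat_lit 251) (fin (add (start D47) (orK (nat_lit 254) (fin (add (start D5621) (orK (nat_lit 253) (fin (add (start D5622) (orK (nat_lit 252) (fin (add (start D1199) (orK (nat_lit 271) (fin (add (start D881) D8132))))))))))))))))))))))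 (orK (nat_lit 231) (fin (add (start D10) (orK (nat_lit 232) (fin (add (start D919) (orK (nat_lit 213) (fin (add (start D207) D6238)))))))))))
noncomputable def D15783 : OP := orK (nat_lit 191) (fin (add (start D7819) D7682))
noncomputable def D15785 : OP := orK (nat_lit 171) (fin (add (start D7646) D15783))
noncomputable def D8222 : OP := win (nat_lit 4) (nat_lit 11) (nat_lit 7) (nat_lit 5)
noncomputable def D8339 : OP := win (nat_lit 4) (nat_lit 10) (nat_lit 7) (nat_lit 4)
noncomputable def D15834 : AP := fin (add (start D7646) (orK (nat_lit 154) (fin (add (start D8339) (orK (nat_lit 174) (fin (add (start D8222) (orK (nat_lit 233) (fin (add (start (win (nat_lit 3) (nat_lit 13) (nat_lit 7) (nat_lit 1))) D15827))))))))))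
noncomputable def D7650 : OP := orK (nat_lit 153) D7649
noncomputable def D7651 : AP := fin (add (start D7646) D7650)
noncomputable def D15786 : OP := orK (nat_lit 171) D7651
noncomputable def D13739 : OP := win (nat_lit 0) (nat_lit 12) (nat_lit 7) (nat_lit 5)
noncomputable def D5843 : OP := win (nat_lit 7) (nat_lit 12) (nat_lit 6) (nat_lit 5)
noncomputable def D5775 : OP := win (nat_lit 3) (nat_lit 13) (nat_lit 6) (nat_lit 5)
noncomputable def D5838 : OP := win (nat_lit 6) (nat_lit 13) (nat_lit 7) (nat_lit 5)
noncomputable def D7869 : OP := orK (nat_lit 134) (fin (add (start D5834) (orK (nat_lit 133) (fin (add (start D5833) D5852)))))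
noncomputable def D5837 : OP := win (nat_lit 6) (nat_lit 13) (nat_lit 6) (nat_lit 4)
noncomputable def D7889 : OP := orK (nat_lit 214) (fin (add (start D5838) (orK (nat_lit 133) (fin (add (start D5837) D5852)))))
noncomputable def D5840 : OP := orK (nat_lit 214) (fin (add (start D5837) D5838))
noncomputable def D5789 : OP := win (nat_lit 3) (nat_lit 13) (nat_lit 8) (nat_lit 4)
noncomputable def D5791 : OP := orK (nat_lit 174) (fin (add (start D5788) D5789))
noncomputable def D5912 : AP := fin (add (start D5791) D5795)
noncomputable def D5913 : OP := orK (nat_lit 253) D5912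
noncomputable def D5787 : OP := orK (nat_lit 252) (fin (add (start D5785) D1199))
noncomputable def D5797 : OP := orK (nat_lit 253) (fin (add (start D5787) D5795))
noncomputable def D5776 : OP := win (nat_lit 3) (nat_lit 13) (nat_lit 7) (nat_lit 4)
noncomputable def D5778 : OP := orK (nat_lit 154) (fin (add (start D5775) D5776))
noncomputable def D15741 : AP := fin (add (add (start (orK (nat_lit 153) (fin (add (start D9280) D5778)))) D5797) D5913)
noncomputable def D5859 : OP := win (nat_lit 6) (nat_lit 12) (nat_lit 5) (nat_lit 0)
noncomputable def D5858 : OP := win (nat_lit 7) (nat_lit 12) (nat_lit 7) (nat_lit 0)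
noncomputable def D5864 : OP := orK (nat_lit 152) (fin (add (start D5858) (orK (nat_lit 132) (fin (add (start D5859) (win (nat_lit 7) (nat_lit 12) (nat_lit 6) (nat_lit 3)))))))
noncomputable def D15777 : OP := orK (nat_lit 213) (fin (add (add (add (start D5864) (orK (nat_lit 233) D15741)) (orK (nat_lit 233) (fin (add (start D6238) (orK (nat_lit 252) (fin (add (start D5785) (orK (nat_lit 253) (fin (add (start D1199) D5791)))))))))) (orK (nat_lit 153) (fin (add (add (add (start (orK (nat_lit 134) (fin (add (start D5834) (orK (nat_lit 133) (fin (add (start D5833) D5840))))))) D7889) D7869) (orK (nat_lit 214) (fin (add (start D5838) (orK (nat_lit 154) (fin (add (start D5775) (orK (nat_lit 152) (fin (add (start D5843) (orK (nat_lit 155) (fin (add (start (win (nat_lit 5) (nat_lit 12) (nat_lit 7) (nat_lit 0))) (orK (nat_lit 175) (fin (add (start D13739) (orK (nat_lit 135) (fin (add (start (win (nat_lit 4) (nat_lit 12) (nat_lit 6) (nat_lit 5))) (orK (nat_lit 195) (fin (add (start (win (nat_lit 1) (nat_lit 14) (nat_lit 6) (nat_lit 4))) (orK (nat_lit 196) (fin (add (start (win (nat_lit 0) (nat_lit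 12) (nat_lit 8) (nat_lit 2))) (win (nat_lit 6) (nat_lit 15) (nat_lit 6) (nat_lit 5)))))))))))))))))))))))))))))))
noncomputable def D15790 : OP := orK (nat_lit 172) (fin (add (add (add (start D15785) D15777) D15786) (orK (nat_lit 171) (fin (add (start D15783) D7650)))))
noncomputable def D959 : OP := win (nat_lit 6) (nat_lit 13) (nat_lit 10) (nat_lit 5)
noncomputable def D958 : OP := win (nat_lit 6) (nat_lit 13) (nat_lit 9) (nat_lit 4)
noncomputable def D961 : OP := orK (nat_lit 274) (fin (add (start D958) D959))
noncomputable def D5327 : OP := win (nat_lit 1) (nat_lit 12) (nat_lit 10) (nat_lit 5)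
noncomputable def D833 : OP := win (nat_lit 1) (nat_lit 12) (nat_lit 9) (nat_lit 4)
noncomputable def D6248 : AP := fin (add (start D833) (orK (nat_lit 273) (fin (add (start D5327) D961))))
noncomputable def D6249 : OP := orK (nat_lit 272) D6248
noncomputable def D956 : OP := win (nat_lit 3) (nat_lit 13) (nat_lit 9) (nat_lit 4)
noncomputable def D957 : OP := win (nat_lit 3) (nat_lit 13) (nat_lit 8) (nat_lit 5)
noncomputable def D1618 : OP := orK (nat_lit 194) (fin (add (start D957) D956))
noncomputable def D7877 : OP := orK (nat_lit 272) (fin (add (start D833) (orK (nat_lit 273) (fin (add (start D5327) D1618)))))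
noncomputable def D7895 : OP := orK (nat_lit 213) (fin (add (add (add (start (orK (nat_lit 234) (fin (add (start D5780) (orK (nat_lit 153) (fin (add (start D5779) D7869))))))) (orK (nat_lit 254) (fin (add (start D5621) (orK (nat_lit 253) (fin (add (start D5622) D7877))))))) (orK (nat_lit 174) (fin (add (start D5788) (orK (nat_lit 253) (fin (add (start D5789) D6249))))))) (orK (nat_lit 154) (fin (add (start D5776) (orK (nat_lit 153) (fin (add (start D5775) D7889))))))))
noncomputable def D5768 : OP := win (nat_lit 7) (nat_lit 13) (nat_lit 8) (nat_lit 3)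
noncomputable def D8138 : OP := win (nat_lit 4) (nat_lit 11) (nat_lit 10) (nat_lit 5)
noncomputable def D15733 : OP := orK (nat_lit 172) D7651
noncomputable def D15715 : OP := win (nat_lit 3) (nat_lit 13) (nat_lit 4) (nat_lit 5)
noncomputable def D15714 : OP := win (nat_lit 3) (nat_lit 13) (nat_lit 5) (nat_lit 4)
noncomputable def D15689 : OP := orK (nat_lit 232) (fin (add (start D8259) (orK (nat_lit 233) (fin (add (start D6334) D5782)))))
noncomputable def D15873 : AP := fin (add (start D6334) D6238)
noncomputable def D6272 : OP := win (nat_lit 7) (nat_lit 12) (nat_lit 8) (nat_lit 4)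
noncomputable def D9313 : OP := win (nat_lit 6) (nat_lit 12) (nat_lit 6) (nat_lit 0)
noncomputable def D15806 : AP := fin (add (start D9313) (win (nat_lit 6) (nat_lit 12) (nat_lit 7) (nat_lit 3)))
noncomputable def D15614 : OP := win (nat_lit 7) (nat_lit 12) (nat_lit 7) (nat_lit 3)
noncomputable def D205 : OP := win (nat_lit 0) (nat_lit 10) (nat_lit 11) (nat_lit 5)
noncomputable def D7645 : OP := win (nat_lit 0) (nat_lit 9) (nat_lit 8) (nat_lit 4)
noncomputable def D15807 : OP := orK (nat_lit 152) D15806
noncomputable def D15802 : OP := orK (nat_lit 232) (fin (add (start D919) D207))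
noncomputable def D8294 : OP := win (nat_lit 6) (nat_lit 12) (nat_lit 8) (nat_lit 2)
noncomputable def D6239 : OP := win (nat_lit 7) (nat_lit 12) (nat_lit 8) (nat_lit 0)
noncomputable def D7653 : AP := fin (add (start D7645) (orK (nat_lit 173) D7651))
noncomputable def D15583 : OP := win (nat_lit 2) (nat_lit 9) (nat_lit 8) (nat_lit 1)
noncomputable def D13169 : AP := fin (add (start D7645) D7646)
noncomputable def D977 : OP := win (nat_lit 4) (nat_lit 12) (nat_lit 9) (nat_lit 5)
noncomputable def D976 : OP := win (nat_lit 0) (nat_lit 12) (nat_lit 10) (nat_lit 5)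
noncomputable def D9263 : OP := win (nat_lit 1) (nat_lit 12) (nat_lit 7) (nat_lit 5)
noncomputable def D5783 : AP := fin (add (start D5778) D5782)
noncomputable def D8206 : OP := win (nat_lit 3) (nat_lit 12) (nat_lit 8) (nat_lit 0)
noncomputable def D8208 : OP := win (nat_lit 1) (nat_lit 12) (nat_lit 7) (nat_lit 3)
noncomputable def D8207 : OP := win (nat_lit 1) (nat_lit 12) (nat_lit 6) (nat_lit 0)
noncomputable def D15586 : OP := win (nat_lit 2) (nat_lit 9) (nat_lit 8) (nat_lit 2)
noncomputable def D7861 : OP := orK (nat_lit 172) (fin (add (start D7646) D7682))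
noncomputable def D1198 : OP := win (nat_lit 1) (nat_lit 12) (nat_lit 8) (nat_lit 0)
noncomputable def D9954 : AP := fin (add (start D1198) (orK (nat_lit 272) (fin (add (start (win (nat_lit 3) (nat_lit 12) (nat_lit 9) (nat_lit 3))) (win (nat_lit 3) (nat_lit 12) (nat_lit 10) (nat_lit 0))))))
noncomputable def D8233 : OP := win (nat_lit 4) (nat_lit 12) (nat_lit 7) (nat_lit 5)
noncomputable def D8214 : OP := win (nat_lit 0) (nat_lit 12) (nat_lit 8) (nat_lit 5)
noncomputable def D8215 : OP := win (nat_lit 5) (nat_lit 12) (nat_lit 8) (nat_lit 0)
noncomputable def D5844 : OP := win (nat_lit 7) (nat_lit 12) (nat_lit 7) (nat_lit 4)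
noncomputable def D5846 : OP := orK (nat_lit 152) (fin (add (start D5843) D5844))
noncomputable def D5876 : OP := orK (nat_lit 154) (fin (add (start D5776) (orK (nat_lit 153) (fin (add (start D5775) D5846)))))
noncomputable def D5900 : OP := orK (nat_lit 234) (fin (add (start D5780) (orK (nat_lit 153) (fin (add (start D5779) D5846)))))
noncomputable def D834 : OP := win (nat_lit 7) (nat_lit 12) (nat_lit 8) (nat_lit 5)
noncomputable def D6269 : OP := orK (nat_lit 272) (fin (add (start D833) D5327))
noncomputable def D6271 : OP := orK (nat_lit 273) (fin (add (start D6269) D961))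
noncomputable def D5291 : OP := win (nat_lit 6) (nat_lit 12) (nat_lit 9) (nat_lit 5)
noncomputable def D7409 : OP := win (nat_lit 3) (nat_lit 12) (nat_lit 8) (nat_lit 5)
noncomputable def D923 : OP := win (nat_lit 6) (nat_lit 12) (nat_lit 8) (nat_lit 0)
noncomputable def D125 : OP := win (nat_lit 3) (nat_lit 10) (nat_lit 8) (nat_lit 5)
noncomputable def D16070 : AP := fin (add (add (add (add (start (orK (nat_lit 191) (fin (add (start D15583) (orK (nat_lit 250) (fin (add (start D125) D50))))))) (orK (nat_lit 231) (fin (add (start D10) (orK (nat_lit 233) (fin (add (add (add (add (start (orK (nat_lit 192) (fin (add (start D15586) (orK (nat_lit 232) (fin (add (start D919) (orK (nat_lit 253) (fin (add (start D205) (orK (nat_lit 213) (fin (add (start D207) D834))))))))))))) (orK (nat_lit 232) (fin (add (start D919) (orK (nat_lit 254) (fin (add (start D2716) (orK (nat_lit 234) (fin (add (start D2717) (orK (nat_lit 213) (fin (add (start D207) (win (nat_lit 6) (nat_lit 13) (nat_lit 8) (nat_lit 0))))))))))))))) (orK (nat_lit 192) (fin (add (start D15586) (orK (nat_lit 232) (fin (add (start D919)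 (orK (nat_lit 253) (fin (add (start D205) (orK (nat_lit 212) (fin (add (start D923) (orK (nat_lit 252) (fin (add (start D7409) D5291)))))))))))))))) (orK (nat_lit 213) (fin (add (add (add (start (orK (nat_lit 192) (fin (add (start D15586) (orK (nat_lit 172) (fin (add (start D6239) (orK (nat_lit 152) (fin (add (start D9313) D15614)))))))))) (orK (nat_lit 253) (fin (add (add (start (orK (nat_lit 173) D5912)) (orK (nat_lit 273) (fin (add (start D6269) D1618)))) D6271)))) (orK (nat_lit 192) (fin (add (start D15586) (orK (nat_lit 253) (fin (add (start D834) D7877))))))) (orK (nat_lit 173) (fin (add (add (add (start (orK (nat_lit 154) (fin (add (start D5776) (orK (nat_lit 153) (fin (add (start D5775) D5782))))))) D5900) D5876) (orK (nat_lit 234) (fin (add (start D5780) (orK (nat_lit 192) (fin (add (start D15586) (orK (nat_lit 174) (fin (add (start D5788) (orK (nat_lit 172) (fin (add (start D6238) (orK (nat_lit 175) (fin (add (start D8215) (orK (nat_lit 195) (fin (add (start D8214) (orK (nat_lit 155) (fin (add (start D8233) (orK (nat_lit 215) (fin (add (start (win (nat_lit 1) (nat_lit 14) (nat_lit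 7) (nat_lit 4))) (orK (nat_lit 216) (fin (add (start (win (nat_lit 0) (nat_lit 12) (nat_lit 9) (nat_lit 2))) (win (nat_lit 6) (nat_lit 15) (nat_lit 7) (nat_lit 5)))))))))))))))))))))))))))))))))))) (orK (nat_lit 192) (fin (add (start D15586) (orK (nat_lit 232) (fin (add (start D919) (orK (nat_lit 213) (fin (add (start D207) (orK (nat_lit 252) D9954))))))))))))))))) (orK (nat_lit 173) (fin (add (add (add (add (add (start (orK (nat_lit 191) (fin (add (start D15583) (orK (nat_lit 171) (fin (add (start D7819) D7861))))))) (orK (nat_lit 192) (fin (add (start D15586) (orK (nat_lit 153) (fin (add (add (add (start (orK (nat_lit 212) (fin (add (start D8207) (orK (nat_lit 232) (fin (add (start D8208) D8206))))))) (orK (nat_lit 213) (fin (add (add (start (orK (nat_lit 133) (fin (add (start D5840) D5852)))) (orK (nat_lit 233) D5783)) D5854)))) (orK (nat_lit 213) (fin (add (add (add (start (orK (nat_lit 232) (fin (add (start D8259) (orK (nat_lit 233) (fin (add (start D6334) D5778))))))) D15689) (orK (nat_lit 154) (fin (add (start D5775) (orK (nat_lit 233) (fin (add (start D5776) D5782))))))) (orK (nat_lit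 154) (fin (add (start D5775) (orK (nat_lit 212) (fin (add (start D9263) (orK (nat_lit 214) (fin (add (start D5838) (orK (nat_lit 215) (fin (add (start (win (nat_lit 2) (nat_lit 12) (nat_lit 9) (nat_lit 0))) (orK (nat_lit 235) (fin (add (start D976) (orK (nat_lit 195) (fin (add (start D977) (orK (nat_lit 174) (fin (add (start (win (nat_lit 6) (nat_lit 14) (nat_lit 7) (nat_lit 2))) (win (nat_lit 7) (nat_lit 14) (nat_lit 7) (nat_lit 3))))))))))))))))))))))))))) (orK (nat_lit 133) (fin (add (start (win (nat_lit 1) (nat_lit 12) (nat_lit 6) (nat_lit 5))) (orK (nat_lit 114) (fin (add (start D15714) (orK (nat_lit 113) (fin (add (start D15715) (orK (nat_lit 174) (fin (add (start (win (nat_lit 6) (nat_lit 13) (nat_lit 5) (nat_lit 5))) (orK (nat_lit 112) (fin (add (start (win (nat_lit 7) (nat_lit 12) (nat_lit 4) (nat_lit 5))) (win (nat_lit 7) (nat_lit 12) (nat_lit 5) (nat_lit 4)))))))))))))))))))))))) (orK (nat_lit 191) (fin (add (start D15583) (orK (nat_lit 171) (fin (add (start D7819) D15733))))))) (orK (nat_lit 172) (fin (add (add (start (orK (nat_lit 171) D13169)) D15777) (orK (nat_lit 171) (fin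 (add (start D7645) D7650))))))) D15790) (orK (nat_lit 191) (fin (add (start D15583) (orK (nat_lit 171) (fin (add (start D7819) (orK (nat_lit 172) (fin (add (start D7682) D7650))))))))))))) (orK (nat_lit 172) (fin (add (add (add (add (start (orK (nat_lit 171) D7653)) (orK (nat_lit 231) (fin (add (start D10) (orK (nat_lit 192) (fin (add (start (win (nat_lit 0) (nat_lit 9) (nat_lit 8) (nat_lit 2))) (orK (nat_lit 233) (fin (add (add (add (start (orK (nat_lit 213) (fin (add (start D6239) D15802)))) (orK (nat_lit 213) (fin (add (start D6239) D15807)))) (orK (nat_lit 232) (fin (add (start D919) (orK (nat_lit 253) (fin (add (start D205) D8294))))))) (orK (nat_lit 213) (fin (add (start D15802) D15807))))))))))))) (orK (nat_lit 251) (fin (add (start D47) (orK (nat_lit 250) (fin (add (start D48) (orK (nat_lit 249) (fin (add (start D7) (orK (nat_lit 171) (fin (add (start D7645) (orK (nat_lit 173) D15834)))))))))))))) (orK (nat_lit 233) (fin (add (add (add (start (orK (nat_lit 231) (fin (add (start D10) (orK (nat_lit 232) (fin (add (start D919) (orK (nat_lit 253) (fin (add (start D205) (orK (nat_lit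 213) (fin (add (start D207) D6272))))))))))))) D15857) (orK (nat_lit 213) (fin (add (add (start (orK (nat_lit 152) (fin (add (start D15614) (orK (nat_lit 192) D15806))))) (orK (nat_lit 253) (fin (add (start D6272) D7877)))) (orK (nat_lit 173) (fin (add (start D6238) (orK (nat_lit 174) (fin (add (start D5788) (orK (nat_lit 253) (fin (add (start D5789) (orK (nat_lit 272) (fin (add (start D833) D5795)))))))))))))))) (orK (nat_lit 231) (fin (add (start D10) (orK (nat_lit 232) (fin (add (start D919) (orK (nat_lit 213) (fin (add (start D207) (orK (nat_lit 173) D15873)))))))))))))) (orK (nat_lit 173) (fin (add (add (add (start D15786) D15918) (orK (nat_lit 251) (fin (add (start D47) (orK (nat_lit 250) (fin (add (start D48) (orK (nat_lit 249) (fin (add (start D7) (orK (nat_lit 171) D15834))))))))))) (orK (nat_lit 153) (fin (add (add (add (start (orK (nat_lit 171) (fin (add (start D7646) D7647)))) (orK (nat_lit 194) (fin (add (start D15928) (orK (nat_lit 214) (fin (add (start (win (nat_lit 6) (nat_lit 13) (nat_lit 6) (nat_lit 0))) (orK (nat_lit 234) (fin (add (start (win (nat_lit 6) (nat_lit 13)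 (nat_lit 7) (nat_lit 3))) (win (nat_lit 7) (nat_lit 13) (nat_lit 7) (nat_lit 3)))))))))))) (orK (nat_lit 132) (fin (add (add (start (orK (nat_lit 112) (fin (add (start D15938) (orK (nat_lit 152) (fin (add (start D15939) D15940))))))) (orK (nat_lit 213) (fin (add (start D5850) D15689)))) (orK (nat_lit 133) (fin (add (start D5849) (orK (nat_lit 114) (fin (add (start D15714) (orK (nat_lit 113) (fin (add (start D15715) (orK (nat_lit 130) (fin (add (start (win (nat_lit 4) (nat_lit 10) (nat_lit 5) (nat_lit 1))) (orK (nat_lit 194) (fin (add (start (win (nat_lit 6) (nat_lit 13) (nat_lit 5) (nat_lit 4))) (win (nat_lit 6) (nat_lit 13) (nat_lit 6) (nat_lit 5))))))))))))))))))))) (orK (nat_lit 152) (fin (add (start (win (nat_lit 4) (nat_lit 9) (nat_lit 7) (nat_lit 2))) (orK (nat_lit 132) (fin (add (start D5859) D15940)))))))))))))))) (orK (nat_lit 173) (fin (add (add (add (add (add (add (start (orK (nat_lit 251) (fin (add (start D47) (orK (nat_lit 250) (fin (add (start D48) (orK (nat_lit 171) (fin (add (start D8) D15733)))))))))) (orK (nat_lit 231) (fin (add (start D10) (orK (nat_lit 233) (fin (add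 (add (add (start D15886) (orK (nat_lit 213) D15741)) (orK (nat_lit 232) (fin (add (start D919) (orK (nat_lit 254) (fin (add (start D2716) (orK (nat_lit 234) (fin (add (start D2717) (orK (nat_lit 214) (fin (add (start D8138) D5768))))))))))))) D7895))))))) D15790) (orK (nat_lit 251) (fin (add (start D47) (orK (nat_lit 250) (fin (add (start D48) (orK (nat_lit 249) (fin (add (start D7) (orK (nat_lit 171) (fin (add (start D8) (orK (nat_lit 172) D15834)))))))))))))) (orK (nat_lit 172) (fin (add (add (add (start D15785) D15918) (orK (nat_lit 171) (fin (add (start D7646) D62)))) (orK (nat_lit 231) (fin (add (start D10) (orK (nat_lit 233) (fin (add (add (start D15886) (orK (nat_lit 171) (fin (add (start D7646) (orK (nat_lit 174) (fin (add (start D7673) (orK (nat_lit 213) (fin (add (start D5788) D6238)))))))))) (orK (nat_lit 194) (fin (add (start D15928) (orK (nat_lit 232) (fin (add (start D919) (orK (nat_lit 254) (fin (add (start D2716) (orK (nat_lit 234) (fin (add (start D2717) (win (nat_lit 7) (nat_lit 13) (nat_lit 8) (nat_lit 2)))))))))))))))))))))))) (orK (nat_lit 251) (fin (add (start D47)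 (orK (nat_lit 250) (fin (add (start D48) (orK (nat_lit 171) (fin (add (start D8) (orK (nat_lit 249) (fin (add (start D7) (orK (nat_lit 172) (fin (add (start D7646) (orK (nat_lit 152) (fin (add (start D11302) (orK (nat_lit 233) (fin (add (start D16024) D15827)))))))))))))))))))))) (orK (nat_lit 250) (fin (add (start D50) (orK (nat_lit 171) (fin (add (start D8) (orK (nat_lit 153) (fin (add (add (add (start (orK (nat_lit 172) D7649)) (orK (nat_lit 154) (fin (add (start (win (nat_lit 4) (nat_lit 10) (nat_lit 7) (nat_lit 2))) (orK (nat_lit 134) (fin (add (start (win (nat_lit 3) (nat_lit 13) (nat_lit 6) (nat_lit 0))) (orK (nat_lit 114) (fin (add (start (win (nat_lit 1) (nat_lit 13) (nat_lit 4) (nat_lit 0))) (win (nat_lit 1) (nat_lit 13) (nat_lit 5) (nat_lit 3)))))))))))) (orK (nat_lit 152) (fin (add (start D16050) (orK (nat_lit 132) (fin (add (start D15940) (orK (nat_lit 112) (fin (add (start D15939) D15938)))))))))) (orK (nat_lit 213) (fin (add (start (orK (nat_lit 233) (fin (add (start D9280) D5782)))) D5854))))))))))))))))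
noncomputable def D11353 : OP := win (nat_lit 5) (nat_lit 6) (nat_lit 8) (nat_lit 4)
noncomputable def D11352 : OP := win (nat_lit 5) (nat_lit 5) (nat_lit 8) (nat_lit 5)
noncomputable def D11355 : OP := orK (nat_lit 186) (fin (add (start D11352) D11353))
noncomputable def D11350 : OP := win (nat_lit 2) (nat_lit 5) (nat_lit 7) (nat_lit 5)
noncomputable def D11351 : OP := win (nat_lit 2) (nat_lit 6) (nat_lit 7) (nat_lit 4)
noncomputable def D16218 : AP := fin (add (start D11) (orK (nat_lit 167) (fin (add (add (start (orK (nat_lit 168) (fin (add (start D8522) (orK (nat_lit 146) (fin (add (start D11351) (orK (nat_lit 166) (fin (add (start D11350) D11355)))))))))) (orK (nat_lit 193) D16070)) (orK (nat_lit 187) D16214)))))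
noncomputable def D17376 : OP := win (nat_lit 5) (nat_lit 9) (nat_lit 7) (nat_lit 3)
noncomputable def D17285 : OP := win (nat_lit 4) (nat_lit 8) (nat_lit 7) (nat_lit 0)
noncomputable def D7671 : OP := win (nat_lit 0) (nat_lit 10) (nat_lit 8) (nat_lit 4)
noncomputable def D17429 : OP := orK (nat_lit 232) (fin (add (start D919) (orK (nat_lit 194) (fin (add (start D7671) (orK (nat_lit 254) (fin (add (start D2716) (orK (nat_lit 234) (fin (add (start D2717) (orK (nat_lit 195) (fin (add (start (win (nat_lit 0) (nat_lit 11) (nat_lit 8) (nat_lit 3))) (orK (nat_lit 214) (fin (add (start (win (nat_lit 3) (nat_lit 14) (nat_lit 8) (nat_lit 5))) D8138)))))))))))))))))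
noncomputable def D8137 : OP := win (nat_lit 4) (nat_lit 10) (nat_lit 10) (nat_lit 4)
noncomputable def D8144 : OP := orK (nat_lit 254) (fin (add (start D2716) (orK (nat_lit 234) (fin (add (start D2717) (orK (nat_lit 214) (fin (add (start D8137) D8138))))))))
noncomputable def D8145 : AP := fin (add (start D919) D8144)
noncomputable def D17399 : OP := orK (nat_lit 232) D8145
noncomputable def D7672 : OP := win (nat_lit 0) (nat_lit 11) (nat_lit 8) (nat_lit 5)
noncomputable def D8341 : OP := orK (nat_lit 154) (fin (add (start D8339) D8222))
noncomputable def D17339 : OP := orK (nat_lit 194) (fin (add (start D7671) (orK (nat_lit 174) (fin (add (start D7672) D8341)))))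
noncomputable def D7681 : OP := orK (nat_lit 153) (fin (add (start D7647) (orK (nat_lit 173) (fin (add (start D7648) (orK (nat_lit 194) (fin (add (start D7671) (orK (nat_lit 174) (fin (add (start D7672) D7673)))))))))))
noncomputable def D7654 : OP := orK (nat_lit 193) D7653
noncomputable def D8583 : OP := win (nat_lit 2) (nat_lit 7) (nat_lit 7) (nat_lit 5)
noncomputable def D7666 : OP := orK (nat_lit 147) (fin (add (start D7657) (orK (nat_lit 167) (fin (add (start D7658) D7662)))))
noncomputable def D7667 : AP := fin (add (start D7656) D7666)
noncomputable def D7670 : OP := orK (nat_lit 192) (fin (add (start D7655) (orK (nat_lit 168) D7667)))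
noncomputable def D11301 : OP := win (nat_lit 4) (nat_lit 8) (nat_lit 7) (nat_lit 4)
noncomputable def D63 : AP := fin (add (start D9) D62)
noncomputable def D11280 : OP := win (nat_lit 4) (nat_lit 8) (nat_lit 7) (nat_lit 5)
noncomputable def D11279 : OP := win (nat_lit 4) (nat_lit 7) (nat_lit 7) (nat_lit 4)
noncomputable def D11300 : OP := orK (nat_lit 151) (fin (add (start D11279) D11280))
noncomputable def D17167 : OP := orK (nat_lit 147) (fin (add (start D7657) (orK (nat_lit 167) (fin (add (start D7658) D11300)))))
noncomputable def D10141 : OP := win (nat_lit 2) (nat_lit 10) (nat_lit 7) (nat_lit 0)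
noncomputable def D7896 : OP := win (nat_lit 2) (nat_lit 9) (nat_lit 7) (nat_lit 5)
noncomputable def D16556 : OP := win (nat_lit 4) (nat_lit 7) (nat_lit 7) (nat_lit 0)
noncomputable def D17157 : OP := win (nat_lit 2) (nat_lit 8) (nat_lit 7) (nat_lit 4)
noncomputable def D17159 : OP := orK (nat_lit 148) (fin (add (start D8583) D17157))
noncomputable def D8330 : OP := win (nat_lit 2) (nat_lit 9) (nat_lit 7) (nat_lit 4)
noncomputable def D11985 : OP := win (nat_lit 2) (nat_lit 8) (nat_lit 7) (nat_lit 5)
noncomputable def D17340 : OP := win (nat_lit 2) (nat_lit 10) (nat_lit 7) (nat_lit 5)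
noncomputable def D8232 : OP := win (nat_lit 4) (nat_lit 11) (nat_lit 7) (nat_lit 4)
noncomputable def D8235 : OP := orK (nat_lit 155) (fin (add (start D8232) D8233))
noncomputable def D11304 : OP := orK (nat_lit 152) (fin (add (start D11301) D11302))
noncomputable def D11315 : OP := win (nat_lit 4) (nat_lit 7) (nat_lit 7) (nat_lit 5)
noncomputable def D11075 : OP := win (nat_lit 4) (nat_lit 6) (nat_lit 7) (nat_lit 0)
noncomputable def D11790 : AP := fin (add (start D11075) D11315)
noncomputable def D11791 : OP := orK (nat_lit 167) D11790
noncomputable def D8299 : OP := win (nat_lit 2) (nat_lit 9) (nat_lit 7) (nat_lit 0)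
noncomputable def D17152 : OP := orK (nat_lit 149) (fin (add (start D11985) D8330))
noncomputable def D13170 : OP := orK (nat_lit 193) D13169
noncomputable def D13173 : AP := fin (add (start D8532) D11304)
noncomputable def D17235 : OP := orK (nat_lit 131) (fin (add (start (win (nat_lit 6) (nat_lit 11) (nat_lit 5) (nat_lit 0))) (win (nat_lit 7) (nat_lit 11) (nat_lit 6) (nat_lit 0))))
noncomputable def D8213 : OP := win (nat_lit 0) (nat_lit 11) (nat_lit 8) (nat_lit 4)
noncomputable def D7856 : OP := win (nat_lit 2) (nat_lit 10) (nat_lit 8) (nat_lit 0)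
noncomputable def D10292 : OP := win (nat_lit 3) (nat_lit 12) (nat_lit 4) (nat_lit 5)
noncomputable def D13277 : OP := win (nat_lit 1) (nat_lit 11) (nat_lit 5) (nat_lit 5)
noncomputable def D10291 : OP := win (nat_lit 1) (nat_lit 11) (nat_lit 4) (nat_lit 0)
noncomputable def D13279 : OP := orK (nat_lit 112) (fin (add (start D10291) D13277))
noncomputable def D9850 : OP := win (nat_lit 3) (nat_lit 12) (nat_lit 5) (nat_lit 5)
noncomputable def D11310 : OP := orK (nat_lit 173) (fin (add (start D8330) D7650))
noncomputable def D11128 : OP := win (nat_lit 7) (nat_lit 10) (nat_lit 5) (nat_lit 4)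
noncomputable def D8393 : OP := win (nat_lit 7) (nat_lit 10) (nat_lit 4) (nat_lit 5)
noncomputable def D11130 : OP := orK (nat_lit 110) (fin (add (start D8393) D11128))
noncomputable def D8392 : OP := win (nat_lit 3) (nat_lit 11) (nat_lit 4) (nat_lit 5)
noncomputable def D14972 : OP := win (nat_lit 3) (nat_lit 11) (nat_lit 5) (nat_lit 4)
noncomputable def D8833 : OP := win (nat_lit 3) (nat_lit 8) (nat_lit 5) (nat_lit 3)
noncomputable def D8371 : OP := win (nat_lit 3) (nat_lit 11) (nat_lit 3) (nat_lit 5)
noncomputable def D11031 : OP := win (nat_lit 1) (nat_lit 10) (nat_lit 4) (nat_lit 4)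
noncomputable def D8835 : OP := win (nat_lit 3) (nat_lit 8) (nat_lit 6) (nat_lit 0)
noncomputable def D11066 : OP := win (nat_lit 1) (nat_lit 8) (nat_lit 5) (nat_lit 0)
noncomputable def D11388 : OP := orK (nat_lit 129) (fin (add (start D11066) D8835))
noncomputable def D14967 : OP := orK (nat_lit 188) (fin (add (start D8533) D11388))
noncomputable def D17373 : AP := fin (add (add (add (add (add (add (start (orK (nat_lit 168) (fin (add (add (add (start D17167) (orK (nat_lit 151) (fin (add (start D11280) (orK (nat_lit 167) (fin (add (start D11279) D7662))))))) D7666) (orK (nat_lit 151) (fin (add (start D11280) (orK (nat_lit 148) (fin (add (start D8583) (orK (nat_lit 191) (fin (add (start D7684) (orK (nat_lit 131) (fin (add (add (start (orK (nat_lit 132) (fin (add (start (win (nat_lit 3) (nat_lit 11) (nat_lit 5) (nat_lit 5))) (orK (nat_lit 149) (fin (add (start (win (nat_lit 4) (nat_lit 8) (nat_lit 6) (nat_lit 2))) D14967))))))) (orK (nat_lit 110) (fin (add (start D11128) (orK (nat_lit 111) (fin (add (start D8393) (orK (nat_lit 91) (fin (add (start D11031) (orK (nat_lit 92) (fin (add (start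 D8371) (orK (nat_lit 109) (fin (add (start (win (nat_lit 4) (nat_lit 8) (nat_lit 4) (nat_lit 0))) (orK (nat_lit 188) (fin (add (start D8533) (orK (nat_lit 129) (fin (add (start (win (nat_lit 1) (nat_lit 8) (nat_lit 5) (nat_lit 2))) D8833)))))))))))))))))))))) (orK (nat_lit 112) (fin (add (start D14972) (orK (nat_lit 111) (fin (add (start D8392) D11130)))))))))))))))))))))) (orK (nat_lit 172) (fin (add (add (add (start (orK (nat_lit 193) (fin (add (start D7645) (orK (nat_lit 173) (fin (add (start D7646) D17152))))))) D7654) (orK (nat_lit 149) (fin (add (start D11985) D11310)))) (orK (nat_lit 192) (fin (add (start D7655) (orK (nat_lit 152) (fin (add (start D11302) (orK (nat_lit 149) (fin (add (start D11985) (orK (nat_lit 132) (fin (add (add (start (orK (nat_lit 151) (fin (add (start (orK (nat_lit 133) (fin (add (start D9850) (win (nat_lit 4) (nat_lit 9) (nat_lit 6) (nat_lit 1)))))) D17235)))) (orK (nat_lit 151) (fin (add (start D13279) D17235)))) (orK (nat_lit 112) (fin (add (start D13277) (orK (nat_lit 113) (fin (add (start D10292) (win (nat_lit 3) (nat_lit 12) (nat_lit 5) (nat_lit 4))))))))))))))))))))))))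 (orK (nat_lit 192) (fin (add (add (add (start (orK (nat_lit 191) (fin (add (start (win (nat_lit 0) (nat_lit 8) (nat_lit 8) (nat_lit 0))) (orK (nat_lit 193) (fin (add (start (win (nat_lit 0) (nat_lit 9) (nat_lit 8) (nat_lit 3))) D7856))))))) (orK (nat_lit 168) (fin (add (start D7656) (orK (nat_lit 151) (fin (add (start D11280) (orK (nat_lit 167) (fin (add (start D11279) (orK (nat_lit 146) (fin (add (start D11351) D7662))))))))))))) (orK (nat_lit 172) (fin (add (start D7655) (orK (nat_lit 153) (fin (add (start D7647) (orK (nat_lit 173) (fin (add (start D7648) (orK (nat_lit 150) (fin (add (start D7896) (orK (nat_lit 174) (fin (add (start (win (nat_lit 2) (nat_lit 10) (nat_lit 7) (nat_lit 4))) (orK (nat_lit 195) (fin (add (start D8213) (orK (nat_lit 175) (fin (add (start D8214) (win (nat_lit 5) (nat_lit 11) (nat_lit 8) (nat_lit 5)))))))))))))))))))))))) (orK (nat_lit 172) (fin (add (start D7655) (orK (nat_lit 152) (fin (add (start D11302) (orK (nat_lit 151) (fin (add (start D17285) D17235))))))))))))) (orK (nat_lit 168) (fin (add (start D8546) (orK (nat_lit 172) D13173))))) (orK (nat_lit 172)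 (fin (add (add (start (orK (nat_lit 168) (fin (add (start D8532) D17159)))) (orK (nat_lit 173) (fin (add (start D13170) D7650)))) (orK (nat_lit 173) (fin (add (start D17152) D7650))))))) (orK (nat_lit 168) (fin (add (add (add (start (orK (nat_lit 192) (fin (add (start D7656) (orK (nat_lit 172) (fin (add (start D7655) D17159))))))) (orK (nat_lit 187) (fin (add (start D7660) (orK (nat_lit 167) (fin (add (start D7659) (orK (nat_lit 146) (fin (add (start D11351) (orK (nat_lit 166) (fin (add (start D11350) (orK (nat_lit 150) (fin (add (start (win (nat_lit 4) (nat_lit 6) (nat_lit 7) (nat_lit 4))) D11315)))))))))))))))) (orK (nat_lit 192) (fin (add (start D7656) (orK (nat_lit 172) (fin (add (start D7655) (orK (nat_lit 149) (fin (add (start D11985) (orK (nat_lit 150) (fin (add (start D8299) D11791))))))))))))) D7666)))) (orK (nat_lit 172) (fin (add (add (add (start (orK (nat_lit 148) (fin (add (start D17157) (orK (nat_lit 168) (fin (add (start D8583) D11304))))))) (orK (nat_lit 173) (fin (add (add (add (start D7650) D17339) (orK (nat_lit 194) (fin (add (start D7671) (orK (nat_lit 174) (fin (add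 (start D7672) (orK (nat_lit 151) (fin (add (start D17340) (orK (nat_lit 175) (fin (add (start (win (nat_lit 2) (nat_lit 11) (nat_lit 7) (nat_lit 4))) D8235))))))))))))) (orK (nat_lit 152) (fin (add (start D11302) (orK (nat_lit 151) (fin (add (start D17285) (orK (nat_lit 174) (fin (add (start D17340) (win (nat_lit 2) (nat_lit 11) (nat_lit 7) (nat_lit 0))))))))))))))) (orK (nat_lit 149) (fin (add (start D11985) (orK (nat_lit 173) (fin (add (start D8330) D17339))))))) (orK (nat_lit 168) (fin (add (add (start D17159) (orK (nat_lit 151) (fin (add (start D11280) (orK (nat_lit 150) (fin (add (start D16556) (orK (nat_lit 173) (fin (add (start D7896) D10141)))))))))) D17167)))))))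
noncomputable def D12372 : OP := win (nat_lit 3) (nat_lit 6) (nat_lit 6) (nat_lit 0)
noncomputable def D12373 : OP := win (nat_lit 1) (nat_lit 6) (nat_lit 4) (nat_lit 0)
noncomputable def D17087 : OP := orK (nat_lit 166) (fin (add (start D12373) (orK (nat_lit 186) (fin (add (start (win (nat_lit 3) (nat_lit 6) (nat_lit 5) (nat_lit 3))) D12372)))))
noncomputable def D12374 : OP := win (nat_lit 1) (nat_lit 6) (nat_lit 5) (nat_lit 3)
noncomputable def D14020 : AP := fin (add (start D12373) (orK (nat_lit 186) (fin (add (start D12374) D12372))))
noncomputable def D16898 : OP := win (nat_lit 4) (nat_lit 4) (nat_lit 5) (nat_lit 0)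
noncomputable def D16936 : OP := orK (nat_lit 125) (fin (add (start D16898) (win (nat_lit 5) (nat_lit 5) (nat_lit 5) (nat_lit 3))))
noncomputable def D13069 : OP := win (nat_lit 5) (nat_lit 6) (nat_lit 5) (nat_lit 0)
noncomputable def D14846 : OP := win (nat_lit 7) (nat_lit 8) (nat_lit 4) (nat_lit 2)
noncomputable def D16848 : OP := win (nat_lit 1) (nat_lit 7) (nat_lit 2) (nat_lit 0)
noncomputable def D16850 : AP := fin (add (start D16848) (win (nat_lit 1) (nat_lit 7) (nat_lit 3) (nat_lit 3)))
noncomputable def D16891 : OP := orK (nat_lit 68) D16850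
noncomputable def D12705 : AP := fin (add (start D12704) D4769)
noncomputable def D14231 : OP := orK (nat_lit 207) D12705
noncomputable def D16445 : OP := orK (nat_lit 208) (fin (add (start D12635) D14231))
noncomputable def D11372 : OP := win (nat_lit 1) (nat_lit 6) (nat_lit 6) (nat_lit 5)
noncomputable def D16511 : OP := orK (nat_lit 187) (fin (add (start D11372) D16445))
noncomputable def D12903 : OP := win (nat_lit 1) (nat_lit 6) (nat_lit 5) (nat_lit 4)
noncomputable def D11627 : OP := win (nat_lit 3) (nat_lit 7) (nat_lit 4) (nat_lit 5)
noncomputable def D14044 : OP := win (nat_lit 6) (nat_lit 6) (nat_lit 2) (nat_lit 0)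
noncomputable def D14043 : OP := win (nat_lit 7) (nat_lit 6) (nat_lit 4) (nat_lit 0)
noncomputable def D11626 : OP := win (nat_lit 3) (nat_lit 7) (nat_lit 5) (nat_lit 4)
noncomputable def D12891 : OP := win (nat_lit 7) (nat_lit 6) (nat_lit 4) (nat_lit 5)
noncomputable def D10793 : OP := win (nat_lit 5) (nat_lit 5) (nat_lit 5) (nat_lit 5)
noncomputable def D15170 : OP := win (nat_lit 4) (nat_lit 6) (nat_lit 4) (nat_lit 4)
noncomputable def D10764 : OP := win (nat_lit 3) (nat_lit 9) (nat_lit 4) (nat_lit 4)
noncomputable def D16528 : OP := win (nat_lit 0) (nat_lit 6) (nat_lit 5) (nat_lit 5)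
noncomputable def D14133 : AP := fin (add (start (win (nat_lit 0) (nat_lit 4) (nat_lit 5) (nat_lit 0))) (win (nat_lit 0) (nat_lit 5) (nat_lit 5) (nat_lit 5)))
noncomputable def D17008 : OP := orK (nat_lit 108) (fin (add (add (start (orK (nat_lit 106) (fin (add (add (start (orK (nat_lit 109) (fin (add (add (start (orK (nat_lit 105) (fin (add (start (orK (nat_lit 128) D14133)) (orK (nat_lit 125) (fin (add (start (win (nat_lit 5) (nat_lit 4) (nat_lit 5) (nat_lit 5))) (win (nat_lit 5) (nat_lit 5) (nat_lit 5) (nat_lit 4))))))))) (orK (nat_lit 129) (fin (add (start D16528) (orK (nat_lit 90) (fin (add (start D10764) D15170))))))) (orK (nat_lit 126) (fin (add (start D10793) D13069))))))) (orK (nat_lit 167) (fin (add (start D12891) (orK (nat_lit 186) (fin (add (start D12903) (orK (nat_lit 187) (fin (add (start D11372) D11626)))))))))) (orK (nat_lit 86) (fin (add (start D14043) (orK (nat_lit 66) (fin (add (start D14044) (win (nat_lit 6) (nat_lit 6) (nat_lit 3) (nat_lit 3)))))))))))) (orK (nat_lit 167) (fin (add (start D11627) (orK (nat_lit 186) (fin (add (start D12903) D16511))))))) (orK (nat_lit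 88) (fin (add (start D16891) (orK (nat_lit 109) (fin (add (start D14846) (orK (nat_lit 126) (fin (add (start D13069) D16936)))))))))))
noncomputable def D14030 : OP := win (nat_lit 7) (nat_lit 6) (nat_lit 3) (nat_lit 4)
noncomputable def D14029 : OP := win (nat_lit 7) (nat_lit 6) (nat_lit 2) (nat_lit 5)
noncomputable def D14032 : OP := orK (nat_lit 66) (fin (add (start D14029) D14030))
noncomputable def D16837 : OP := win (nat_lit 1) (nat_lit 6) (nat_lit 3) (nat_lit 4)
noncomputable def D11630 : OP := win (nat_lit 7) (nat_lit 6) (nat_lit 4) (nat_lit 4)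
noncomputable def D11629 : OP := win (nat_lit 7) (nat_lit 6) (nat_lit 3) (nat_lit 5)
noncomputable def D11632 : OP := orK (nat_lit 86) (fin (add (start D11629) D11630))
noncomputable def D14430 : OP := win (nat_lit 3) (nat_lit 7) (nat_lit 4) (nat_lit 4)
noncomputable def D14126 : OP := win (nat_lit 3) (nat_lit 7) (nat_lit 3) (nat_lit 5)
noncomputable def D12283 : OP := win (nat_lit 3) (nat_lit 7) (nat_lit 3) (nat_lit 4)
noncomputable def D12284 : OP := win (nat_lit 3) (nat_lit 7) (nat_lit 2) (nat_lit 5)
noncomputable def D16842 : OP := orK (nat_lit 68) (fin (add (start D12284) D12283))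
noncomputable def D13034 : OP := win (nat_lit 0) (nat_lit 6) (nat_lit 7) (nat_lit 2)
noncomputable def D16838 : OP := win (nat_lit 1) (nat_lit 6) (nat_lit 4) (nat_lit 5)
noncomputable def D12214 : OP := win (nat_lit 4) (nat_lit 4) (nat_lit 6) (nat_lit 0)
noncomputable def D12193 : OP := win (nat_lit 5) (nat_lit 6) (nat_lit 6) (nat_lit 0)
noncomputable def D10743 : OP := win (nat_lit 7) (nat_lit 8) (nat_lit 4) (nat_lit 5)
noncomputable def D10787 : OP := win (nat_lit 0) (nat_lit 6) (nat_lit 5) (nat_lit 0)
noncomputable def D10763 : OP := win (nat_lit 3) (nat_lit 9) (nat_lit 3) (nat_lit 5)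
noncomputable def D10766 : OP := orK (nat_lit 90) (fin (add (start D10763) D10764))
noncomputable def D12672 : OP := win (nat_lit 6) (nat_lit 9) (nat_lit 4) (nat_lit 4)
noncomputable def D17093 : OP := orK (nat_lit 89) (fin (add (start D12672) D10766))
noncomputable def D10769 : OP := win (nat_lit 7) (nat_lit 8) (nat_lit 3) (nat_lit 5)
noncomputable def D10770 : OP := win (nat_lit 7) (nat_lit 8) (nat_lit 4) (nat_lit 4)
noncomputable def D10803 : OP := win (nat_lit 5) (nat_lit 6) (nat_lit 5) (nat_lit 5)
noncomputable def D10600 : OP := win (nat_lit 3) (nat_lit 9) (nat_lit 4) (nat_lit 5)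
noncomputable def D13068 : OP := win (nat_lit 1) (nat_lit 6) (nat_lit 5) (nat_lit 5)
noncomputable def D14028 : OP := win (nat_lit 1) (nat_lit 6) (nat_lit 4) (nat_lit 4)
noncomputable def D13887 : OP := win (nat_lit 3) (nat_lit 7) (nat_lit 4) (nat_lit 0)
noncomputable def D16884 : OP := orK (nat_lit 166) (fin (add (start D13068) (orK (nat_lit 87) (fin (add (start D14028) D11632)))))
noncomputable def D16847 : OP := win (nat_lit 3) (nat_lit 7) (nat_lit 3) (nat_lit 3)
noncomputable def D17067 : OP := orK (nat_lit 67) (fin (add (start D16842) D14032))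
noncomputable def D16831 : OP := orK (nat_lit 166) (fin (add (start D14028) D13068))
noncomputable def D16840 : OP := orK (nat_lit 146) (fin (add (start D16837) D16838))
noncomputable def D14432 : OP := orK (nat_lit 88) (fin (add (start D14126) D14430))
noncomputable def D17036 : OP := win (nat_lit 3) (nat_lit 7) (nat_lit 2) (nat_lit 4)
noncomputable def D17037 : OP := win (nat_lit 3) (nat_lit 7) (nat_lit 1) (nat_lit 5)
noncomputable def D4597 : OP := win (nat_lit 5) (nat_lit 6) (nat_lit 10) (nat_lit 4)
noncomputable def D1955 : OP := win (nat_lit 0) (nat_lit 7) (nat_lit 10) (nat_lit 5)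
noncomputable def D11291 : AP := fin (add (start D1955) (orK (nat_lit 226) (fin (add (start D4288) D4597))))
noncomputable def D12621 : OP := orK (nat_lit 207) (fin (add (start D4769) (orK (nat_lit 209) D11291)))
noncomputable def D16496 : OP := orK (nat_lit 208) (fin (add (start D12635) D12621))
noncomputable def D12892 : OP := win (nat_lit 7) (nat_lit 6) (nat_lit 5) (nat_lit 4)
noncomputable def D10802 : OP := win (nat_lit 0) (nat_lit 8) (nat_lit 5) (nat_lit 5)
noncomputable def D10801 : OP := win (nat_lit 0) (nat_lit 7) (nat_lit 5) (nat_lit 4)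
noncomputable def D15111 : OP := orK (nat_lit 131) (fin (add (start D10801) D10802))
noncomputable def D10804 : OP := win (nat_lit 5) (nat_lit 7) (nat_lit 5) (nat_lit 4)
noncomputable def D15169 : OP := win (nat_lit 4) (nat_lit 7) (nat_lit 4) (nat_lit 5)
noncomputable def D15156 : OP := win (nat_lit 3) (nat_lit 9) (nat_lit 4) (nat_lit 2)
noncomputable def D16895 : OP := orK (nat_lit 90) (fin (add (start D15156) D15169))
noncomputable def D11642 : OP := win (nat_lit 6) (nat_lit 9) (nat_lit 4) (nat_lit 0)
noncomputable def D11641 : OP := win (nat_lit 0) (nat_lit 6) (nat_lit 6) (nat_lit 2)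
noncomputable def D13070 : OP := win (nat_lit 4) (nat_lit 6) (nat_lit 4) (nat_lit 5)
noncomputable def D10873 : OP := win (nat_lit 2) (nat_lit 8) (nat_lit 5) (nat_lit 0)
noncomputable def D10879 : OP := win (nat_lit 2) (nat_lit 7) (nat_lit 5) (nat_lit 3)
noncomputable def D10646 : OP := win (nat_lit 5) (nat_lit 6) (nat_lit 6) (nat_lit 5)
noncomputable def D10676 : OP := win (nat_lit 2) (nat_lit 7) (nat_lit 5) (nat_lit 0)
noncomputable def D10999 : OP := win (nat_lit 0) (nat_lit 6) (nat_lit 6) (nat_lit 5)
noncomputable def D12894 : OP := orK (nat_lit 106) (fin (add (start D12891) D12892))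
noncomputable def D12905 : OP := orK (nat_lit 108) (fin (add (start D11627) D11626))
noncomputable def D17126 : AP := fin (add (add (add (add (add (add (add (start (orK (nat_lit 167) (fin (add (add (start D16884) (orK (nat_lit 186) (fin (add (start D12903) (orK (nat_lit 187) (fin (add (start D11372) D12905))))))) (orK (nat_lit 108) (fin (add (start D11627) (orK (nat_lit 187) (fin (add (start D11626) D12894)))))))))) (orK (nat_lit 108) (fin (add (start (orK (nat_lit 109) (fin (add (add (add (start (orK (nat_lit 110) (fin (add (start D10803) D16895)))) (orK (nat_lit 126) (fin (add (start D13069) (orK (nat_lit 125) (fin (add (start D16898) (win (nat_lit 4) (nat_lit 5) (nat_lit 5) (nat_lit 3))))))))) (orK (nat_lit 129) (fin (add (add (add (start (orK (nat_lit 128) (fin (add (start (orK (nat_lit 126) (fin (add (start D10999) (win (nat_lit 4) (nat_lit 5) (nat_lit 5) (nat_lit 0)))))) (orK (nat_lit 130) (fin (add (start D10676) D10646))))))) (orK (nat_lit 130) (fin (add (start D10787) (orK (nat_lit 131) (fin (add (start D10879) D10873))))))) (orK (nat_lit 89) (fin (add (start D12672) (orK (nat_lit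 106) (fin (add (start D16528) D13070))))))) (orK (nat_lit 126) (fin (add (start (orK (nat_lit 150) (fin (add (start D11641) D11642)))) D16936))))))) (orK (nat_lit 110) (fin (add (start D16895) (orK (nat_lit 111) (fin (add (start D10804) D15111)))))))))) (orK (nat_lit 88) (fin (add (start D13887) (orK (nat_lit 68) (fin (add (start D16848) D16847)))))))))) D17008) (orK (nat_lit 87) (fin (add (add (add (start (orK (nat_lit 86) (fin (add (start D11629) (orK (nat_lit 167) (fin (add (start D11630) (orK (nat_lit 186) (fin (add (start D12903) (orK (nat_lit 187) (fin (add (start D11372) (orK (nat_lit 108) (fin (add (start D11626) (orK (nat_lit 110) (fin (add (start (win (nat_lit 2) (nat_lit 6) (nat_lit 4) (nat_lit 1))) D16445))))))))))))))))))) (orK (nat_lit 166) (fin (add (start D14028) (orK (nat_lit 167) (fin (add (start D13068) (orK (nat_lit 106) (fin (add (start D12891) (orK (nat_lit 187) (fin (add (start D12892) (orK (nat_lit 128) (fin (add (start D5958) D16496)))))))))))))))) (orK (nat_lit 146) (fin (add (start D16838) (orK (nat_lit 67) (fin (add (start D16837) (orK (nat_lit 48) (fin (add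 (start D17036) (orK (nat_lit 47) (fin (add (start D17037) (orK (nat_lit 46) (fin (add (start (win (nat_lit 7) (nat_lit 6) (nat_lit 1) (nat_lit 5))) (win (nat_lit 7) (nat_lit 6) (nat_lit 2) (nat_lit 4)))))))))))))))))) (orK (nat_lit 66) (fin (add (start D14030) (orK (nat_lit 67) (fin (add (start D14029) (orK (nat_lit 126) (fin (add (start (win (nat_lit 1) (nat_lit 6) (nat_lit 3) (nat_lit 5))) (orK (nat_lit 47) (fin (add (start (win (nat_lit 1) (nat_lit 6) (nat_lit 2) (nat_lit 4))) (orK (nat_lit 48) (fin (add (start D17037) D17036))))))))))))))))))) (orK (nat_lit 87) (fin (add (add (start (orK (nat_lit 67) (fin (add (start D16840) D14032)))) (orK (nat_lit 167) (fin (add (start D16831) D14432)))) D17067)))) (orK (nat_lit 87) (fin (add (add (start (orK (nat_lit 67) (fin (add (start D16840) D16842)))) (orK (nat_lit 167) (fin (add (start D16831) D11632)))) D17067)))) (orK (nat_lit 88) (fin (add (add (add (start (orK (nat_lit 68) (fin (add (start D16847) (orK (nat_lit 108) D16850))))) (orK (nat_lit 167) (fin (add (start D14430) D16884)))) (orK (nat_lit 108) (fin (add (start D13887) D16891))))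 (orK (nat_lit 87) (fin (add (start D14126) (orK (nat_lit 166) (fin (add (start D14028) (orK (nat_lit 167) (fin (add (start D13068) D11632))))))))))))) (orK (nat_lit 146) (fin (add (add (start D17087) (orK (nat_lit 129) (fin (add (add (start (orK (nat_lit 109) (fin (add (add (start D17093) (orK (nat_lit 108) (fin (add (start D10743) (orK (nat_lit 110) (fin (add (start D10600) D10803))))))) (orK (nat_lit 88) (fin (add (start D10770) (orK (nat_lit 89) (fin (add (start D12672) D10769)))))))))) (orK (nat_lit 109) (fin (add (start D17093) (orK (nat_lit 130) (fin (add (start (win (nat_lit 5) (nat_lit 6) (nat_lit 6) (nat_lit 2))) (orK (nat_lit 108) (fin (add (start D10787) D10743)))))))))) (orK (nat_lit 128) (fin (add (start D12193) (orK (nat_lit 145) (fin (add (start D12214) (win (nat_lit 5) (nat_lit 5) (nat_lit 6) (nat_lit 3)))))))))))) (orK (nat_lit 87) (fin (add (start D16838) (orK (nat_lit 68) (fin (add (start D12283) (orK (nat_lit 67) (fin (add (start D12284) D14032)))))))))))))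
noncomputable def D13762 : OP := win (nat_lit 5) (nat_lit 8) (nat_lit 5) (nat_lit 0)
noncomputable def D14453 : OP := win (nat_lit 5) (nat_lit 7) (nat_lit 5) (nat_lit 3)
noncomputable def D10179 : OP := win (nat_lit 0) (nat_lit 6) (nat_lit 6) (nat_lit 0)
noncomputable def D16549 : OP := orK (nat_lit 128) (fin (add (start D10179) (orK (nat_lit 152) (fin (add (start (win (nat_lit 2) (nat_lit 8) (nat_lit 6) (nat_lit 1))) (orK (nat_lit 109) (fin (add (start D11642) (orK (nat_lit 110) (fin (add (start D10600) (orK (nat_lit 111) (fin (add (start D14453) D13762))))))))))))))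
noncomputable def D10790 : OP := orK (nat_lit 130) (fin (add (start D10787) (win (nat_lit 0) (nat_lit 7) (nat_lit 5) (nat_lit 5))))
noncomputable def D15135 : OP := win (nat_lit 4) (nat_lit 8) (nat_lit 4) (nat_lit 5)
noncomputable def D16527 : OP := orK (nat_lit 109) (fin (add (start D11642) (orK (nat_lit 110) (fin (add (start D10600) (orK (nat_lit 108) (fin (add (start D10743) (orK (nat_lit 111) (fin (add (start D10804) (orK (nat_lit 91) (fin (add (start (win (nat_lit 3) (nat_lit 10) (nat_lit 4) (nat_lit 2))) D15135))))))))))))))
noncomputable def D10178 : OP := win (nat_lit 2) (nat_lit 8) (nat_lit 6) (nat_lit 0)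
noncomputable def D10180 : OP := win (nat_lit 0) (nat_lit 7) (nat_lit 6) (nat_lit 3)
noncomputable def D13861 : AP := fin (add (start D10180) D10178)
noncomputable def D13862 : OP := orK (nat_lit 151) D13861
noncomputable def D13900 : AP := fin (add (start D10179) D13862)
noncomputable def D16516 : OP := orK (nat_lit 128) D13900
noncomputable def D14829 : OP := win (nat_lit 2) (nat_lit 7) (nat_lit 4) (nat_lit 5)
noncomputable def D14850 : OP := orK (nat_lit 88) (fin (add (start D14829) D14846))
noncomputable def D8554 : OP := win (nat_lit 3) (nat_lit 10) (nat_lit 4) (nat_lit 5)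
noncomputable def D14852 : OP := orK (nat_lit 111) (fin (add (start D8554) D14850))
noncomputable def D11643 : OP := win (nat_lit 5) (nat_lit 6) (nat_lit 5) (nat_lit 3)
noncomputable def D11376 : OP := win (nat_lit 2) (nat_lit 6) (nat_lit 6) (nat_lit 2)
noncomputable def D8555 : OP := win (nat_lit 7) (nat_lit 9) (nat_lit 4) (nat_lit 5)
noncomputable def D16686 : OP := orK (nat_lit 109) (fin (add (start D8555) (orK (nat_lit 126) (fin (add (start D11376) (orK (nat_lit 108) (fin (add (start D11643) D14852))))))))
noncomputable def D10686 : OP := win (nat_lit 1) (nat_lit 9) (nat_lit 4) (nat_lit 0)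
noncomputable def D14872 : OP := win (nat_lit 0) (nat_lit 7) (nat_lit 5) (nat_lit 0)
noncomputable def D16678 : OP := orK (nat_lit 110) (fin (add (start D10686) (orK (nat_lit 109) (fin (add (start D8555) (orK (nat_lit 111) (fin (add (start D8554) (orK (nat_lit 108) (fin (add (start (orK (nat_lit 131) (fin (add (start D14872) D10802)))) D14850)))))))))))
noncomputable def D11191 : OP := win (nat_lit 4) (nat_lit 7) (nat_lit 6) (nat_lit 5)
noncomputable def D7984 : OP := win (nat_lit 2) (nat_lit 6) (nat_lit 6) (nat_lit 5)
noncomputable def D12148 : OP := win (nat_lit 5) (nat_lit 9) (nat_lit 7) (nat_lit 4)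
noncomputable def D10162 : OP := win (nat_lit 2) (nat_lit 9) (nat_lit 6) (nat_lit 4)
noncomputable def D13673 : OP := orK (nat_lit 153) (fin (add (start D10162) D12148))
noncomputable def D10161 : OP := win (nat_lit 2) (nat_lit 8) (nat_lit 6) (nat_lit 5)
noncomputable def D10772 : OP := orK (nat_lit 88) (fin (add (start D10769) D10770))
noncomputable def D10935 : OP := orK (nat_lit 90) (fin (add (start D10764) (orK (nat_lit 89) (fin (add (start D10763) D10772)))))
noncomputable def D10829 : OP := win (nat_lit 6) (nat_lit 9) (nat_lit 3) (nat_lit 4)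
noncomputable def D10915 : OP := win (nat_lit 3) (nat_lit 9) (nat_lit 2) (nat_lit 5)
noncomputable def D10914 : OP := win (nat_lit 3) (nat_lit 9) (nat_lit 3) (nat_lit 4)
noncomputable def D10287 : OP := win (nat_lit 6) (nat_lit 11) (nat_lit 4) (nat_lit 0)
noncomputable def D10149 : OP := win (nat_lit 0) (nat_lit 9) (nat_lit 7) (nat_lit 5)
noncomputable def D10896 : OP := win (nat_lit 7) (nat_lit 8) (nat_lit 2) (nat_lit 5)
noncomputable def D10200 : OP := win (nat_lit 4) (nat_lit 9) (nat_lit 6) (nat_lit 5)
noncomputable def D10158 : OP := win (nat_lit 0) (nat_lit 10) (nat_lit 7) (nat_lit 5)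
noncomputable def D10157 : OP := win (nat_lit 0) (nat_lit 9) (nat_lit 7) (nat_lit 4)
noncomputable def D12152 : OP := orK (nat_lit 173) (fin (add (start D10157) (orK (nat_lit 153) (fin (add (start D10158) D12148)))))
noncomputable def D10316 : OP := win (nat_lit 2) (nat_lit 7) (nat_lit 6) (nat_lit 3)
noncomputable def D10288 : OP := win (nat_lit 7) (nat_lit 11) (nat_lit 5) (nat_lit 0)
noncomputable def D12115 : OP := win (nat_lit 1) (nat_lit 10) (nat_lit 4) (nat_lit 0)
noncomputable def D10228 : OP := win (nat_lit 4) (nat_lit 8) (nat_lit 6) (nat_lit 0)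
noncomputable def D13606 : OP := win (nat_lit 5) (nat_lit 9) (nat_lit 7) (nat_lit 0)
noncomputable def D16568 : OP := orK (nat_lit 152) (fin (add (start D13606) (orK (nat_lit 132) (fin (add (start D10200) (orK (nat_lit 131) (fin (add (start D10228) (orK (nat_lit 172) (fin (add (start D10149) (orK (nat_lit 111) (fin (add (start D12115) D10288))))))))))))))
noncomputable def D10190 : OP := win (nat_lit 4) (nat_lit 8) (nat_lit 6) (nat_lit 5)
noncomputable def D10217 : OP := win (nat_lit 4) (nat_lit 7) (nat_lit 6) (nat_lit 4)
noncomputable def D11731 : OP := orK (nat_lit 131) (fin (add (start D10217) D10190))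
noncomputable def D7985 : OP := win (nat_lit 2) (nat_lit 7) (nat_lit 6) (nat_lit 4)
noncomputable def D12917 : AP := fin (add (start D7985) D11731)
noncomputable def D11653 : OP := orK (nat_lit 126) (fin (add (start D11376) (orK (nat_lit 129) (fin (add (start D11641) (orK (nat_lit 109) (fin (add (start D11642) (orK (nat_lit 110) (fin (add (start D10600) (orK (nat_lit 108) (fin (add (start D11643) D10743))))))))))))))
noncomputable def D12919 : AP := fin (add (start D7984) (orK (nat_lit 151) D12917))
noncomputable def D12504 : OP := win (nat_lit 2) (nat_lit 6) (nat_lit 6) (nat_lit 0)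
noncomputable def D14526 : OP := orK (nat_lit 126) (fin (add (start D12504) (orK (nat_lit 106) (fin (add (start (win (nat_lit 7) (nat_lit 6) (nat_lit 5) (nat_lit 0))) (orK (nat_lit 86) (fin (add (start (win (nat_lit 6) (nat_lit 6) (nat_lit 3) (nat_lit 0))) (win (nat_lit 7) (nat_lit 6) (nat_lit 4) (nat_lit 3))))))))))
noncomputable def D16443 : OP := orK (nat_lit 88) (fin (add (start D14430) (orK (nat_lit 87) (fin (add (start D14126) D11632)))))
noncomputable def D12272 : OP := win (nat_lit 3) (nat_lit 6) (nat_lit 7) (nat_lit 0)
noncomputable def D12270 : OP := win (nat_lit 1) (nat_lit 6) (nat_lit 5) (nat_lit 0)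
noncomputable def D12276 : OP := orK (nat_lit 186) (fin (add (start D12270) (orK (nat_lit 206) (fin (add (start (win (nat_lit 1) (nat_lit 6) (nat_lit 6) (nat_lit 3))) D12272)))))
noncomputable def D12527 : OP := win (nat_lit 5) (nat_lit 6) (nat_lit 7) (nat_lit 0)
noncomputable def D14531 : OP := orK (nat_lit 166) (fin (add (start D12527) D12276))
noncomputable def D7959 : OP := win (nat_lit 5) (nat_lit 6) (nat_lit 7) (nat_lit 5)
noncomputable def D9788 : AP := fin (add (start D7984) D7959)
noncomputable def D16454 : AP := fin (add (add (add (start (orK (nat_lit 150) D9788)) D14531) (orK (nat_lit 107) (fin (add (add (start (orK (nat_lit 186) (fin (add (start D12903) (orK (nat_lit 187) (fin (add (start D11372) D12894))))))) D16443) (orK (nat_lit 186) (fin (add (start D12903) (orK (nat_lit 187) (fin (add (start D11372) (orK (nat_lit 88) (fin (add (start D14430) D16445))))))))))))) D14526)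
noncomputable def D11803 : OP := win (nat_lit 0) (nat_lit 6) (nat_lit 7) (nat_lit 0)
noncomputable def D11871 : OP := win (nat_lit 3) (nat_lit 7) (nat_lit 6) (nat_lit 0)
noncomputable def D14125 : OP := win (nat_lit 6) (nat_lit 7) (nat_lit 3) (nat_lit 0)
noncomputable def D12508 : OP := win (nat_lit 3) (nat_lit 7) (nat_lit 5) (nat_lit 0)
noncomputable def D11930 : OP := win (nat_lit 6) (nat_lit 8) (nat_lit 4) (nat_lit 0)
noncomputable def D12493 : OP := win (nat_lit 6) (nat_lit 8) (nat_lit 4) (nat_lit 1)
noncomputable def D14452 : OP := win (nat_lit 4) (nat_lit 7) (nat_lit 5) (nat_lit 2)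
noncomputable def D16659 : OP := orK (nat_lit 111) (fin (add (start D8554) D14452))
noncomputable def D11792 : OP := win (nat_lit 2) (nat_lit 7) (nat_lit 6) (nat_lit 0)
noncomputable def D12507 : OP := win (nat_lit 1) (nat_lit 7) (nat_lit 4) (nat_lit 0)
noncomputable def D12510 : OP := orK (nat_lit 108) (fin (add (start D12507) D12508))
noncomputable def D14342 : OP := orK (nat_lit 167) (fin (add (start D7959) D12510))
noncomputable def D14343 : AP := fin (add (start D11792) D14342)
noncomputable def D14322 : OP := win (nat_lit 0) (nat_lit 4) (nat_lit 6) (nat_lit 0)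
noncomputable def D14365 : AP := fin (add (start D14322) (win (nat_lit 0) (nat_lit 5) (nat_lit 6) (nat_lit 3)))
noncomputable def D14401 : AP := fin (add (start D12504) (orK (nat_lit 125) D14365))
noncomputable def D14509 : OP := orK (nat_lit 126) D14401
noncomputable def D17145 : AP := fin (add (add (add (add (add (start (orK (nat_lit 148) (fin (add (start D11803) D14509)))) (orK (nat_lit 148) (fin (add (start D11803) (orK (nat_lit 128) (fin (add (add (start (orK (nat_lit 150) D14343)) (orK (nat_lit 150) (fin (add (start D11792) (orK (nat_lit 130) (fin (add (start D11191) (orK (nat_lit 110) (fin (add (start D10686) D16659)))))))))) (orK (nat_lit 107) (fin (add (add (start (orK (nat_lit 87) (fin (add (start D14125) (orK (nat_lit 88) (fin (add (start D14126) D12493))))))) (orK (nat_lit 108) (fin (add (start D11930) (orK (nat_lit 167) (fin (add (start D12508) (orK (nat_lit 166) (fin (add (start D13068) (orK (nat_lit 106) (fin (add (start D12891) (orK (nat_lit 105) D14133)))))))))))))) (orK (nat_lit 87) (fin (add (start D14125) (orK (nat_lit 86) (fin (add (start D11629) (orK (nat_lit 167)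 (fin (add (start D11630) (orK (nat_lit 186) (fin (add (start D12903) (orK (nat_lit 187) (fin (add (start D11372) D11871))))))))))))))))))))))))) (orK (nat_lit 148) (fin (add (start D11803) (orK (nat_lit 167) D16454))))) (orK (nat_lit 150) (fin (add (add (add (add (start (orK (nat_lit 148) D12919)) D11653) (orK (nat_lit 151) (fin (add (add (add (start (orK (nat_lit 148) D12917)) D16568) (orK (nat_lit 128) (fin (add (start D10316) (orK (nat_lit 129) D13861))))) (orK (nat_lit 152) (fin (add (add (start D12152) (orK (nat_lit 129) (fin (add (start D10161) (orK (nat_lit 132) (fin (add (start D10200) (orK (nat_lit 109) (fin (add (add (add (start (orK (nat_lit 90) (fin (add (start D10764) (orK (nat_lit 89) (fin (add (start D10763) (orK (nat_lit 69) (fin (add (start D10829) (orK (nat_lit 68) (fin (add (start D10896) (orK (nat_lit 91) (fin (add (start (win (nat_lit 2) (nat_lit 8) (nat_lit 3) (nat_lit 0))) (orK (nat_lit 172) (fin (add (start D10149) (orK (nat_lit 111) (fin (add (start (win (nat_lit 6) (nat_lit 11) (nat_lit 4) (nat_lit 2))) (win (nat_lit 7) (nat_lit 11) (nat_lit 4) (nat_lit 3))))))))))))))))))))))))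 (orK (nat_lit 108) (fin (add (start D10743) (orK (nat_lit 131) (fin (add (start (win (nat_lit 2) (nat_lit 8) (nat_lit 5) (nat_lit 2))) (orK (nat_lit 111) (fin (add (start (win (nat_lit 0) (nat_lit 8) (nat_lit 5) (nat_lit 2))) (orK (nat_lit 172) (fin (add (start D10149) D10287))))))))))))) (orK (nat_lit 88) (fin (add (start D10770) (orK (nat_lit 89) (fin (add (start D10769) (orK (nat_lit 70) (fin (add (start D10914) (orK (nat_lit 69) (fin (add (start D10915) D10829))))))))))))) D10935)))))))))) (orK (nat_lit 129) (fin (add (start D10161) D13673)))))))))) (orK (nat_lit 130) (fin (add (add (start (orK (nat_lit 148) (fin (add (start D7984) D11191)))) D16678) (orK (nat_lit 110) (fin (add (start D10686) D16686))))))) (orK (nat_lit 129) (fin (add (add (add (start D16516) D16527) (orK (nat_lit 109) (fin (add (start D11642) (orK (nat_lit 110) (fin (add (start D10600) (orK (nat_lit 108) (fin (add (start D10743) (orK (nat_lit 107) (fin (add (start D10803) D10790))))))))))))) D16549))))))) (orK (nat_lit 107) D17126)) (orK (nat_lit 146) (fin (add (start D13034) (orK (nat_lit 107) (fin (add (add (add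 (start (orK (nat_lit 87) (fin (add (add (start (orK (nat_lit 67) (fin (add (start D16837) D16842)))) (orK (nat_lit 88) (fin (add (start D14126) (orK (nat_lit 167) (fin (add (start D14430) D11632))))))) (orK (nat_lit 67) (fin (add (start D16837) D14032))))))) D17008) (orK (nat_lit 166) D14020)) D17087)))))))
noncomputable def D12909 : OP := orK (nat_lit 186) (fin (add (start D11372) (orK (nat_lit 107) (fin (add (start D12903) D12905)))))
noncomputable def D2660 : OP := win (nat_lit 2) (nat_lit 6) (nat_lit 9) (nat_lit 5)
noncomputable def D14297 : AP := fin (add (start D4769) (orK (nat_lit 209) (fin (add (start D1955) D2660))))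
noncomputable def D14298 : OP := orK (nat_lit 207) D14297
noncomputable def D13422 : OP := win (nat_lit 7) (nat_lit 7) (nat_lit 8) (nat_lit 0)
noncomputable def D12415 : OP := win (nat_lit 6) (nat_lit 7) (nat_lit 7) (nat_lit 3)
noncomputable def D4768 : OP := win (nat_lit 6) (nat_lit 7) (nat_lit 6) (nat_lit 0)
noncomputable def D14301 : AP := fin (add (start D4768) (orK (nat_lit 228) (fin (add (start D12415) D13422))))
noncomputable def D14302 : OP := orK (nat_lit 188) D14301
noncomputable def D16301 : OP := orK (nat_lit 208) (fin (add (start D12635) (orK (nat_lit 207) (fin (add (start D4769) (orK (nat_lit 226) (fin (add (start D4288) (orK (nat_lit 227) (fin (add (start D4289) D16171)))))))))))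
noncomputable def D12898 : OP := orK (nat_lit 108) (fin (add (start D11626) (orK (nat_lit 107) (fin (add (start D11627) D12894)))))
noncomputable def D16498 : OP := orK (nat_lit 208) (fin (add (start D12635) D14298))
noncomputable def D16291 : OP := orK (nat_lit 107) (fin (add (start D12903) D12894))
noncomputable def D16293 : OP := orK (nat_lit 186) (fin (add (start D11372) D16291))
noncomputable def D10727 : OP := win (nat_lit 5) (nat_lit 5) (nat_lit 6) (nat_lit 5)
noncomputable def D16287 : OP := orK (nat_lit 208) D14297
noncomputable def D16282 : OP := orK (nat_lit 107) (fin (add (start D12905) D12894))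
noncomputable def D8465 : OP := win (nat_lit 6) (nat_lit 7) (nat_lit 6) (nat_lit 5)
noncomputable def D8464 : OP := win (nat_lit 6) (nat_lit 7) (nat_lit 5) (nat_lit 0)
noncomputable def D8466 : AP := fin (add (start D8464) D8465)
noncomputable def D16481 : OP := orK (nat_lit 187) (fin (add (start D7659) (orK (nat_lit 127) (fin (add (add (start (orK (nat_lit 188) D8466)) (orK (nat_lit 129) (fin (add (start (orK (nat_lit 128) (fin (add (start D10179) D5958)))) (orK (nat_lit 188) (fin (add (start D11066) D8465))))))) D16282)))))
noncomputable def D16484 : AP := fin (add (start D11315) D16481)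
noncomputable def D12055 : OP := orK (nat_lit 150) D11790
noncomputable def D13978 : OP := orK (nat_lit 186) (fin (add (start D12903) D11372))
noncomputable def D14498 : OP := orK (nat_lit 107) (fin (add (start D13978) D12905))
noncomputable def D16286 : OP := orK (nat_lit 187) (fin (add (add (add (start D16078) D16086) (orK (nat_lit 127) (fin (add (add (start D14498) (orK (nat_lit 207) D6055)) D16282)))) D16095))
noncomputable def D16343 : OP := orK (nat_lit 168) (fin (add (start D7658) D12055))
noncomputable def D14459 : OP := orK (nat_lit 111) (fin (add (start D8554) (orK (nat_lit 128) (fin (add (start D14452) (orK (nat_lit 109) (fin (add (start D14453) D8555))))))))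
noncomputable def D14345 : AP := fin (add (start D7984) (orK (nat_lit 128) D14343))
noncomputable def D16662 : AP := fin (add (start D7984) (orK (nat_lit 128) (fin (add (start D11792) D16659))))
noncomputable def D14346 : OP := orK (nat_lit 127) D14345
noncomputable def D16506 : OP := orK (nat_lit 187) (fin (add (start D5958) (orK (nat_lit 206) (fin (add (start D6046) (orK (nat_lit 207) (fin (add (start D6047) D14211))))))))
noncomputable def D10152 : OP := win (nat_lit 2) (nat_lit 8) (nat_lit 6) (nat_lit 4)
noncomputable def D16388 : OP := win (nat_lit 4) (nat_lit 7) (nat_lit 7) (nat_lit 1)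
noncomputable def D16387 : OP := orK (nat_lit 168) D11790
noncomputable def D12267 : OP := win (nat_lit 5) (nat_lit 6) (nat_lit 7) (nat_lit 2)
noncomputable def D12266 : OP := win (nat_lit 4) (nat_lit 6) (nat_lit 7) (nat_lit 2)
noncomputable def D12269 : OP := orK (nat_lit 166) (fin (add (start D12266) D12267))
noncomputable def D8400 : OP := win (nat_lit 4) (nat_lit 10) (nat_lit 4) (nat_lit 5)
noncomputable def D14686 : OP := orK (nat_lit 93) (fin (add (start (win (nat_lit 4) (nat_lit 9) (nat_lit 4) (nat_lit 4))) D8400))
noncomputable def D14683 : OP := win (nat_lit 0) (nat_lit 10) (nat_lit 5) (nat_lit 5)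
noncomputable def D14682 : OP := win (nat_lit 0) (nat_lit 9) (nat_lit 5) (nat_lit 4)
noncomputable def D14820 : OP := win (nat_lit 5) (nat_lit 8) (nat_lit 6) (nat_lit 3)
noncomputable def D8394 : OP := win (nat_lit 0) (nat_lit 8) (nat_lit 5) (nat_lit 0)
noncomputable def D8395 : OP := win (nat_lit 0) (nat_lit 9) (nat_lit 5) (nat_lit 5)
noncomputable def D10663 : OP := win (nat_lit 5) (nat_lit 9) (nat_lit 5) (nat_lit 0)
noncomputable def D8411 : OP := win (nat_lit 5) (nat_lit 8) (nat_lit 5) (nat_lit 5)
noncomputable def D16367 : AP := fin (add (start D8411) D10663)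
noncomputable def D14821 : OP := win (nat_lit 5) (nat_lit 9) (nat_lit 6) (nat_lit 0)
noncomputable def D10629 : OP := win (nat_lit 4) (nat_lit 7) (nat_lit 6) (nat_lit 0)
noncomputable def D14848 : OP := orK (nat_lit 88) (fin (add (start (win (nat_lit 6) (nat_lit 8) (nat_lit 4) (nat_lit 2))) D14846))
noncomputable def D12158 : OP := win (nat_lit 2) (nat_lit 6) (nat_lit 6) (nat_lit 3)
noncomputable def D14858 : OP := orK (nat_lit 110) (fin (add (start D10686) (orK (nat_lit 109) (fin (add (start D8555) (orK (nat_lit 108) (fin (add (add (start (orK (nat_lit 127) (fin (add (start (orK (nat_lit 126) (fin (add (start D12158) D11643)))) (orK (nat_lit 111) (fin (add (start D8554) D10804))))))) D14848) D14852))))))))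
noncomputable def D14823 : OP := orK (nat_lit 132) (fin (add (start D14820) D14821))
noncomputable def D14825 : OP := orK (nat_lit 131) (fin (add (start D10629) D14823))
noncomputable def D14434 : OP := orK (nat_lit 87) (fin (add (start D14432) D11632))
noncomputable def D12282 : OP := win (nat_lit 6) (nat_lit 7) (nat_lit 5) (nat_lit 4)
noncomputable def D14423 : OP := orK (nat_lit 188) (fin (add (start D12282) D8465))
noncomputable def D14425 : OP := orK (nat_lit 187) (fin (add (start D12905) D14423))
noncomputable def D11196 : OP := win (nat_lit 6) (nat_lit 7) (nat_lit 5) (nat_lit 5)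
noncomputable def D11628 : OP := win (nat_lit 6) (nat_lit 7) (nat_lit 4) (nat_lit 4)
noncomputable def D12177 : OP := orK (nat_lit 186) (fin (add (start D11372) D12175))
noncomputable def D16483 : OP := orK (nat_lit 168) (fin (add (start D11075) D16481))
noncomputable def D11082 : OP := win (nat_lit 5) (nat_lit 8) (nat_lit 7) (nat_lit 0)
noncomputable def D12076 : OP := win (nat_lit 5) (nat_lit 8) (nat_lit 7) (nat_lit 5)
noncomputable def D16234 : OP := orK (nat_lit 152) (fin (add (start D12076) D13606))
noncomputable def D7987 : OP := orK (nat_lit 127) (fin (add (start D7984) D7985))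
noncomputable def D11732 : AP := fin (add (start D7987) D11731)
noncomputable def D16693 : AP := fin (add (add (add (add (add (start (orK (nat_lit 151) (fin (add (start (orK (nat_lit 148) D11732)) D16234)))) (orK (nat_lit 167) (fin (add (add (add (start D16387) D16483) (orK (nat_lit 168) D16484)) (orK (nat_lit 127) (fin (add (add (add (start (orK (nat_lit 187) (fin (add (add (start D16293) D16496) D16498)))) (orK (nat_lit 128) (fin (add (start D16506) (orK (nat_lit 129) D13900))))) (orK (nat_lit 186) (fin (add (start D16511) (orK (nat_lit 107) (fin (add (start D12903) D16443))))))) (orK (nat_lit 129) (fin (add (add (add (start D16516) D16527) (orK (nat_lit 109) (fin (add (start D11642) (orK (nat_lit 110) (fin (add (start D10600) (orK (nat_lit 108) (fin (add (start D10743) (orK (nat_lit 107) (fin (add (start D10803) (orK (nat_lit 106) (fin (add (start D16528) D12891)))))))))))))))) D16549)))))))))) (orK (nat_lit 151) (fin (add (add (start (orK (nat_lit 168) (fin (add (start D16556) D11082)))) D16568) (orK (nat_lit 167) (fin (add (start D16388) (orK (nat_lit 148) (fin (add (start D7959) D11731))))))))))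 (orK (nat_lit 167) (fin (add (add (add (start D12269) D16483) (orK (nat_lit 127) (fin (add (add (add (start (orK (nat_lit 126) (fin (add (start D11376) (orK (nat_lit 187) (fin (add (start D5959) D12177))))))) D11653) (orK (nat_lit 107) (fin (add (add (start D14425) (orK (nat_lit 87) (fin (add (start (orK (nat_lit 168) (fin (add (start D11628) D11196)))) D11632)))) D14434)))) (orK (nat_lit 107) (fin (add (add (start D14425) (orK (nat_lit 187) (fin (add (start D14423) D12894)))) D14434))))))) (orK (nat_lit 148) (fin (add (start D7959) (orK (nat_lit 130) (fin (add (add (add (start D14825) D14858) (orK (nat_lit 110) (fin (add (start D10686) (orK (nat_lit 131) (fin (add (start D10629) (orK (nat_lit 111) (fin (add (start D8554) (orK (nat_lit 132) (fin (add (start D14821) (orK (nat_lit 109) (fin (add (start D8394) D8555)))))))))))))))) (orK (nat_lit 110) (fin (add (start D10686) (orK (nat_lit 109) (fin (add (start D8555) (orK (nat_lit 111) (fin (add (start D8554) (orK (nat_lit 112) (fin (add (add (start (orK (nat_lit 129) D16367)) (orK (nat_lit 132) (fin (add (start D8395) (orK (nat_lit 131) (fin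 (add (start D8394) D14820))))))) (orK (nat_lit 113) (fin (add (start (orK (nat_lit 133) (fin (add (start D14682) D14683)))) D14686))))))))))))))))))))))))) (orK (nat_lit 167) (fin (add (add (add (start D12269) D16387) (orK (nat_lit 151) (fin (add (start D16388) (orK (nat_lit 152) (fin (add (start D13606) (orK (nat_lit 128) (fin (add (start D10152) (orK (nat_lit 127) (fin (add (start D10316) D16506))))))))))))) (orK (nat_lit 148) (fin (add (start D7959) (orK (nat_lit 127) (fin (add (start D7984) (orK (nat_lit 128) (fin (add (start D11792) D12510))))))))))))) (orK (nat_lit 130) (fin (add (add (add (start (orK (nat_lit 110) (fin (add (start D10686) (orK (nat_lit 148) (fin (add (start D11191) (orK (nat_lit 127) D16662)))))))) (orK (nat_lit 148) (fin (add (start D11191) D14346)))) D16678) (orK (nat_lit 110) (fin (add (start D10686) (orK (nat_lit 127) (fin (add (add (add (start (orK (nat_lit 148) D16662)) (orK (nat_lit 148) D14345)) D14459) D16686))))))))))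
noncomputable def D11246 : OP := win (nat_lit 6) (nat_lit 7) (nat_lit 6) (nat_lit 3)
noncomputable def D11065 : OP := win (nat_lit 3) (nat_lit 8) (nat_lit 7) (nat_lit 0)
noncomputable def D11384 : OP := orK (nat_lit 188) (fin (add (start D8464) (orK (nat_lit 208) (fin (add (start D11065) D11246)))))
noncomputable def D11378 : OP := orK (nat_lit 126) (fin (add (start D11376) D5959))
noncomputable def D11373 : OP := win (nat_lit 5) (nat_lit 6) (nat_lit 8) (nat_lit 0)
noncomputable def D11375 : OP := orK (nat_lit 186) (fin (add (start D11372) D11373))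
noncomputable def D11380 : OP := orK (nat_lit 187) (fin (add (start D11375) D11378))
noncomputable def D8696 : OP := win (nat_lit 6) (nat_lit 7) (nat_lit 4) (nat_lit 0)
noncomputable def D11197 : AP := fin (add (start D8696) D11196)
noncomputable def D11198 : OP := orK (nat_lit 107) D11197
noncomputable def D11199 : AP := fin (add (start D7984) D11198)
noncomputable def D11386 : OP := orK (nat_lit 127) (fin (add (add (start (orK (nat_lit 148) D11199)) D11380) D11384))
noncomputable def D11331 : OP := orK (nat_lit 185) (fin (add (start (win (nat_lit 5) (nat_lit 4) (nat_lit 8) (nat_lit 5))) (win (nat_lit 5) (nat_lit 5) (nat_lit 8) (nat_lit 4))))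
noncomputable def D11343 : OP := win (nat_lit 4) (nat_lit 5) (nat_lit 7) (nat_lit 4)
noncomputable def D11349 : OP := orK (nat_lit 165) (fin (add (start D11343) D11331))
noncomputable def D16407 : OP := win (nat_lit 2) (nat_lit 3) (nat_lit 7) (nat_lit 5)
noncomputable def D16406 : OP := win (nat_lit 2) (nat_lit 4) (nat_lit 7) (nat_lit 4)
noncomputable def D13036 : AP := fin (add (start D13034) D13035)
noncomputable def D13165 : OP := orK (nat_lit 146) D13036
noncomputable def D12920 : OP := orK (nat_lit 127) D12919
noncomputable def D16397 : AP := fin (add (start D7959) D12920)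
noncomputable def D7951 : OP := win (nat_lit 2) (nat_lit 7) (nat_lit 6) (nat_lit 5)
noncomputable def D10760 : OP := win (nat_lit 1) (nat_lit 8) (nat_lit 5) (nat_lit 5)
noncomputable def D12649 : OP := win (nat_lit 3) (nat_lit 8) (nat_lit 6) (nat_lit 1)
noncomputable def D11553 : OP := orK (nat_lit 148) (fin (add (start D4292) D6003))
noncomputable def D10998 : OP := win (nat_lit 0) (nat_lit 5) (nat_lit 6) (nat_lit 0)
noncomputable def D14504 : OP := orK (nat_lit 128) (fin (add (start D5958) (orK (nat_lit 126) (fin (add (start D10998) D5959)))))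
noncomputable def D12522 : OP := win (nat_lit 3) (nat_lit 7) (nat_lit 5) (nat_lit 3)
noncomputable def D14381 : OP := orK (nat_lit 128) (fin (add (start D11871) (orK (nat_lit 108) (fin (add (start D12507) D12522)))))
noncomputable def D4293 : OP := win (nat_lit 3) (nat_lit 7) (nat_lit 7) (nat_lit 4)
noncomputable def D4295 : OP := orK (nat_lit 148) (fin (add (start D4292) D4293))
noncomputable def D4296 : AP := fin (add (start D4291) D4295)
noncomputable def D6054 : OP := orK (nat_lit 227) D4296
noncomputable def D16263 : OP := orK (nat_lit 207) D16202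
noncomputable def D14489 : AP := fin (add (start D6049) D14211)
noncomputable def D14514 : OP := orK (nat_lit 207) D14489
noncomputable def D12706 : OP := orK (nat_lit 208) D12705
noncomputable def D14465 : OP := orK (nat_lit 127) (fin (add (start D7984) (orK (nat_lit 130) (fin (add (start D11191) (orK (nat_lit 110) (fin (add (start D10686) D14459))))))))
noncomputable def D17147 : AP := fin (add (add (add (add (add (add (add (start (orK (nat_lit 148) (fin (add (start D11803) (orK (nat_lit 150) (fin (add (add (start (orK (nat_lit 131) (fin (add (start D10217) (orK (nat_lit 151) (fin (add (start D10190) D16234))))))) (orK (nat_lit 127) (fin (add (start D7984) (orK (nat_lit 151) (fin (add (start D7985) D16234))))))) D14465))))))) (orK (nat_lit 167) (fin (add (add (add (start D13165) (orK (nat_lit 187) (fin (add (add (add (add (start (orK (nat_lit 207) (fin (add (add (start D6054) (orK (nat_lit 186) (fin (add (start D12175) D12706)))) D16088)))) (orK (nat_lit 127) (fin (add (start (orK (nat_lit 107) (fin (add (start (orK (nat_lit 186) (fin (add (start D12903) D12175)))) D12894)))) D16263))))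 (orK (nat_lit 127) (fin (add (add (start D14498) D14514) D16263)))) (orK (nat_lit 207) (fin (add (add (start D16203) D6054) D16088)))) (orK (nat_lit 186) (fin (add (start D12175) (orK (nat_lit 206) (fin (add (start D11529) (orK (nat_lit 226) (fin (add (start D16080) (win (nat_lit 3) (nat_lit 6) (nat_lit 8) (nat_lit 0))))))))))))))) D16286) (orK (nat_lit 148) (fin (add (start D11803) (orK (nat_lit 187) (fin (add (add (add (start D14381) (orK (nat_lit 207) (fin (add (start D4292) D16287)))) (orK (nat_lit 127) (fin (add (add (start D16293) D16301) (orK (nat_lit 208) (fin (add (start D12635) (orK (nat_lit 207) (fin (add (start D4769) (orK (nat_lit 186) (fin (add (start D12704) D16291))))))))))))) (orK (nat_lit 127) (fin (add (add (start D14504) D12909) D16293))))))))))))) (orK (nat_lit 129) (fin (add (add (start (orK (nat_lit 167) (fin (add (add (add (start D13165) (orK (nat_lit 168) (fin (add (start D12055) (orK (nat_lit 187) (fin (add (start D7659) (orK (nat_lit 207) (fin (add (add (start D11553) D16088) (orK (nat_lit 148) (fin (add (start D4292) (orK (nat_lit 208) (fin (add (start D12649)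 D4769)))))))))))))))) D16343) (orK (nat_lit 148) (fin (add (start D11803) (orK (nat_lit 150) (fin (add (start D7959) (orK (nat_lit 131) (fin (add (start D10217) (orK (nat_lit 151) (fin (add (start D10190) (orK (nat_lit 152) (fin (add (start D10161) D13606))))))))))))))))))) (orK (nat_lit 109) (fin (add (add (add (start (orK (nat_lit 90) (fin (add (start D10764) (orK (nat_lit 89) (fin (add (start D10763) D12672))))))) (orK (nat_lit 89) (fin (add (start D12672) D10772)))) (orK (nat_lit 108) (fin (add (start D10743) (orK (nat_lit 110) (fin (add (start D10600) (orK (nat_lit 130) (fin (add (start (orK (nat_lit 131) (fin (add (start D14872) D10873)))) (orK (nat_lit 111) (fin (add (start (orK (nat_lit 91) (fin (add (start (win (nat_lit 3) (nat_lit 10) (nat_lit 4) (nat_lit 1))) D15135)))) (orK (nat_lit 112) D16367)))))))))))))) D10935)))) (orK (nat_lit 146) (fin (add (start D13034) (orK (nat_lit 168) (fin (add (start (win (nat_lit 2) (nat_lit 6) (nat_lit 7) (nat_lit 3))) (orK (nat_lit 109) (fin (add (start D10760) D10935))))))))))))) (orK (nat_lit 167) (fin (add (add (add (start D13165) (orK (nat_lit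 150) (fin (add (add (add (start D12269) D16387) (orK (nat_lit 151) (fin (add (start D16388) (orK (nat_lit 152) (fin (add (start D13606) (orK (nat_lit 128) (fin (add (start D10152) (orK (nat_lit 148) (fin (add (start D7951) D11731))))))))))))) (orK (nat_lit 148) D16397))))) D16343) (orK (nat_lit 148) (fin (add (start D11803) (orK (nat_lit 150) D16397)))))))) (orK (nat_lit 167) (fin (add (add (add (start D13165) (orK (nat_lit 168) (fin (add (add (start D12055) (orK (nat_lit 166) (fin (add (add (add (start D11355) (orK (nat_lit 165) (fin (add (start D11343) (orK (nat_lit 144) (fin (add (start D16406) (orK (nat_lit 164) (fin (add (start D16407) (orK (nat_lit 187) (fin (add (start (win (nat_lit 0) (nat_lit 4) (nat_lit 8) (nat_lit 5))) D7659))))))))))))) (orK (nat_lit 165) (fin (add (start D11343) (orK (nat_lit 144) (fin (add (start D16406) (orK (nat_lit 164) (fin (add (start D16407) (orK (nat_lit 188) (fin (add (start (win (nat_lit 0) (nat_lit 4) (nat_lit 8) (nat_lit 4))) (orK (nat_lit 184) (fin (add (start (win (nat_lit 5) (nat_lit 3) (nat_lit 8) (nat_lit 5))) (win (nat_lit 5) (nat_lit 4) (nat_lit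 8) (nat_lit 4)))))))))))))))))) D11349)))) (orK (nat_lit 150) (fin (add (start D11315) D11386))))))) D16343) (orK (nat_lit 148) (fin (add (start D11803) (orK (nat_lit 127) D16454)))))))) (orK (nat_lit 150) D16693)) (orK (nat_lit 167) (fin (add (add (add (add (start D16343) D16286) (orK (nat_lit 168) (fin (add (start D12055) (orK (nat_lit 187) (fin (add (start D7659) (orK (nat_lit 127) (fin (add (start D12898) D16496)))))))))) (orK (nat_lit 168) (fin (add (start D7658) (orK (nat_lit 150) D16484))))) (orK (nat_lit 187) (fin (add (add (add (add (start (orK (nat_lit 207) (fin (add (start D16287) D6142)))) (orK (nat_lit 127) (fin (add (add (start D12909) (orK (nat_lit 128) (fin (add (start D5958) (orK (nat_lit 126) (fin (add (start D5959) (orK (nat_lit 129) (fin (add (start D10999) (orK (nat_lit 146) (fin (add (start D10727) D12193))))))))))))) D16293)))) (orK (nat_lit 127) (fin (add (start D12898) D16498)))) (orK (nat_lit 127) (fin (add (add (start D12898) (orK (nat_lit 208) (fin (add (start D12635) (orK (nat_lit 207) (fin (add (start D4769) D5962))))))) (orK (nat_lit 108) (fin (add (start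 D11626) D16301))))))) (orK (nat_lit 208) (fin (add (add (start D14302) D14298) (orK (nat_lit 127) (fin (add (start D12635) D12909))))))))))))) (orK (nat_lit 127) D17145))
noncomputable def D114 : OP := win (nat_lit 7) (nat_lit 9) (nat_lit 9) (nat_lit 4)
noncomputable def D6592 : OP := win (nat_lit 7) (nat_lit 9) (nat_lit 8) (nat_lit 3)
noncomputable def D558 : OP := orK (nat_lit 266) (fin (add (start D555) D556))
noncomputable def D2925 : OP := orK (nat_lit 226) (fin (add (start D549) (orK (nat_lit 246) (fin (add (start D550) D558)))))
noncomputable def D2926 : AP := fin (add (start D408) D2925)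
noncomputable def D3254 : OP := orK (nat_lit 247) D2926
noncomputable def D4099 : OP := win (nat_lit 3) (nat_lit 9) (nat_lit 11) (nat_lit 1)
noncomputable def D1700 : OP := win (nat_lit 6) (nat_lit 8) (nat_lit 10) (nat_lit 0)
noncomputable def D577 : OP := win (nat_lit 5) (nat_lit 7) (nat_lit 12) (nat_lit 5)
noncomputable def D1702 : OP := orK (nat_lit 268) (fin (add (start D577) D1700))
noncomputable def D760 : OP := win (nat_lit 3) (nat_lit 9) (nat_lit 11) (nat_lit 0)
noncomputable def D141 : OP := win (nat_lit 2) (nat_lit 7) (nat_lit 11) (nat_lit 5)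
noncomputable def D143 : OP := win (nat_lit 4) (nat_lit 8) (nat_lit 11) (nat_lit 5)
noncomputable def D1511 : OP := win (nat_lit 2) (nat_lit 10) (nat_lit 11) (nat_lit 0)
noncomputable def D1026 : OP := orK (nat_lit 234) (fin (add (start (win (nat_lit 4) (nat_lit 10) (nat_lit 11) (nat_lit 4))) (win (nat_lit 4) (nat_lit 11) (nat_lit 11) (nat_lit 5))))
noncomputable def D763 : OP := win (nat_lit 2) (nat_lit 10) (nat_lit 11) (nat_lit 4)
noncomputable def D1028 : OP := orK (nat_lit 254) (fin (add (start D763) D1026))
noncomputable def D135 : OP := orK (nat_lit 233) (fin (add (start D132) D133))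
noncomputable def D139 : OP := orK (nat_lit 273) (fin (add (start D130) (orK (nat_lit 253) (fin (add (start D131) D135)))))
noncomputable def D570 : OP := win (nat_lit 4) (nat_lit 9) (nat_lit 11) (nat_lit 5)
noncomputable def D569 : OP := win (nat_lit 4) (nat_lit 8) (nat_lit 11) (nat_lit 4)
noncomputable def D572 : OP := orK (nat_lit 232) (fin (add (start D569) D570))
noncomputable def D1694 : OP := orK (nat_lit 252) (fin (add (add (add (start D572) D139) (orK (nat_lit 273) (fin (add (start D130) (orK (nat_lit 253) (fin (add (start D131) D1028))))))) (orK (nat_lit 273) (fin (add (start D130) (orK (nat_lit 253) (fin (add (start D131) (orK (nat_lit 231) (fin (add (start D1511) D143)))))))))))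
noncomputable def D1646 : OP := win (nat_lit 6) (nat_lit 8) (nat_lit 9) (nat_lit 0)
noncomputable def D779 : OP := win (nat_lit 5) (nat_lit 8) (nat_lit 12) (nat_lit 0)
noncomputable def D781 : OP := orK (nat_lit 268) (fin (add (start D577) D779))
noncomputable def D2929 : OP := win (nat_lit 3) (nat_lit 7) (nat_lit 10) (nat_lit 0)
noncomputable def D2928 : OP := win (nat_lit 1) (nat_lit 7) (nat_lit 9) (nat_lit 0)
noncomputable def D2931 : OP := orK (nat_lit 208) (fin (add (start D2928) D2929))
noncomputable def D3236 : OP := win (nat_lit 2) (nat_lit 7) (nat_lit 11) (nat_lit 0)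
noncomputable def D421 : OP := win (nat_lit 5) (nat_lit 6) (nat_lit 12) (nat_lit 5)
noncomputable def D3251 : OP := orK (nat_lit 247) (fin (add (start D421) (orK (nat_lit 227) (fin (add (start D561) (orK (nat_lit 228) (fin (add (start D3236) D2931))))))))
noncomputable def D634 : OP := win (nat_lit 4) (nat_lit 5) (nat_lit 12) (nat_lit 0)
noncomputable def D3200 : AP := fin (add (start D634) (win (nat_lit 4) (nat_lit 6) (nat_lit 12) (nat_lit 3)))
noncomputable def D624 : OP := win (nat_lit 5) (nat_lit 7) (nat_lit 12) (nat_lit 0)
noncomputable def D3235 : OP := win (nat_lit 0) (nat_lit 5) (nat_lit 11) (nat_lit 0)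
noncomputable def D3234 : OP := win (nat_lit 2) (nat_lit 6) (nat_lit 11) (nat_lit 3)
noncomputable def D3240 : OP := orK (nat_lit 226) (fin (add (start D3234) (orK (nat_lit 228) (fin (add (start D3235) D3236)))))
noncomputable def D2946 : OP := win (nat_lit 6) (nat_lit 7) (nat_lit 10) (nat_lit 5)
noncomputable def D2945 : OP := win (nat_lit 6) (nat_lit 7) (nat_lit 9) (nat_lit 0)
noncomputable def D2947 : AP := fin (add (start D2945) D2946)
noncomputable def D3224 : OP := win (nat_lit 3) (nat_lit 7) (nat_lit 9) (nat_lit 5)
noncomputable def D3223 : OP := win (nat_lit 3) (nat_lit 7) (nat_lit 10) (nat_lit 4)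
noncomputable def D2932 : OP := win (nat_lit 3) (nat_lit 7) (nat_lit 11) (nat_lit 0)
noncomputable def D3210 : OP := win (nat_lit 3) (nat_lit 7) (nat_lit 10) (nat_lit 5)
noncomputable def D2948 : OP := orK (nat_lit 207) D2947
noncomputable def D422 : OP := win (nat_lit 5) (nat_lit 7) (nat_lit 12) (nat_lit 4)
noncomputable def D562 : OP := win (nat_lit 2) (nat_lit 7) (nat_lit 11) (nat_lit 4)
noncomputable def D633 : OP := win (nat_lit 5) (nat_lit 6) (nat_lit 12) (nat_lit 3)
noncomputable def D3253 : OP := orK (nat_lit 267) (fin (add (add (add (start (orK (nat_lit 266) (fin (add (start D633) (orK (nat_lit 268) D3200))))) (orK (nat_lit 227) (fin (add (add (add (start (orK (nat_lit 251) (fin (add (start D562) D422)))) (orK (nat_lit 247) (fin (add (start D561) (orK (nat_lit 268) (fin (add (start D624) D2948))))))) (orK (nat_lit 247) (fin (add (start D561) (orK (nat_lit 287) (fin (add (add (start (orK (nat_lit 228) (fin (add (start D3210) D2932)))) (orK (nat_lit 306) (fin (add (start (win (nat_lit 1) (nat_lit 6) (nat_lit 11) (nat_lit 4))) (orK (nat_lit 307) (fin (add (start (win (nat_lit 1) (nat_lit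 6) (nat_lit 12) (nat_lit 5))) (orK (nat_lit 308) (fin (add (start (win (nat_lit 6) (nat_lit 7) (nat_lit 11) (nat_lit 4))) (win (nat_lit 6) (nat_lit 7) (nat_lit 12) (nat_lit 5)))))))))))) (orK (nat_lit 208) (fin (add (start D3223) (orK (nat_lit 207) (fin (add (start D3224) (orK (nat_lit 268) D2947)))))))))))))) D3240)))) (orK (nat_lit 268) (fin (add (start D624) (orK (nat_lit 266) D3200))))) D3251))
noncomputable def D544 : OP := win (nat_lit 5) (nat_lit 9) (nat_lit 11) (nat_lit 0)
noncomputable def D543 : OP := win (nat_lit 4) (nat_lit 8) (nat_lit 11) (nat_lit 3)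
noncomputable def D546 : OP := orK (nat_lit 232) (fin (add (start D543) D544))
noncomputable def D547 : AP := fin (add (start D142) D546)
noncomputable def D548 : OP := orK (nat_lit 231) D547
noncomputable def D4115 : OP := orK (nat_lit 248) (fin (add (add (add (start D548) D3253) (orK (nat_lit 251) (fin (add (add (start D781) (orK (nat_lit 228) (fin (add (start D141) (orK (nat_lit 309) (fin (add (start D4099) (orK (nat_lit 208) (fin (add (start D1646) D1694)))))))))) (orK (nat_lit 228) (fin (add (start D141) (orK (nat_lit 289) (fin (add (start D760) D1702)))))))))) (orK (nat_lit 309) (fin (add (start D4099) D3254)))))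
noncomputable def D1811 : OP := win (nat_lit 5) (nat_lit 9) (nat_lit 12) (nat_lit 4)
noncomputable def D4086 : OP := orK (nat_lit 273) (fin (add (start D130) (orK (nat_lit 253) (fin (add (start D131) D1811)))))
noncomputable def D1820 : OP := orK (nat_lit 227) (fin (add (start D562) (orK (nat_lit 247) (fin (add (start D561) (orK (nat_lit 246) (fin (add (start (win (nat_lit 0) (nat_lit 6) (nat_lit 12) (nat_lit 5))) D558))))))))
noncomputable def D144 : AP := fin (add (start D142) D143)
noncomputable def D145 : OP := orK (nat_lit 231) D144
noncomputable def D694 : OP := win (nat_lit 5) (nat_lit 8) (nat_lit 12) (nat_lit 5)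
noncomputable def D606 : OP := win (nat_lit 7) (nat_lit 7) (nat_lit 9) (nat_lit 4)
noncomputable def D605 : OP := win (nat_lit 7) (nat_lit 7) (nat_lit 8) (nat_lit 5)
noncomputable def D608 : OP := orK (nat_lit 187) (fin (add (start D605) D606))
noncomputable def D413 : OP := win (nat_lit 6) (nat_lit 8) (nat_lit 9) (nat_lit 5)
noncomputable def D610 : OP := orK (nat_lit 188) (fin (add (start D413) D608))
noncomputable def D326 : OP := win (nat_lit 0) (nat_lit 7) (nat_lit 10) (nat_lit 0)
noncomputable def D1491 : OP := win (nat_lit 3) (nat_lit 8) (nat_lit 9) (nat_lit 5)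
noncomputable def D1486 : OP := win (nat_lit 3) (nat_lit 8) (nat_lit 9) (nat_lit 4)
noncomputable def D1485 : OP := win (nat_lit 3) (nat_lit 8) (nat_lit 8) (nat_lit 5)
noncomputable def D1488 : OP := orK (nat_lit 189) (fin (add (start D1485) D1486))
noncomputable def D424 : OP := orK (nat_lit 267) (fin (add (start D421) D422))
noncomputable def D1296 : AP := fin (add (start D561) D424)
noncomputable def D1299 : OP := orK (nat_lit 227) (fin (add (start D562) (orK (nat_lit 247) D1296)))
noncomputable def D1508 : OP := orK (nat_lit 248) (fin (add (add (start D145) D1299) (orK (nat_lit 268) (fin (add (start D577) (orK (nat_lit 228) (fin (add (start D141) (orK (nat_lit 208) (fin (add (add (start (orK (nat_lit 188) (fin (add (start D413) D1488)))) (orK (nat_lit 209) (fin (add (start D1491) (orK (nat_lit 231) (fin (add (start D326) D143))))))) D610)))))))))))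
noncomputable def D759 : OP := win (nat_lit 1) (nat_lit 9) (nat_lit 10) (nat_lit 3)
noncomputable def D761 : AP := fin (add (start D759) D760)
noncomputable def D762 : OP := orK (nat_lit 289) D761
noncomputable def D4117 : OP := orK (nat_lit 249) (fin (add (add (start D762) (orK (nat_lit 251) (fin (add (add (start D1508) (orK (nat_lit 252) (fin (add (start D694) D4086)))) (orK (nat_lit 248) (fin (add (add (start D145) D1820) (orK (nat_lit 228) (fin (add (start D141) (orK (nat_lit 232) (fin (add (start D569) (orK (nat_lit 252) (fin (add (start D570) D4086)))))))))))))))) D4115))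
noncomputable def D5243 : OP := win (nat_lit 1) (nat_lit 9) (nat_lit 9) (nat_lit 0)
noncomputable def D5669 : AP := fin (add (start D5243) D762)
noncomputable def D253 : OP := win (nat_lit 6) (nat_lit 10) (nat_lit 11) (nat_lit 5)
noncomputable def D252 : OP := win (nat_lit 6) (nat_lit 10) (nat_lit 10) (nat_lit 4)
noncomputable def D255 : OP := orK (nat_lit 291) (fin (add (start D252) D253))
noncomputable def D251 : OP := win (nat_lit 1) (nat_lit 9) (nat_lit 11) (nat_lit 5)
noncomputable def D250 : OP := win (nat_lit 1) (nat_lit 9) (nat_lit 10) (nat_lit 4)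
noncomputable def D258 : AP := fin (add (start D250) (orK (nat_lit 290) (fin (add (start D251) D255))))
noncomputable def D259 : OP := orK (nat_lit 289) D258
noncomputable def D8033 : OP := orK (nat_lit 270) (fin (add (start D114) D259))
noncomputable def D741 : OP := win (nat_lit 0) (nat_lit 8) (nat_lit 12) (nat_lit 5)
noncomputable def D754 : OP := win (nat_lit 2) (nat_lit 10) (nat_lit 12) (nat_lit 0)
noncomputable def D748 : OP := win (nat_lit 0) (nat_lit 9) (nat_lit 12) (nat_lit 3)
noncomputable def D757 : AP := fin (add (start D748) D754)
noncomputable def D749 : OP := win (nat_lit 2) (nat_lit 9) (nat_lit 12) (nat_lit 3)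
noncomputable def D747 : OP := win (nat_lit 0) (nat_lit 8) (nat_lit 12) (nat_lit 0)
noncomputable def D787 : OP := orK (nat_lit 249) (fin (add (add (add (start (orK (nat_lit 272) (fin (add (start D747) (orK (nat_lit 273) (fin (add (start D748) D749))))))) (orK (nat_lit 272) (fin (add (add (start (orK (nat_lit 273) (fin (add (start D749) D754)))) (orK (nat_lit 273) D757)) (orK (nat_lit 269) (fin (add (start D762) (orK (nat_lit 252) (fin (add (start D694) (orK (nat_lit 233) (fin (add (start D132) (orK (nat_lit 253) (fin (add (start D133) (orK (nat_lit 254) (fin (add (start D763) (win (nat_lit 5) (nat_lit 11) (nat_lit 12) (nat_lit 0))))))))))))))))))))) (orK (nat_lit 248) (fin (add (start D741) D145)))) (orK (nat_lit 248) (fin (add (start D145) (orK (nat_lit 269) (fin (add (start D762) D781))))))))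
noncomputable def D1509 : OP := orK (nat_lit 248) D144
noncomputable def D837 : OP := orK (nat_lit 192) (fin (add (start D834) (win (nat_lit 7) (nat_lit 12) (nat_lit 9) (nat_lit 4))))
noncomputable def D900 : OP := win (nat_lit 6) (nat_lit 13) (nat_lit 11) (nat_lit 5)
noncomputable def D902 : OP := orK (nat_lit 294) (fin (add (start (win (nat_lit 6) (nat_lit 13) (nat_lit 10) (nat_lit 4))) D900))
noncomputable def D831 : OP := win (nat_lit 3) (nat_lit 13) (nat_lit 10) (nat_lit 4)
noncomputable def D832 : OP := win (nat_lit 3) (nat_lit 13) (nat_lit 9) (nat_lit 5)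
noncomputable def D898 : OP := orK (nat_lit 214) (fin (add (start D832) D831))
noncomputable def D903 : AP := fin (add (start D898) D902)
noncomputable def D1627 : OP := orK (nat_lit 213) (fin (add (add (start (orK (nat_lit 293) D903)) (orK (nat_lit 193) (fin (add (start D961) D837)))) (orK (nat_lit 193) (fin (add (start D1618) D837)))))
noncomputable def D1610 : OP := win (nat_lit 7) (nat_lit 13) (nat_lit 11) (nat_lit 3)
noncomputable def D1608 : OP := win (nat_lit 6) (nat_lit 13) (nat_lit 10) (nat_lit 0)
noncomputable def D1639 : OP := orK (nat_lit 253) (fin (add (add (add (start (orK (nat_lit 252) D1605)) (orK (nat_lit 274) (fin (add (start (win (nat_lit 0) (nat_lit 10) (nat_lit 12) (nat_lit 2))) (orK (nat_lit 294) (fin (add (start D1608) (orK (nat_lit 314) (fin (add (start (win (nat_lit 6) (nat_lit 13) (nat_lit 11) (nat_lit 3))) D1610)))))))))) D1627) (orK (nat_lit 234) (fin (add (start (win (nat_lit 4) (nat_lit 10) (nat_lit 11) (nat_lit 2))) (orK (nat_lit 214) (fin (add (start (win (nat_lit 3) (nat_lit 13) (nat_lit 10) (nat_lit 0))) (orK (nat_lit 194) (fin (add (start (win (nat_lit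 1) (nat_lit 13) (nat_lit 8) (nat_lit 0))) (win (nat_lit 1) (nat_lit 13) (nat_lit 9) (nat_lit 3)))))))))))))
noncomputable def D941 : OP := orK (nat_lit 314) (fin (add (start (win (nat_lit 6) (nat_lit 13) (nat_lit 11) (nat_lit 4))) (win (nat_lit 6) (nat_lit 13) (nat_lit 12) (nat_lit 5))))
noncomputable def D854 : OP := win (nat_lit 3) (nat_lit 13) (nat_lit 10) (nat_lit 5)
noncomputable def D935 : OP := orK (nat_lit 234) (fin (add (start D854) (win (nat_lit 3) (nat_lit 13) (nat_lit 11) (nat_lit 4))))
noncomputable def D1854 : OP := orK (nat_lit 313) (fin (add (start D935) D941))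
noncomputable def D853 : OP := win (nat_lit 1) (nat_lit 12) (nat_lit 12) (nat_lit 5)
noncomputable def D852 : OP := win (nat_lit 1) (nat_lit 12) (nat_lit 11) (nat_lit 4)
noncomputable def D932 : OP := orK (nat_lit 312) (fin (add (start D852) D853))
noncomputable def D943 : OP := orK (nat_lit 313) (fin (add (start D932) D941))
noncomputable def D826 : OP := win (nat_lit 1) (nat_lit 12) (nat_lit 11) (nat_lit 5)
noncomputable def D1859 : OP := win (nat_lit 1) (nat_lit 12) (nat_lit 10) (nat_lit 4)
noncomputable def D1861 : OP := orK (nat_lit 292) (fin (add (start D1859) D826))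
noncomputable def D937 : OP := orK (nat_lit 313) (fin (add (start D932) D935))
noncomputable def D847 : OP := win (nat_lit 3) (nat_lit 12) (nat_lit 12) (nat_lit 0)
noncomputable def D825 : OP := win (nat_lit 1) (nat_lit 12) (nat_lit 10) (nat_lit 0)
noncomputable def D1578 : OP := win (nat_lit 5) (nat_lit 9) (nat_lit 11) (nat_lit 1)
noncomputable def D1834 : OP := win (nat_lit 7) (nat_lit 10) (nat_lit 10) (nat_lit 0)
noncomputable def D273 : OP := win (nat_lit 4) (nat_lit 8) (nat_lit 12) (nat_lit 5)
noncomputable def D272 : OP := win (nat_lit 4) (nat_lit 7) (nat_lit 12) (nat_lit 0)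
noncomputable def D274 : AP := fin (add (start D272) D273)
noncomputable def D1334 : OP := orK (nat_lit 268) D274
noncomputable def D1336 : OP := orK (nat_lit 269) (fin (add (start D104) D1334))
noncomputable def D733 : OP := win (nat_lit 7) (nat_lit 10) (nat_lit 10) (nat_lit 3)
noncomputable def D732 : OP := win (nat_lit 6) (nat_lit 10) (nat_lit 10) (nat_lit 3)
noncomputable def D1888 : OP := orK (nat_lit 271) (fin (add (add (add (start (orK (nat_lit 291) (fin (add (start D732) D733)))) (orK (nat_lit 270) (fin (add (start D106) D1336)))) (orK (nat_lit 231) (fin (add (start D1834) (orK (nat_lit 249) (fin (add (add (start (orK (nat_lit 248) (fin (add (start D741) D142)))) (orK (nat_lit 233) (fin (add (start D1578) (orK (nat_lit 273) (fin (add (add (add (start (orK (nat_lit 272) D757)) (orK (nat_lit 253) (fin (add (add (add (add (start (orK (nat_lit 272) (fin (add (start D754) (orK (nat_lit 292) (fin (add (start D825) (orK (nat_lit 312) (fin (add (start (win (nat_lit 1) (nat_lit 12) (nat_lit 11) (nat_lit 3))) D847)))))))))) (orK (nat_lit 272) (fin (add (start D754) (orK (nat_lit 293) (fin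 (add (add (start (orK (nat_lit 292) (fin (add (start D826) (orK (nat_lit 294) (fin (add (start (win (nat_lit 2) (nat_lit 11) (nat_lit 13) (nat_lit 0))) D900))))))) D1854) D937))))))) D1627) (orK (nat_lit 293) (fin (add (add (start (orK (nat_lit 213) (fin (add (start D1861) D898)))) D943) D1854)))) (orK (nat_lit 274) (fin (add (start (win (nat_lit 2) (nat_lit 10) (nat_lit 12) (nat_lit 2))) (orK (nat_lit 294) (fin (add (start D1608) (orK (nat_lit 314) (fin (add (start D1610) (win (nat_lit 7) (nat_lit 13) (nat_lit 12) (nat_lit 0))))))))))))))) D1639) (orK (nat_lit 252) (fin (add (start D130) (orK (nat_lit 253) (fin (add (start D1511) D133))))))))))))) D1509))))))) D787))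
noncomputable def D318 : OP := win (nat_lit 6) (nat_lit 12) (nat_lit 13) (nat_lit 5)
noncomputable def D316 : OP := win (nat_lit 1) (nat_lit 11) (nat_lit 13) (nat_lit 5)
noncomputable def D315 : OP := win (nat_lit 1) (nat_lit 11) (nat_lit 12) (nat_lit 4)
noncomputable def D324 : OP := orK (nat_lit 331) (fin (add (start D315) (orK (nat_lit 332) (fin (add (start D316) (orK (nat_lit 333) (fin (add (start (win (nat_lit 6) (nat_lit 12) (nat_lit 12) (nat_lit 4))) D318))))))))
noncomputable def D311 : OP := win (nat_lit 7) (nat_lit 11) (nat_lit 11) (nat_lit 5)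
noncomputable def D1732 : OP := orK (nat_lit 312) (fin (add (start D311) D324))
noncomputable def D886 : OP := win (nat_lit 4) (nat_lit 9) (nat_lit 11) (nat_lit 0)
noncomputable def D1733 : OP := win (nat_lit 3) (nat_lit 12) (nat_lit 10) (nat_lit 5)
noncomputable def D2083 : OP := orK (nat_lit 233) (fin (add (start D1733) D886))
noncomputable def D1521 : OP := win (nat_lit 6) (nat_lit 12) (nat_lit 11) (nat_lit 5)
noncomputable def D1721 : OP := win (nat_lit 0) (nat_lit 9) (nat_lit 13) (nat_lit 2)
noncomputable def D1718 : OP := orK (nat_lit 312) (fin (add (start D311) (win (nat_lit 7) (nat_lit 11) (nat_lit 12) (nat_lit 0))))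
noncomputable def D310 : OP := win (nat_lit 0) (nat_lit 9) (nat_lit 13) (nat_lit 5)
noncomputable def D1719 : AP := fin (add (start D310) D1718)
noncomputable def D1720 : OP := orK (nat_lit 271) D1719
noncomputable def D1461 : OP := orK (nat_lit 227) (fin (add (start D561) D562))
noncomputable def D1283 : OP := win (nat_lit 0) (nat_lit 6) (nat_lit 12) (nat_lit 0)
noncomputable def D698 : OP := win (nat_lit 0) (nat_lit 9) (nat_lit 12) (nat_lit 5)
noncomputable def D1749 : OP := orK (nat_lit 249) (fin (add (start D698) (orK (nat_lit 232) (fin (add (start D570) (orK (nat_lit 248) (fin (add (start D569) (orK (nat_lit 247) (fin (add (start D1283) D1461)))))))))))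
noncomputable def D2275 : OP := win (nat_lit 7) (nat_lit 12) (nat_lit 13) (nat_lit 0)
noncomputable def D1724 : OP := win (nat_lit 7) (nat_lit 12) (nat_lit 12) (nat_lit 3)
noncomputable def D1722 : OP := win (nat_lit 6) (nat_lit 12) (nat_lit 11) (nat_lit 0)
noncomputable def D1080 : OP := win (nat_lit 2) (nat_lit 11) (nat_lit 12) (nat_lit 0)
noncomputable def D1081 : AP := fin (add (start (win (nat_lit 2) (nat_lit 10) (nat_lit 12) (nat_lit 3))) D1080)
noncomputable def D1064 : OP := win (nat_lit 0) (nat_lit 9) (nat_lit 12) (nat_lit 0)
noncomputable def D1086 : AP := fin (add (start D1064) (orK (nat_lit 274) D1081))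
noncomputable def D1717 : OP := orK (nat_lit 273) D1086
noncomputable def D4546 : OP := orK (nat_lit 272) (fin (add (add (add (start D1717) (orK (nat_lit 292) (fin (add (add (start D1720) (orK (nat_lit 293) (fin (add (start D1721) (orK (nat_lit 313) (fin (add (start D1722) (orK (nat_lit 333) (fin (add (start D1724) D2275)))))))))) D1732)))) D1749) (orK (nat_lit 292) (fin (add (add (start D1720) (orK (nat_lit 293) (fin (add (start D1721) (orK (nat_lit 232) (fin (add (start D1521) D2083))))))) D1732)))))
noncomputable def D695 : OP := win (nat_lit 5) (nat_lit 9) (nat_lit 12) (nat_lit 0)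
noncomputable def D716 : OP := win (nat_lit 4) (nat_lit 8) (nat_lit 12) (nat_lit 3)
noncomputable def D1782 : OP := orK (nat_lit 270) (fin (add (start D104) (orK (nat_lit 268) (fin (add (start D272) (orK (nat_lit 252) (fin (add (start D716) D695))))))))
noncomputable def D1716 : OP := orK (nat_lit 289) (fin (add (start D759) (orK (nat_lit 249) (fin (add (start D760) (orK (nat_lit 248) (fin (add (add (start (orK (nat_lit 228) (fin (add (start D141) D1702)))) (orK (nat_lit 247) (fin (add (start D408) D1461)))) (orK (nat_lit 267) (fin (add (start D422) (orK (nat_lit 247) (fin (add (start D408) D421))))))))))))))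
noncomputable def D1127 : AP := fin (add (start D561) D408)
noncomputable def D1129 : AP := fin (add (start D562) (orK (nat_lit 247) D1127))
noncomputable def D1130 : OP := orK (nat_lit 227) D1129
noncomputable def D699 : OP := win (nat_lit 0) (nat_lit 8) (nat_lit 12) (nat_lit 4)
noncomputable def D1800 : OP := orK (nat_lit 272) (fin (add (start D698) (orK (nat_lit 248) (fin (add (start D699) D1130)))))
noncomputable def D1796 : OP := orK (nat_lit 253) (fin (add (add (start (orK (nat_lit 231) (fin (add (start D1511) D1509)))) D135) D1028))
noncomputable def D888 : OP := win (nat_lit 7) (nat_lit 12) (nat_lit 10) (nat_lit 0)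
noncomputable def D1071 : OP := win (nat_lit 6) (nat_lit 12) (nat_lit 9) (nat_lit 0)
noncomputable def D1073 : OP := orK (nat_lit 212) (fin (add (start D1071) D888))
noncomputable def D974 : OP := win (nat_lit 4) (nat_lit 10) (nat_lit 10) (nat_lit 1)
noncomputable def D2534 : OP := win (nat_lit 1) (nat_lit 12) (nat_lit 9) (nat_lit 0)
noncomputable def D1014 : OP := win (nat_lit 0) (nat_lit 11) (nat_lit 12) (nat_lit 5)
noncomputable def D1013 : OP := win (nat_lit 0) (nat_lit 10) (nat_lit 12) (nat_lit 4)
noncomputable def D1126 : OP := orK (nat_lit 274) (fin (add (start D1013) (orK (nat_lit 254) (fin (add (start D1014) D1026)))))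
noncomputable def D1018 : OP := orK (nat_lit 274) (fin (add (start D1013) (orK (nat_lit 254) (fin (add (start D1014) D763)))))
noncomputable def D1649 : OP := win (nat_lit 7) (nat_lit 9) (nat_lit 9) (nat_lit 0)
noncomputable def D1651 : OP := win (nat_lit 3) (nat_lit 8) (nat_lit 8) (nat_lit 3)
noncomputable def D1648 : OP := orK (nat_lit 269) (fin (add (start D1646) D762))
noncomputable def D643 : OP := win (nat_lit 3) (nat_lit 10) (nat_lit 11) (nat_lit 0)
noncomputable def D1516 : AP := fin (add (start D251) D643)
noncomputable def D260 : OP := win (nat_lit 7) (nat_lit 9) (nat_lit 9) (nat_lit 5)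
noncomputable def D1664 : OP := orK (nat_lit 209) (fin (add (start D326) (orK (nat_lit 270) (fin (add (start D260) (orK (nat_lit 289) (fin (add (start D250) (orK (nat_lit 290) D1516)))))))))
noncomputable def D596 : OP := win (nat_lit 3) (nat_lit 8) (nat_lit 8) (nat_lit 4)
noncomputable def D1592 : OP := win (nat_lit 4) (nat_lit 10) (nat_lit 13) (nat_lit 5)
noncomputable def D1590 : OP := win (nat_lit 0) (nat_lit 9) (nat_lit 14) (nat_lit 5)
noncomputable def D1589 : OP := win (nat_lit 4) (nat_lit 9) (nat_lit 13) (nat_lit 4)
noncomputable def D1580 : OP := win (nat_lit 4) (nat_lit 9) (nat_lit 13) (nat_lit 3)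
noncomputable def D1561 : OP := orK (nat_lit 253) (fin (add (start D1511) D135))
noncomputable def D1520 : OP := win (nat_lit 5) (nat_lit 9) (nat_lit 14) (nat_lit 4)
noncomputable def D1519 : OP := win (nat_lit 5) (nat_lit 8) (nat_lit 14) (nat_lit 5)
noncomputable def D1524 : AP := fin (add (start D1519) (orK (nat_lit 293) (fin (add (start D1520) D1521))))
noncomputable def D1043 : OP := win (nat_lit 1) (nat_lit 11) (nat_lit 11) (nat_lit 5)
noncomputable def D1518 : OP := win (nat_lit 7) (nat_lit 11) (nat_lit 11) (nat_lit 0)
noncomputable def D1515 : OP := orK (nat_lit 273) (fin (add (start D130) (orK (nat_lit 253) (fin (add (start D131) D1511)))))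
noncomputable def D1564 : OP := win (nat_lit 3) (nat_lit 9) (nat_lit 11) (nat_lit 2)
noncomputable def D1547 : OP := win (nat_lit 1) (nat_lit 9) (nat_lit 11) (nat_lit 2)
noncomputable def D1535 : OP := win (nat_lit 0) (nat_lit 7) (nat_lit 14) (nat_lit 0)
noncomputable def D1533 : OP := win (nat_lit 3) (nat_lit 10) (nat_lit 11) (nat_lit 2)
noncomputable def D1517 : OP := orK (nat_lit 270) D1516
noncomputable def D1510 : OP := orK (nat_lit 269) D761
noncomputable def D1645 : OP := orK (nat_lit 289) (fin (add (add (add (start D1510) (orK (nat_lit 252) (fin (add (add (start D1515) (orK (nat_lit 232) (fin (add (start D570) (orK (nat_lit 290) (fin (add (add (add (start D1517) (orK (nat_lit 272) (fin (add (start D698) (orK (nat_lit 292) (fin (add (start D1518) (orK (nat_lit 291) (fin (add (start D1043) (orK (nat_lit 309) D1524))))))))))) (orK (nat_lit 272) (fin (add (start D698) (orK (nat_lit 312) (fin (add (start (win (nat_lit 7) (nat_lit 11) (nat_lit 11) (nat_lit 1))) (orK (nat_lit 310) (fin (add (start D1533) (orK (nat_lit 311) (fin (add (start (win (nat_lit 2) (nat_lit 9) (nat_lit 14) (nat_lit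 0))) (orK (nat_lit 288) (fin (add (start D1535) (win (nat_lit 0) (nat_lit 8) (nat_lit 14) (nat_lit 3)))))))))))))))))) (orK (nat_lit 272) (fin (add (start D698) (orK (nat_lit 292) (fin (add (start D1518) (orK (nat_lit 309) (fin (add (start D1547) (orK (nat_lit 291) (fin (add (start D1043) D1519))))))))))))))))))) D1561)))) (orK (nat_lit 309) (fin (add (start D1564) (orK (nat_lit 252) (fin (add (add (start D1515) (orK (nat_lit 272) (fin (add (start D698) (orK (nat_lit 232) (fin (add (start D570) (orK (nat_lit 292) (fin (add (start D1518) (orK (nat_lit 291) (fin (add (start D1043) (orK (nat_lit 290) D1524)))))))))))))) D1561))))))) (orK (nat_lit 233) (fin (add (start D1578) (orK (nat_lit 273) (fin (add (add (start (orK (nat_lit 270) (fin (add (start D250) (orK (nat_lit 290) (fin (add (start D643) (orK (nat_lit 272) (fin (add (start D748) (orK (nat_lit 291) (fin (add (start D1580) D253))))))))))))) (orK (nat_lit 270) (fin (add (start D250) (orK (nat_lit 290) (fin (add (start D643) (orK (nat_lit 291) (fin (add (start D253) (orK (nat_lit 292) (fin (add (start D1589) (orK (nat_lit 312) (fin (add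 (start D1590) (orK (nat_lit 293) (fin (add (start (win (nat_lit 1) (nat_lit 12) (nat_lit 11) (nat_lit 1))) D1592))))))))))))))))))) D1639))))))))
noncomputable def D591 : OP := win (nat_lit 7) (nat_lit 7) (nat_lit 9) (nat_lit 5)
noncomputable def D1498 : OP := orK (nat_lit 207) (fin (add (start D1496) D591))
noncomputable def D1481 : AP := fin (add (start D694) (orK (nat_lit 273) (fin (add (start D130) (orK (nat_lit 253) (fin (add (start D131) (orK (nat_lit 254) (fin (add (start D763) D135))))))))))
noncomputable def D1482 : OP := orK (nat_lit 252) D1481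
noncomputable def D1484 : OP := orK (nat_lit 269) (fin (add (start D762) D1482))
noncomputable def D1468 : OP := win (nat_lit 5) (nat_lit 7) (nat_lit 12) (nat_lit 3)
noncomputable def D358 : OP := win (nat_lit 4) (nat_lit 6) (nat_lit 12) (nat_lit 0)
noncomputable def D1472 : OP := orK (nat_lit 268) (fin (add (start D779) (orK (nat_lit 267) (fin (add (start D358) D1468)))))
noncomputable def D1474 : OP := orK (nat_lit 269) (fin (add (start D762) D1472))
noncomputable def D458 : OP := orK (nat_lit 331) (fin (add (start (win (nat_lit 6) (nat_lit 10) (nat_lit 12) (nat_lit 4))) (win (nat_lit 6) (nat_lit 10) (nat_lit 13) (nat_lit 5))))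
noncomputable def D453 : OP := win (nat_lit 3) (nat_lit 10) (nat_lit 12) (nat_lit 4)
noncomputable def D482 : OP := orK (nat_lit 330) (fin (add (start D453) D458))
noncomputable def D452 : OP := win (nat_lit 3) (nat_lit 10) (nat_lit 11) (nat_lit 5)
noncomputable def D483 : AP := fin (add (start D452) D482)
noncomputable def D1457 : OP := orK (nat_lit 289) (fin (add (start D250) (orK (nat_lit 290) (fin (add (start D251) (orK (nat_lit 310) D483))))))
noncomputable def D393 : OP := win (nat_lit 6) (nat_lit 10) (nat_lit 12) (nat_lit 5)
noncomputable def D392 : OP := win (nat_lit 6) (nat_lit 10) (nat_lit 11) (nat_lit 4)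
noncomputable def D476 : OP := orK (nat_lit 311) (fin (add (start D392) D393))
noncomputable def D802 : AP := fin (add (start D452) D476)
noncomputable def D803 : OP := orK (nat_lit 310) D802
noncomputable def D809 : OP := orK (nat_lit 289) (fin (add (start D250) (orK (nat_lit 290) (fin (add (start D251) D803)))))
noncomputable def D503 : OP := win (nat_lit 1) (nat_lit 9) (nat_lit 13) (nat_lit 5)
noncomputable def D502 : OP := win (nat_lit 1) (nat_lit 9) (nat_lit 12) (nat_lit 4)
noncomputable def D805 : OP := orK (nat_lit 290) (fin (add (add (start D255) (orK (nat_lit 310) (fin (add (start D452) (orK (nat_lit 329) (fin (add (start D502) (orK (nat_lit 330) (fin (add (start D503) D453)))))))))) D803))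
noncomputable def D279 : OP := win (nat_lit 5) (nat_lit 7) (nat_lit 13) (nat_lit 4)
noncomputable def D278 : OP := win (nat_lit 5) (nat_lit 6) (nat_lit 13) (nat_lit 5)
noncomputable def D281 : OP := orK (nat_lit 287) (fin (add (start D278) D279))
noncomputable def D359 : OP := win (nat_lit 4) (nat_lit 7) (nat_lit 12) (nat_lit 5)
noncomputable def D286 : OP := win (nat_lit 2) (nat_lit 7) (nat_lit 12) (nat_lit 5)
noncomputable def D1352 : OP := win (nat_lit 4) (nat_lit 11) (nat_lit 12) (nat_lit 5)
noncomputable def D1354 : OP := orK (nat_lit 254) (fin (add (start (win (nat_lit 4) (nat_lit 10) (nat_lit 12) (nat_lit 4))) D1352))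
noncomputable def D1346 : OP := win (nat_lit 2) (nat_lit 10) (nat_lit 12) (nat_lit 4)
noncomputable def D1356 : OP := orK (nat_lit 274) (fin (add (start D1346) D1354))
noncomputable def D824 : OP := win (nat_lit 0) (nat_lit 10) (nat_lit 13) (nat_lit 5)
noncomputable def D1436 : OP := win (nat_lit 0) (nat_lit 9) (nat_lit 13) (nat_lit 4)
noncomputable def D1440 : OP := orK (nat_lit 293) (fin (add (start D1436) (orK (nat_lit 273) (fin (add (start D824) D1356)))))
noncomputable def D287 : OP := win (nat_lit 2) (nat_lit 8) (nat_lit 12) (nat_lit 4)
noncomputable def D1435 : OP := orK (nat_lit 247) (fin (add (start (win (nat_lit 0) (nat_lit 7) (nat_lit 12) (nat_lit 2))) (win (nat_lit 2) (nat_lit 7) (nat_lit 12) (nat_lit 3))))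
noncomputable def D1448 : OP := orK (nat_lit 248) (fin (add (add (start D1435) (orK (nat_lit 272) (fin (add (start D287) D1440)))) (orK (nat_lit 268) (fin (add (start D286) (orK (nat_lit 267) (fin (add (start D359) D281))))))))
noncomputable def D1459 : OP := orK (nat_lit 270) (fin (add (add (add (start (orK (nat_lit 271) (fin (add (start D106) (orK (nat_lit 269) (fin (add (start D104) D1448))))))) D805) D809) D1457))
noncomputable def D1022 : OP := orK (nat_lit 273) (fin (add (start D131) (orK (nat_lit 249) (fin (add (start D130) D135)))))
noncomputable def D1270 : OP := win (nat_lit 5) (nat_lit 10) (nat_lit 12) (nat_lit 0)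
noncomputable def D1313 : OP := win (nat_lit 6) (nat_lit 10) (nat_lit 11) (nat_lit 3)
noncomputable def D350 : OP := win (nat_lit 0) (nat_lit 7) (nat_lit 12) (nat_lit 0)
noncomputable def D578 : OP := win (nat_lit 5) (nat_lit 8) (nat_lit 12) (nat_lit 4)
noncomputable def D537 : OP := win (nat_lit 0) (nat_lit 6) (nat_lit 12) (nat_lit 4)
noncomputable def D1295 : OP := orK (nat_lit 227) (fin (add (start D562) (orK (nat_lit 247) (fin (add (start D561) (orK (nat_lit 246) (fin (add (start D537) D558))))))))
noncomputable def D580 : OP := orK (nat_lit 268) (fin (add (start D577) D578))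
noncomputable def D1305 : OP := orK (nat_lit 232) (fin (add (start D570) (orK (nat_lit 273) (fin (add (start D130) (orK (nat_lit 248) (fin (add (add (add (start D580) (orK (nat_lit 227) (fin (add (start D562) (orK (nat_lit 247) (fin (add (start D561) (orK (nat_lit 269) (fin (add (start D1283) D694)))))))))) D1295) D1299))))))))
noncomputable def D717 : OP := win (nat_lit 5) (nat_lit 8) (nat_lit 12) (nat_lit 3)
noncomputable def D1276 : OP := orK (nat_lit 268) (fin (add (start D272) D717))
noncomputable def D1278 : OP := orK (nat_lit 269) (fin (add (start D695) D1276))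
noncomputable def D1269 : OP := win (nat_lit 5) (nat_lit 9) (nat_lit 12) (nat_lit 5)
noncomputable def D1331 : OP := orK (nat_lit 252) (fin (add (add (add (start (orK (nat_lit 253) (fin (add (start D1269) (orK (nat_lit 271) (fin (add (start D1270) D106))))))) D1278) (orK (nat_lit 249) (fin (add (add (add (start (orK (nat_lit 272) (fin (add (start D698) (orK (nat_lit 271) (fin (add (start D747) D106))))))) D1305) (orK (nat_lit 268) (fin (add (start D578) (orK (nat_lit 248) (fin (add (start D577) (orK (nat_lit 271) (fin (add (start D350) D106)))))))))) (orK (nat_lit 272) (fin (add (start D698) (orK (nat_lit 269) (fin (add (start D694) (orK (nat_lit 291) (fin (add (start D252) (orK (nat_lit 232) (fin (add (start D570) (orK (nat_lit 311) (fin (add (start (win (nat_lit 1) (nat_lit 11) (nat_lit 11) (nat_lit 3))) D1313))))))))))))))))))) (orK (nat_lit 271) (fin (add (start D106) (orK (nat_lit 253) (fin (add (start D1270) D1022))))))))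
noncomputable def D1268 : OP := orK (nat_lit 269) (fin (add (start D104) (orK (nat_lit 268) (fin (add (start D272) (orK (nat_lit 252) (fin (add (start D717) D695))))))))
noncomputable def D489 : OP := win (nat_lit 3) (nat_lit 10) (nat_lit 12) (nat_lit 0)
noncomputable def D491 : OP := orK (nat_lit 271) (fin (add (start D489) D106))
noncomputable def D379 : OP := win (nat_lit 1) (nat_lit 9) (nat_lit 12) (nat_lit 5)
noncomputable def D378 : OP := win (nat_lit 1) (nat_lit 9) (nat_lit 11) (nat_lit 4)
noncomputable def D480 : OP := orK (nat_lit 309) (fin (add (start D378) (orK (nat_lit 310) (fin (add (start D379) D476)))))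
noncomputable def D1260 : OP := orK (nat_lit 290) (fin (add (add (add (start D255) D480) (orK (nat_lit 309) (fin (add (start D378) (orK (nat_lit 310) (fin (add (start D379) D482))))))) (orK (nat_lit 309) (fin (add (start D378) (orK (nat_lit 310) (fin (add (start D379) D491))))))))
noncomputable def D878 : OP := orK (nat_lit 249) (fin (add (start D747) D749))
noncomputable def D856 : OP := win (nat_lit 7) (nat_lit 12) (nat_lit 12) (nat_lit 0)
noncomputable def D827 : AP := fin (add (start D825) D826)
noncomputable def D823 : OP := win (nat_lit 4) (nat_lit 10) (nat_lit 12) (nat_lit 5)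
noncomputable def D870 : OP := orK (nat_lit 253) (fin (add (start D823) (orK (nat_lit 233) (fin (add (add (add (start (orK (nat_lit 293) (fin (add (start D824) (orK (nat_lit 292) D827))))) (orK (nat_lit 293) (fin (add (start D824) (orK (nat_lit 214) (fin (add (start D831) (orK (nat_lit 213) (fin (add (start D832) (orK (nat_lit 193) (fin (add (start D833) D837))))))))))))) (orK (nat_lit 292) (fin (add (start D825) (orK (nat_lit 312) (fin (add (start (win (nat_lit 3) (nat_lit 12) (nat_lit 11) (nat_lit 3))) D847))))))) (orK (nat_lit 293) (fin (add (start D824) (orK (nat_lit 312) (fin (add (start D852) (orK (nat_lit 313) (fin (add (start D853) (orK (nat_lit 234) (fin (add (start D854) (orK (nat_lit 252) (fin (add (start (win (nat_lit 4) (nat_lit 10) (nat_lit 11) (nat_lit 1))) D856))))))))))))))))))))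
noncomputable def D820 : OP := orK (nat_lit 310) (fin (add (start D452) D489))
noncomputable def D874 : OP := orK (nat_lit 270) (fin (add (start (orK (nat_lit 290) (fin (add (start (win (nat_lit 5) (nat_lit 9) (nat_lit 13) (nat_lit 5))) D820)))) (orK (nat_lit 209) (fin (add (start D260) D870)))))
noncomputable def D815 : OP := orK (nat_lit 249) (fin (add (start D747) D748))
noncomputable def D887 : OP := win (nat_lit 1) (nat_lit 11) (nat_lit 9) (nat_lit 0)
noncomputable def D890 : OP := orK (nat_lit 212) (fin (add (start D887) D888))
noncomputable def D894 : OP := orK (nat_lit 233) (fin (add (start D133) (orK (nat_lit 232) (fin (add (start D886) D890)))))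
noncomputable def D883 : OP := orK (nat_lit 254) (fin (add (start D763) D881))
noncomputable def D911 : OP := win (nat_lit 7) (nat_lit 12) (nat_lit 9) (nat_lit 5)
noncomputable def D962 : AP := fin (add (start D957) D961)
noncomputable def D1000 : OP := orK (nat_lit 213) (fin (add (add (add (start (orK (nat_lit 194) (fin (add (start D956) (orK (nat_lit 193) D962))))) (orK (nat_lit 274) (fin (add (start D959) (orK (nat_lit 193) (fin (add (start D958) D837))))))) (orK (nat_lit 194) (fin (add (start D956) (orK (nat_lit 193) (fin (add (start D957) D837))))))) (orK (nat_lit 274) (fin (add (start D959) (orK (nat_lit 214) (fin (add (start D832) (orK (nat_lit 232) (fin (add (start D974) (orK (nat_lit 212) (fin (add (start D911) (orK (nat_lit 215) (fin (add (start (win (nat_lit 5) (nat_lit 12) (nat_lit 10) (nat_lit 0))) (orK (nat_lit 235) (fin (add (start D976) (orK (nat_lit 195) (fin (add (start D977) (orK (nat_lit 255) (fin (add (start (win (nat_lit 1) (nat_lit 14) (nat_lit 9) (nat_lit 4))) (orK (nat_lit 256) (fin (add (start (win (nat_lit 0) (nat_lit 12) (nat_lit 11) (nat_lit 2))) (win (nat_lit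 6) (nat_lit 15) (nat_lit 9) (nat_lit 5)))))))))))))))))))))))))))))))
noncomputable def D906 : OP := win (nat_lit 5) (nat_lit 10) (nat_lit 11) (nat_lit 0)
noncomputable def D951 : OP := orK (nat_lit 231) (fin (add (start D919) D906))
noncomputable def D905 : OP := win (nat_lit 7) (nat_lit 12) (nat_lit 10) (nat_lit 5)
noncomputable def D945 : OP := orK (nat_lit 293) (fin (add (add (start (orK (nat_lit 213) D903)) D937) D943))
noncomputable def D928 : OP := orK (nat_lit 212) (fin (add (start D888) (orK (nat_lit 192) (fin (add (start D923) (win (nat_lit 7) (nat_lit 12) (nat_lit 9) (nat_lit 3)))))))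
noncomputable def D920 : OP := win (nat_lit 5) (nat_lit 9) (nat_lit 11) (nat_lit 5)
noncomputable def D921 : AP := fin (add (start D919) D920)
noncomputable def D922 : OP := orK (nat_lit 231) D921
noncomputable def D736 : OP := win (nat_lit 7) (nat_lit 10) (nat_lit 11) (nat_lit 0)
noncomputable def D739 : AP := fin (add (start D733) D736)
noncomputable def D740 : OP := orK (nat_lit 291) D739
noncomputable def D738 : OP := orK (nat_lit 291) (fin (add (start D732) D736))
noncomputable def D1012 : OP := orK (nat_lit 271) (fin (add (add (start D738) D740) (orK (nat_lit 273) (fin (add (add (add (add (start (orK (nat_lit 272) (fin (add (start D754) D815)))) (orK (nat_lit 272) (fin (add (start D754) D874)))) (orK (nat_lit 272) (fin (add (start D754) D878)))) (orK (nat_lit 253) (fin (add (add (add (start (orK (nat_lit 252) (fin (add (start D131) D883)))) (orK (nat_lit 252) (fin (add (start D131) D894)))) (orK (nat_lit 233) (fin (add (add (add (start (orK (nat_lit 232) (fin (add (start D922) D928)))) D945) (orK (nat_lit 293) (fin (add (add (start (orK (nat_lit 232) (fin (add (start D905) (orK (nat_lit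 231) (fin (add (start D205) D919))))))) D937) (orK (nat_lit 232) (fin (add (start D905) D951))))))) D1000)))) (orK (nat_lit 252) (fin (add (start D883) D894))))))) (orK (nat_lit 272) (fin (add (add (start D815) D874) D878))))))))
noncomputable def D1114 : OP := win (nat_lit 5) (nat_lit 11) (nat_lit 11) (nat_lit 0)
noncomputable def D1117 : AP := fin (add (start D886) (orK (nat_lit 234) (fin (add (start (win (nat_lit 4) (nat_lit 10) (nat_lit 11) (nat_lit 3))) D1114))))
noncomputable def D1118 : OP := orK (nat_lit 233) D1117
noncomputable def D1242 : OP := orK (nat_lit 212) (fin (add (start D887) (win (nat_lit 1) (nat_lit 11) (nat_lit 10) (nat_lit 3))))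
noncomputable def D1152 : OP := win (nat_lit 0) (nat_lit 12) (nat_lit 12) (nat_lit 5)
noncomputable def D1151 : OP := win (nat_lit 0) (nat_lit 11) (nat_lit 12) (nat_lit 4)
noncomputable def D1134 : OP := orK (nat_lit 268) (fin (add (start D578) (orK (nat_lit 248) (fin (add (start D577) D1130)))))
noncomputable def D1200 : AP := fin (add (start D1198) D1199)
noncomputable def D1201 : OP := orK (nat_lit 193) D1200
noncomputable def D1175 : OP := win (nat_lit 5) (nat_lit 12) (nat_lit 12) (nat_lit 0)
noncomputable def D1163 : OP := win (nat_lit 5) (nat_lit 11) (nat_lit 12) (nat_lit 5)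
noncomputable def D1154 : OP := win (nat_lit 4) (nat_lit 12) (nat_lit 11) (nat_lit 5)
noncomputable def D1153 : OP := win (nat_lit 4) (nat_lit 11) (nat_lit 11) (nat_lit 4)
noncomputable def D1160 : OP := orK (nat_lit 275) (fin (add (start D1151) (orK (nat_lit 255) (fin (add (start D1152) (orK (nat_lit 235) (fin (add (start D1153) D1154))))))))
noncomputable def D1150 : OP := orK (nat_lit 274) (fin (add (start D1013) D1014))
noncomputable def D1090 : OP := win (nat_lit 6) (nat_lit 12) (nat_lit 10) (nat_lit 5)
noncomputable def D1106 : OP := win (nat_lit 1) (nat_lit 11) (nat_lit 10) (nat_lit 5)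
noncomputable def D1101 : OP := win (nat_lit 7) (nat_lit 12) (nat_lit 11) (nat_lit 0)
noncomputable def D1099 : OP := win (nat_lit 6) (nat_lit 12) (nat_lit 10) (nat_lit 3)
noncomputable def D1092 : OP := win (nat_lit 6) (nat_lit 12) (nat_lit 9) (nat_lit 4)
noncomputable def D1091 : OP := win (nat_lit 1) (nat_lit 11) (nat_lit 9) (nat_lit 5)
noncomputable def D1094 : OP := orK (nat_lit 192) (fin (add (start D1091) D1092))
noncomputable def D1122 : OP := orK (nat_lit 273) (fin (add (add (add (start (orK (nat_lit 253) (fin (add (start D131) (orK (nat_lit 233) (fin (add (start D133) (orK (nat_lit 232) (fin (add (start D886) D1073)))))))))) (orK (nat_lit 274) (fin (add (start (win (nat_lit 0) (nat_lit 10) (nat_lit 12) (nat_lit 3))) (orK (nat_lit 272) D1081))))) (orK (nat_lit 272) D1086)) (orK (nat_lit 232) (fin (add (add (add (start (orK (nat_lit 249) (fin (add (start D130) D570)))) (orK (nat_lit 272) (fin (add (start D1064) (orK (nat_lit 212) (fin (add (start D1090) D1094))))))) (orK (nat_lit 212) (fin (add (add (start D1094) (orK (nat_lit 293) (fin (add (start D1099) (orK (nat_lit 253) (fin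 (add (start (win (nat_lit 7) (nat_lit 12) (nat_lit 10) (nat_lit 3))) D1101))))))) (orK (nat_lit 271) (fin (add (start D887) (orK (nat_lit 272) (fin (add (start D1106) D1090)))))))))) D1118)))))
noncomputable def D1039 : OP := win (nat_lit 1) (nat_lit 11) (nat_lit 10) (nat_lit 0)
noncomputable def D1045 : OP := win (nat_lit 6) (nat_lit 12) (nat_lit 12) (nat_lit 5)
noncomputable def D1044 : OP := win (nat_lit 6) (nat_lit 12) (nat_lit 11) (nat_lit 4)
noncomputable def D1049 : OP := orK (nat_lit 313) (fin (add (start D1044) (orK (nat_lit 312) (fin (add (start D1045) D311)))))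
noncomputable def D703 : OP := orK (nat_lit 272) (fin (add (start D698) (orK (nat_lit 248) (fin (add (start D699) D580)))))
noncomputable def D1038 : OP := orK (nat_lit 232) (fin (add (start D570) (orK (nat_lit 248) (fin (add (start D569) D580)))))
noncomputable def D1249 : AP := fin (add (add (add (add (add (add (start (orK (nat_lit 249) (fin (add (add (add (start (orK (nat_lit 272) (fin (add (start D698) (orK (nat_lit 248) (fin (add (start D699) D145))))))) D1038) D703) (orK (nat_lit 269) (fin (add (start D694) (orK (nat_lit 272) (fin (add (start D698) (orK (nat_lit 232) (fin (add (start D570) (orK (nat_lit 291) (fin (add (add (start (orK (nat_lit 271) (fin (add (start D1039) (win (nat_lit 3) (nat_lit 11) (nat_lit 11) (nat_lit 0)))))) (orK (nat_lit 292) (fin (add (start D1043) D1049)))) (orK (nat_lit 271) (fin (add (start D1039) D733))))))))))))))))))) D1122) (orK (nat_lit 253) (fin (add (add (start D1028) D1126) (orK (nat_lit 273) (fin (add (start D131) (orK (nat_lit 249) (fin (add (start D130) D1134)))))))))) (orK (nat_lit 253) (fin (add (add (add (start (orK (nat_lit 273) (fin (add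 (start D131) (orK (nat_lit 249) (fin (add (start D130) (orK (nat_lit 268) (fin (add (start D578) (orK (nat_lit 248) (fin (add (start D577) D145))))))))))))) (orK (nat_lit 254) (fin (add (add (add (start D1150) D1160) (orK (nat_lit 235) (fin (add (start D1153) (orK (nat_lit 255) (fin (add (start D1154) (orK (nat_lit 276) (fin (add (start (win (nat_lit 0) (nat_lit 12) (nat_lit 12) (nat_lit 4))) (orK (nat_lit 256) (fin (add (start (win (nat_lit 0) (nat_lit 13) (nat_lit 12) (nat_lit 5))) (orK (nat_lit 272) (fin (add (start D1163) (win (nat_lit 5) (nat_lit 12) (nat_lit 12) (nat_lit 4)))))))))))))))))) (orK (nat_lit 273) (fin (add (start D131) (orK (nat_lit 272) (fin (add (start D1064) (orK (nat_lit 255) (fin (add (start D1163) D1175))))))))))))) (orK (nat_lit 254) (fin (add (start D763) D1160)))) (orK (nat_lit 254) (fin (add (start D763) (orK (nat_lit 235) (fin (add (start D1153) (orK (nat_lit 255) (fin (add (start D1154) (orK (nat_lit 272) (fin (add (start D1163) (orK (nat_lit 273) (fin (add (start D1064) D1175))))))))))))))))))) (orK (nat_lit 253) (fin (add (add (add (start D1018) D1028) D1126)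 (orK (nat_lit 233) (fin (add (start D133) (orK (nat_lit 273) (fin (add (start D131) (orK (nat_lit 232) (fin (add (start D1073) (orK (nat_lit 231) (fin (add (start D919) (orK (nat_lit 213) (fin (add (start D207) D1201))))))))))))))))))) (orK (nat_lit 233) (fin (add (add (start (orK (nat_lit 253) (fin (add (start D133) D1018)))) (orK (nat_lit 232) D1117)) (orK (nat_lit 249) (fin (add (start D132) D1134))))))) (orK (nat_lit 271) (fin (add (add (start D740) (orK (nat_lit 253) (fin (add (add (start D1028) (orK (nat_lit 233) (fin (add (start D133) (orK (nat_lit 249) (fin (add (start D132) (orK (nat_lit 248) (fin (add (start D741) (orK (nat_lit 227) (fin (add (start D562) D580))))))))))))) (orK (nat_lit 254) (fin (add (start D763) (orK (nat_lit 275) (fin (add (start D1151) (orK (nat_lit 255) (fin (add (start D1152) (win (nat_lit 5) (nat_lit 11) (nat_lit 12) (nat_lit 4))))))))))))))) (orK (nat_lit 291) (fin (add (start D736) (orK (nat_lit 232) (fin (add (start D1242) D1118))))))))))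
noncomputable def D1250 : OP := orK (nat_lit 252) D1249
noncomputable def D5249 : OP := win (nat_lit 6) (nat_lit 10) (nat_lit 9) (nat_lit 0)
noncomputable def D5675 : AP := fin (add (start D5249) D740)
noncomputable def D1979 : AP := fin (add (start D732) (orK (nat_lit 251) D739))
noncomputable def D5268 : OP := orK (nat_lit 291) D1979
noncomputable def D351 : OP := win (nat_lit 2) (nat_lit 8) (nat_lit 12) (nat_lit 0)
noncomputable def D353 : OP := orK (nat_lit 248) (fin (add (start D350) D351))
noncomputable def D5274 : OP := orK (nat_lit 270) (fin (add (start D106) (orK (nat_lit 269) (fin (add (start D104) (orK (nat_lit 249) (fin (add (start D5243) D353))))))))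
noncomputable def D6727 : OP := orK (nat_lit 271) (fin (add (add (add (start D5274) D5268) (orK (nat_lit 251) D5675)) (orK (nat_lit 251) (fin (add (start D5249) D787)))))
noncomputable def D54 : OP := orK (nat_lit 171) (fin (add (start D8) (orK (nat_lit 170) (fin (add (start D9) D50)))))
noncomputable def D55 : AP := fin (add (start D12) D54)
noncomputable def D11723 : OP := win (nat_lit 4) (nat_lit 6) (nat_lit 6) (nat_lit 4)
noncomputable def D11725 : OP := orK (nat_lit 130) (fin (add (start D11723) D11191))
noncomputable def D7960 : OP := win (nat_lit 2) (nat_lit 6) (nat_lit 6) (nat_lit 4)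
noncomputable def D7961 : OP := win (nat_lit 2) (nat_lit 5) (nat_lit 6) (nat_lit 5)
noncomputable def D8000 : OP := orK (nat_lit 126) (fin (add (start D7961) D7960))
noncomputable def D14470 : OP := orK (nat_lit 150) (fin (add (start D8000) D11725))
noncomputable def D12926 : OP := win (nat_lit 5) (nat_lit 5) (nat_lit 7) (nat_lit 4)
noncomputable def D12925 : OP := win (nat_lit 5) (nat_lit 4) (nat_lit 7) (nat_lit 5)
noncomputable def D12928 : OP := orK (nat_lit 165) (fin (add (start D12925) D12926))
noncomputable def D12478 : OP := win (nat_lit 2) (nat_lit 5) (nat_lit 6) (nat_lit 4)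
noncomputable def D12479 : OP := win (nat_lit 2) (nat_lit 4) (nat_lit 6) (nat_lit 5)
noncomputable def D13328 : OP := orK (nat_lit 125) (fin (add (start D12479) D12478))
noncomputable def D14480 : OP := orK (nat_lit 145) (fin (add (start D13328) D12928))
noncomputable def D11393 : OP := win (nat_lit 4) (nat_lit 6) (nat_lit 6) (nat_lit 5)
noncomputable def D13591 : OP := win (nat_lit 4) (nat_lit 5) (nat_lit 6) (nat_lit 4)
noncomputable def D14565 : OP := orK (nat_lit 129) (fin (add (start D13591) D11393))
noncomputable def D14567 : OP := orK (nat_lit 145) (fin (add (start D14565) D12928))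
noncomputable def D14664 : OP := orK (nat_lit 146) (fin (add (add (start D14567) D14480) D14470))
noncomputable def D9036 : OP := win (nat_lit 0) (nat_lit 7) (nat_lit 7) (nat_lit 5)
noncomputable def D10189 : OP := win (nat_lit 0) (nat_lit 8) (nat_lit 7) (nat_lit 5)
noncomputable def D11085 : OP := win (nat_lit 0) (nat_lit 7) (nat_lit 7) (nat_lit 4)
noncomputable def D12499 : OP := orK (nat_lit 171) (fin (add (start D11085) (orK (nat_lit 151) (fin (add (start D10189) D11731)))))
noncomputable def D13601 : OP := orK (nat_lit 171) (fin (add (start D11085) (orK (nat_lit 151) (fin (add (start D10189) D7987)))))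
noncomputable def D12244 : OP := win (nat_lit 4) (nat_lit 5) (nat_lit 6) (nat_lit 5)
noncomputable def D11888 : OP := win (nat_lit 0) (nat_lit 6) (nat_lit 7) (nat_lit 5)
noncomputable def D12473 : OP := win (nat_lit 2) (nat_lit 8) (nat_lit 7) (nat_lit 0)
noncomputable def D8757 : OP := win (nat_lit 0) (nat_lit 7) (nat_lit 7) (nat_lit 3)
noncomputable def D12474 : AP := fin (add (start D8757) D12473)
noncomputable def D12476 : AP := fin (add (start D11803) (orK (nat_lit 171) D12474))
noncomputable def D12477 : OP := orK (nat_lit 170) D12476
noncomputable def D10723 : OP := win (nat_lit 2) (nat_lit 5) (nat_lit 5) (nat_lit 5)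
noncomputable def D8844 : OP := win (nat_lit 1) (nat_lit 7) (nat_lit 6) (nat_lit 5)
noncomputable def D8751 : OP := win (nat_lit 7) (nat_lit 7) (nat_lit 5) (nat_lit 5)
noncomputable def D8745 : OP := win (nat_lit 3) (nat_lit 8) (nat_lit 5) (nat_lit 5)
noncomputable def D8674 : OP := win (nat_lit 7) (nat_lit 7) (nat_lit 5) (nat_lit 4)
noncomputable def D8673 : OP := win (nat_lit 7) (nat_lit 7) (nat_lit 4) (nat_lit 5)
noncomputable def D8676 : OP := orK (nat_lit 107) (fin (add (start D8673) D8674))
noncomputable def D8672 : OP := win (nat_lit 3) (nat_lit 8) (nat_lit 4) (nat_lit 5)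
noncomputable def D8671 : OP := win (nat_lit 3) (nat_lit 8) (nat_lit 5) (nat_lit 4)
noncomputable def D8680 : OP := orK (nat_lit 109) (fin (add (start D8671) (orK (nat_lit 108) (fin (add (start D8672) D8676)))))
noncomputable def D15255 : OP := win (nat_lit 1) (nat_lit 7) (nat_lit 5) (nat_lit 4)
noncomputable def D8663 : OP := win (nat_lit 7) (nat_lit 7) (nat_lit 6) (nat_lit 5)
noncomputable def D3457 : OP := win (nat_lit 3) (nat_lit 8) (nat_lit 7) (nat_lit 4)
noncomputable def D8752 : OP := win (nat_lit 7) (nat_lit 7) (nat_lit 6) (nat_lit 4)
noncomputable def D8754 : OP := orK (nat_lit 127) (fin (add (start D8751) D8752))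
noncomputable def D12098 : OP := orK (nat_lit 207) (fin (add (start (win (nat_lit 1) (nat_lit 7) (nat_lit 6) (nat_lit 4))) D8664))
noncomputable def D8834 : OP := win (nat_lit 1) (nat_lit 8) (nat_lit 4) (nat_lit 0)
noncomputable def D14276 : OP := orK (nat_lit 85) (fin (add (start (win (nat_lit 7) (nat_lit 5) (nat_lit 3) (nat_lit 5))) (win (nat_lit 7) (nat_lit 5) (nat_lit 4) (nat_lit 4))))
noncomputable def D11947 : OP := win (nat_lit 6) (nat_lit 6) (nat_lit 6) (nat_lit 5)
noncomputable def D14268 : OP := orK (nat_lit 187) (fin (add (start (win (nat_lit 6) (nat_lit 6) (nat_lit 5) (nat_lit 4))) D11947))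
noncomputable def D13067 : OP := win (nat_lit 3) (nat_lit 6) (nat_lit 4) (nat_lit 5)
noncomputable def D14264 : OP := orK (nat_lit 107) (fin (add (start D13067) (win (nat_lit 3) (nat_lit 6) (nat_lit 5) (nat_lit 4))))
noncomputable def D14286 : OP := orK (nat_lit 106) (fin (add (add (start (orK (nat_lit 186) (fin (add (start D14264) D14268)))) (orK (nat_lit 86) (fin (add (start (win (nat_lit 6) (nat_lit 6) (nat_lit 4) (nat_lit 5))) D14276)))) (orK (nat_lit 86) (fin (add (start (orK (nat_lit 87) (fin (add (start (win (nat_lit 3) (nat_lit 6) (nat_lit 3) (nat_lit 5))) (win (nat_lit 3) (nat_lit 6) (nat_lit 4) (nat_lit 4)))))) D14276)))))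
noncomputable def D8001 : OP := win (nat_lit 5) (nat_lit 5) (nat_lit 7) (nat_lit 5)
noncomputable def D14603 : OP := orK (nat_lit 126) (fin (add (start D7961) (orK (nat_lit 166) (fin (add (start D8001) D14286)))))
noncomputable def D12243 : OP := win (nat_lit 0) (nat_lit 5) (nat_lit 7) (nat_lit 4)
noncomputable def D14670 : OP := orK (nat_lit 145) (fin (add (start D12243) D12928))
noncomputable def D13330 : OP := orK (nat_lit 145) (fin (add (start D12243) D13328))
noncomputable def D14948 : OP := orK (nat_lit 208) (fin (add (start D11065) (orK (nat_lit 207) (fin (add (start D8664) (orK (nat_lit 209) (fin (add (start D1955) (orK (nat_lit 187) (fin (add (start D4341) D2660)))))))))))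
noncomputable def D14951 : OP := win (nat_lit 5) (nat_lit 6) (nat_lit 8) (nat_lit 3)
noncomputable def D12251 : OP := win (nat_lit 4) (nat_lit 5) (nat_lit 8) (nat_lit 0)
noncomputable def D11086 : OP := win (nat_lit 0) (nat_lit 5) (nat_lit 7) (nat_lit 0)
noncomputable def D11890 : OP := orK (nat_lit 146) (fin (add (start D11086) D11888))
noncomputable def D15112 : OP := win (nat_lit 2) (nat_lit 6) (nat_lit 4) (nat_lit 5)
noncomputable def D11436 : OP := win (nat_lit 4) (nat_lit 5) (nat_lit 7) (nat_lit 0)
noncomputable def D15304 : OP := orK (nat_lit 166) (fin (add (start D11350) D11436))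
noncomputable def D15299 : OP := win (nat_lit 0) (nat_lit 6) (nat_lit 7) (nat_lit 1)
noncomputable def D11396 : AP := fin (add (start D8834) D10760)
noncomputable def D11397 : OP := orK (nat_lit 109) D11396
noncomputable def D14968 : AP := fin (add (start D12473) D14967)
noncomputable def D12988 : OP := orK (nat_lit 147) (fin (add (start D11803) D12986))
noncomputable def D12719 : OP := orK (nat_lit 127) (fin (add (start D12270) D12372))
noncomputable def D13230 : OP := win (nat_lit 7) (nat_lit 5) (nat_lit 4) (nat_lit 5)
noncomputable def D15361 : OP := orK (nat_lit 105) (fin (add (start D13230) (win (nat_lit 7) (nat_lit 5) (nat_lit 5) (nat_lit 4))))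
noncomputable def D13302 : OP := win (nat_lit 6) (nat_lit 6) (nat_lit 7) (nat_lit 5)
noncomputable def D4817 : OP := win (nat_lit 6) (nat_lit 6) (nat_lit 6) (nat_lit 0)
noncomputable def D15036 : OP := orK (nat_lit 166) (fin (add (start D11436) (orK (nat_lit 186) (fin (add (start D11352) (orK (nat_lit 187) (fin (add (start D11373) (orK (nat_lit 146) (fin (add (start D11350) (orK (nat_lit 207) (fin (add (start D6003) D4817))))))))))))))
noncomputable def D14387 : OP := win (nat_lit 7) (nat_lit 6) (nat_lit 5) (nat_lit 3)
noncomputable def D11873 : OP := orK (nat_lit 128) (fin (add (start D6004) D11871))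
noncomputable def D12850 : OP := orK (nat_lit 187) (fin (add (start D7659) D11873))
noncomputable def D11850 : OP := win (nat_lit 6) (nat_lit 6) (nat_lit 5) (nat_lit 5)
noncomputable def D11852 : OP := orK (nat_lit 106) (fin (add (start D11849) D11850))
noncomputable def D14949 : AP := fin (add (start D8672) D11930)
noncomputable def D14950 : OP := orK (nat_lit 108) D14949
noncomputable def D12131 : OP := win (nat_lit 1) (nat_lit 8) (nat_lit 5) (nat_lit 1)
noncomputable def D14963 : OP := orK (nat_lit 188) (fin (add (add (start D11388) D14948) (orK (nat_lit 109) (fin (add (start D12131) (orK (nat_lit 128) (fin (add (start D14950) (orK (nat_lit 187) (fin (add (start D8844) (orK (nat_lit 186) (fin (add (start D12251) (orK (nat_lit 170) (fin (add (start D14951) D11599)))))))))))))))))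
noncomputable def D15048 : OP := orK (nat_lit 108) (fin (add (start D11930) D8676))
noncomputable def D15042 : OP := orK (nat_lit 109) (fin (add (start D12131) D14950))
noncomputable def D11892 : OP := orK (nat_lit 147) (fin (add (start D8663) D11890))
noncomputable def D15296 : OP := orK (nat_lit 208) (fin (add (start D11065) D11892))
noncomputable def D8461 : AP := fin (add (start D4341) D6003)
noncomputable def D15445 : AP := fin (add (add (add (add (add (add (start (orK (nat_lit 188) (fin (add (add (start D11388) D15296) (orK (nat_lit 170) (fin (add (add (start D12988) (orK (nat_lit 171) (fin (add (start D12473) D8533)))) (orK (nat_lit 129) (fin (add (start D11066) (orK (nat_lit 146) (fin (add (start D15299) (orK (nat_lit 167) (fin (add (start (orK (nat_lit 187) (fin (add (start D7659) (orK (nat_lit 207) D8461))))) D15304)))))))))))))))) (orK (nat_lit 188) (fin (add (add (start D11388) D15296) (orK (nat_lit 128) (fin (add (add (start D15042) (orK (nat_lit 129) (fin (add (start D11066) (orK (nat_lit 127) (fin (add (start D8751) (orK (nat_lit 126) (fin (add (start D10998) (orK (nat_lit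 146) (fin (add (start D10727) (orK (nat_lit 147) (fin (add (start D11888) D11393)))))))))))))))) D15048))))))) D14963) (orK (nat_lit 167) (fin (add (add (add (add (add (start (orK (nat_lit 166) (fin (add (start D11436) (orK (nat_lit 146) (fin (add (start D11350) (orK (nat_lit 147) (fin (add (start D11888) (orK (nat_lit 126) (fin (add (start D7961) D11852))))))))))))) (orK (nat_lit 166) (fin (add (start D11436) (orK (nat_lit 186) (fin (add (start D11352) (orK (nat_lit 170) (fin (add (start D11353) (orK (nat_lit 171) (fin (add (start D8583) D12473))))))))))))) (orK (nat_lit 147) (fin (add (add (start D11890) (orK (nat_lit 170) (fin (add (start D12986) D12850)))) (orK (nat_lit 146) (fin (add (start D11086) (orK (nat_lit 126) (fin (add (start D7961) (orK (nat_lit 129) (fin (add (start D11393) (orK (nat_lit 106) (fin (add (start D11849) (orK (nat_lit 187) (fin (add (start D14387) D14382))))))))))))))))))) D15036) (orK (nat_lit 166) (fin (add (start D11436) (orK (nat_lit 186) (fin (add (start D11352) (orK (nat_lit 146) (fin (add (start D11350) (orK (nat_lit 126) (fin (add (add (start (orK (nat_lit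 206) (fin (add (start (orK (nat_lit 127) (fin (add (start (win (nat_lit 3) (nat_lit 6) (nat_lit 5) (nat_lit 5))) (win (nat_lit 3) (nat_lit 6) (nat_lit 6) (nat_lit 4)))))) (orK (nat_lit 207) (fin (add (start (win (nat_lit 6) (nat_lit 6) (nat_lit 6) (nat_lit 4))) D13302))))))) (orK (nat_lit 106) (fin (add (start D14268) D15361)))) (orK (nat_lit 106) (fin (add (start D14264) D15361)))))))))))))))) (orK (nat_lit 166) (fin (add (start D11436) (orK (nat_lit 146) (fin (add (start D11350) (orK (nat_lit 147) (fin (add (start D11888) (orK (nat_lit 186) (fin (add (start D11352) D12719)))))))))))))))) (orK (nat_lit 170) (fin (add (add (start D12988) (orK (nat_lit 171) D14968)) (orK (nat_lit 129) (fin (add (add (start D11397) (orK (nat_lit 208) (fin (add (start D12649) (orK (nat_lit 167) (fin (add (add (start (orK (nat_lit 146) (fin (add (start D15299) D15304)))) (orK (nat_lit 166) (fin (add (start D11436) D11355)))) (orK (nat_lit 147) (fin (add (start D11803) (orK (nat_lit 187) (fin (add (start D7659) (orK (nat_lit 207) (fin (add (start D6003) D4769)))))))))))))))) (orK (nat_lit 147) (fin (add (start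 D11803) (orK (nat_lit 109) (fin (add (start D8834) (orK (nat_lit 110) (fin (add (start D10600) (orK (nat_lit 108) (fin (add (start D10743) (orK (nat_lit 107) (fin (add (start D10790) (orK (nat_lit 87) (fin (add (start D15112) (win (nat_lit 6) (nat_lit 7) (nat_lit 4) (nat_lit 2))))))))))))))))))))))))))) (orK (nat_lit 147) (fin (add (add (start D11890) (orK (nat_lit 188) (fin (add (add (start (orK (nat_lit 208) (fin (add (start D11065) D8663)))) (orK (nat_lit 170) (fin (add (start D12986) (orK (nat_lit 128) (fin (add (start (orK (nat_lit 187) (fin (add (start D8844) (orK (nat_lit 186) (fin (add (start D12251) D14951))))))) (orK (nat_lit 107) (fin (add (start D8674) (orK (nat_lit 108) (fin (add (start D11930) D8673))))))))))))) (orK (nat_lit 171) (fin (add (start (win (nat_lit 2) (nat_lit 7) (nat_lit 7) (nat_lit 1))) D14948))))))) (orK (nat_lit 146) (fin (add (add (start D13330) D14670) D14603))))))) (orK (nat_lit 188) (fin (add (add (start (orK (nat_lit 129) (fin (add (start D8835) (orK (nat_lit 109) (fin (add (start D8834) (win (nat_lit 1) (nat_lit 8) (nat_lit 5) (nat_lit 3))))))))) (orK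 (nat_lit 208) (fin (add (add (start (orK (nat_lit 228) (fin (add (start D3457) (orK (nat_lit 227) (fin (add (start (win (nat_lit 1) (nat_lit 7) (nat_lit 7) (nat_lit 4))) (win (nat_lit 1) (nat_lit 7) (nat_lit 8) (nat_lit 5))))))))) (orK (nat_lit 128) (fin (add (start D12098) D8754)))) (orK (nat_lit 228) (fin (add (start D3457) (orK (nat_lit 147) (fin (add (start D8663) (win (nat_lit 7) (nat_lit 7) (nat_lit 7) (nat_lit 4)))))))))))) (orK (nat_lit 128) (fin (add (add (add (start (orK (nat_lit 187) (fin (add (start D8844) (orK (nat_lit 108) (fin (add (start D15255) (orK (nat_lit 109) (fin (add (start D8672) D8671)))))))))) (orK (nat_lit 187) (fin (add (start D8844) (orK (nat_lit 108) (fin (add (start D15255) D8676))))))) D8680) (orK (nat_lit 129) (fin (add (start D8745) (orK (nat_lit 127) (fin (add (start D8751) (orK (nat_lit 126) (fin (add (start D10998) (orK (nat_lit 146) (fin (add (start D10727) (orK (nat_lit 147) (fin (add (start D11393) (orK (nat_lit 187) (fin (add (start D8844) (orK (nat_lit 106) (fin (add (start D10723) (win (nat_lit 7) (nat_lit 6) (nat_lit 5) (nat_lit 1))))))))))))))))))))))))))))))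
noncomputable def D10796 : OP := orK (nat_lit 126) (fin (add (start D10793) (win (nat_lit 5) (nat_lit 6) (nat_lit 5) (nat_lit 4))))
noncomputable def D10791 : OP := win (nat_lit 2) (nat_lit 6) (nat_lit 4) (nat_lit 4)
noncomputable def D10792 : OP := win (nat_lit 2) (nat_lit 5) (nat_lit 4) (nat_lit 5)
noncomputable def D15115 : OP := orK (nat_lit 87) (fin (add (start D15112) (win (nat_lit 2) (nat_lit 7) (nat_lit 4) (nat_lit 4))))
noncomputable def D15138 : AP := fin (add (start D15115) (orK (nat_lit 91) (fin (add (start (win (nat_lit 4) (nat_lit 7) (nat_lit 4) (nat_lit 4))) D15135))))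
noncomputable def D15091 : OP := win (nat_lit 1) (nat_lit 9) (nat_lit 4) (nat_lit 2)
noncomputable def D15109 : OP := orK (nat_lit 90) (fin (add (start D15091) (orK (nat_lit 91) (fin (add (start (win (nat_lit 4) (nat_lit 7) (nat_lit 4) (nat_lit 0))) (orK (nat_lit 92) (fin (add (start (win (nat_lit 4) (nat_lit 8) (nat_lit 4) (nat_lit 3))) (win (nat_lit 5) (nat_lit 9) (nat_lit 4) (nat_lit 0))))))))))
noncomputable def D12728 : OP := win (nat_lit 5) (nat_lit 7) (nat_lit 7) (nat_lit 0)
noncomputable def D15186 : OP := orK (nat_lit 150) (fin (add (start D12728) D15109))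
noncomputable def D12765 : OP := win (nat_lit 4) (nat_lit 9) (nat_lit 4) (nat_lit 5)
noncomputable def D12764 : OP := win (nat_lit 4) (nat_lit 8) (nat_lit 4) (nat_lit 4)
noncomputable def D15127 : OP := orK (nat_lit 92) (fin (add (start D12764) D12765))
noncomputable def D15123 : OP := orK (nat_lit 88) (fin (add (start D14829) (win (nat_lit 2) (nat_lit 8) (nat_lit 4) (nat_lit 4))))
noncomputable def D15120 : OP := orK (nat_lit 132) (fin (add (start (win (nat_lit 0) (nat_lit 8) (nat_lit 5) (nat_lit 4))) D8395))
noncomputable def D15129 : OP := orK (nat_lit 112) (fin (add (start D15120) D15127))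
noncomputable def D15133 : OP := orK (nat_lit 111) (fin (add (add (start (orK (nat_lit 107) (fin (add (start D15111) D15115)))) D15129) (orK (nat_lit 112) (fin (add (start D15123) D15127)))))
noncomputable def D8567 : OP := win (nat_lit 6) (nat_lit 10) (nat_lit 5) (nat_lit 5)
noncomputable def D14860 : OP := orK (nat_lit 171) (fin (add (start D12473) D8567))
noncomputable def D14871 : OP := orK (nat_lit 170) (fin (add (start D8555) D14860))
noncomputable def D15102 : OP := orK (nat_lit 130) (fin (add (start D10686) D14871))
noncomputable def D14883 : AP := fin (add (start D14872) (orK (nat_lit 132) (fin (add (start (win (nat_lit 0) (nat_lit 8) (nat_lit 5) (nat_lit 3))) (win (nat_lit 2) (nat_lit 9) (nat_lit 5) (nat_lit 0))))))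
noncomputable def D11931 : AP := fin (add (start (win (nat_lit 1) (nat_lit 7) (nat_lit 5) (nat_lit 5))) D11930)
noncomputable def D11326 : OP := win (nat_lit 4) (nat_lit 6) (nat_lit 7) (nat_lit 5)
noncomputable def D11438 : OP := orK (nat_lit 166) (fin (add (start D11436) D11326))
noncomputable def D10899 : OP := orK (nat_lit 68) (fin (add (start D10896) (win (nat_lit 7) (nat_lit 8) (nat_lit 3) (nat_lit 4))))
noncomputable def D10827 : OP := win (nat_lit 6) (nat_lit 9) (nat_lit 4) (nat_lit 5)
noncomputable def D10903 : OP := orK (nat_lit 150) (fin (add (start D10827) (orK (nat_lit 69) (fin (add (start D10829) D10899)))))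
noncomputable def D10911 : OP := orK (nat_lit 90) (fin (add (start D10764) (orK (nat_lit 89) (fin (add (start D10763) D10903)))))
noncomputable def D10835 : OP := orK (nat_lit 48) (fin (add (start (win (nat_lit 7) (nat_lit 8) (nat_lit 1) (nat_lit 5))) (win (nat_lit 7) (nat_lit 8) (nat_lit 2) (nat_lit 4))))
noncomputable def D10850 : OP := win (nat_lit 1) (nat_lit 8) (nat_lit 3) (nat_lit 5)
noncomputable def D10866 : OP := orK (nat_lit 90) (fin (add (start D10764) (orK (nat_lit 89) (fin (add (start D10763) (orK (nat_lit 150) (fin (add (start D10827) (orK (nat_lit 69) (fin (add (start D10829) (orK (nat_lit 128) (fin (add (start D10850) (orK (nat_lit 49) (fin (add (start (win (nat_lit 1) (nat_lit 8) (nat_lit 2) (nat_lit 4))) (orK (nat_lit 30) (fin (add (start (win (nat_lit 3) (nat_lit 9) (nat_lit 1) (nat_lit 4))) D10835))))))))))))))))))))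
noncomputable def D10831 : OP := win (nat_lit 3) (nat_lit 9) (nat_lit 1) (nat_lit 5)
noncomputable def D10830 : OP := win (nat_lit 3) (nat_lit 9) (nat_lit 2) (nat_lit 4)
noncomputable def D10841 : OP := orK (nat_lit 69) (fin (add (start D10829) (orK (nat_lit 50) (fin (add (start D10830) (orK (nat_lit 49) (fin (add (start D10831) D10835))))))))
noncomputable def D10800 : OP := orK (nat_lit 86) (fin (add (start D10791) (orK (nat_lit 106) (fin (add (start D10792) D10796)))))
noncomputable def D10816 : OP := orK (nat_lit 108) (fin (add (start D10743) (orK (nat_lit 110) (fin (add (start D10600) (orK (nat_lit 107) (fin (add (add (start D10790) D10800) (orK (nat_lit 131) (fin (add (start D10801) (orK (nat_lit 111) (fin (add (start D10802) (orK (nat_lit 127) (fin (add (start D10803) D10804)))))))))))))))))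
noncomputable def D13587 : AP := fin (add (add (add (add (start D10935) D10816) (orK (nat_lit 89) (fin (add (add (start D10772) (orK (nat_lit 150) (fin (add (start D10827) D10841)))) (orK (nat_lit 150) (fin (add (start D10827) (orK (nat_lit 69) (fin (add (start D10829) (orK (nat_lit 50) (fin (add (start D10830) (orK (nat_lit 49) (fin (add (start D10831) (orK (nat_lit 108) (fin (add (start (win (nat_lit 1) (nat_lit 8) (nat_lit 2) (nat_lit 5))) D10743))))))))))))))))))) D10866) D10911)
noncomputable def D15082 : OP := orK (nat_lit 107) (fin (add (start D8673) (orK (nat_lit 127) (fin (add (start (win (nat_lit 7) (nat_lit 7) (nat_lit 5) (nat_lit 0))) (orK (nat_lit 126) (fin (add (start D10998) D13069))))))))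
noncomputable def D13386 : OP := win (nat_lit 4) (nat_lit 6) (nat_lit 7) (nat_lit 1)
noncomputable def D11001 : OP := orK (nat_lit 126) (fin (add (start D10998) D10999))
noncomputable def D14920 : OP := win (nat_lit 5) (nat_lit 7) (nat_lit 7) (nat_lit 1)
noncomputable def D8402 : OP := orK (nat_lit 93) (fin (add (start (win (nat_lit 3) (nat_lit 12) (nat_lit 4) (nat_lit 1))) D8400))
noncomputable def D8398 : OP := win (nat_lit 2) (nat_lit 10) (nat_lit 5) (nat_lit 0)
noncomputable def D8373 : OP := win (nat_lit 6) (nat_lit 11) (nat_lit 5) (nat_lit 5)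
noncomputable def D8381 : OP := win (nat_lit 7) (nat_lit 10) (nat_lit 4) (nat_lit 4)
noncomputable def D8380 : OP := win (nat_lit 7) (nat_lit 10) (nat_lit 3) (nat_lit 5)
noncomputable def D8383 : OP := orK (nat_lit 90) (fin (add (start D8380) D8381))
noncomputable def D8370 : OP := win (nat_lit 3) (nat_lit 11) (nat_lit 4) (nat_lit 4)
noncomputable def D8391 : OP := orK (nat_lit 92) (fin (add (start D8370) (orK (nat_lit 91) (fin (add (start D8371) D8383)))))
noncomputable def D8372 : OP := win (nat_lit 6) (nat_lit 11) (nat_lit 4) (nat_lit 4)
noncomputable def D8387 : OP := orK (nat_lit 172) (fin (add (start D8373) (orK (nat_lit 91) (fin (add (start D8372) D8383)))))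
noncomputable def D8375 : OP := orK (nat_lit 172) (fin (add (start D8372) D8373))
noncomputable def D8379 : OP := orK (nat_lit 92) (fin (add (start D8370) (orK (nat_lit 91) (fin (add (start D8371) D8375)))))
noncomputable def D11121 : OP := orK (nat_lit 92) (fin (add (start D8371) D8370))
noncomputable def D11134 : OP := orK (nat_lit 91) (fin (add (start D11121) D8383))
noncomputable def D11125 : OP := win (nat_lit 6) (nat_lit 11) (nat_lit 6) (nat_lit 5)
noncomputable def D11173 : OP := orK (nat_lit 192) (fin (add (start (win (nat_lit 6) (nat_lit 11) (nat_lit 5) (nat_lit 4))) D11125))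
noncomputable def D11175 : OP := orK (nat_lit 191) (fin (add (start D11173) D11130))
noncomputable def D10240 : OP := win (nat_lit 1) (nat_lit 11) (nat_lit 3) (nat_lit 0)
noncomputable def D10243 : OP := orK (nat_lit 92) (fin (add (start D10240) (win (nat_lit 1) (nat_lit 11) (nat_lit 4) (nat_lit 3))))
noncomputable def D11147 : OP := win (nat_lit 3) (nat_lit 11) (nat_lit 5) (nat_lit 0)
noncomputable def D13790 : OP := win (nat_lit 7) (nat_lit 10) (nat_lit 4) (nat_lit 3)
noncomputable def D10616 : OP := win (nat_lit 1) (nat_lit 9) (nat_lit 3) (nat_lit 0)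
noncomputable def D11112 : OP := win (nat_lit 7) (nat_lit 10) (nat_lit 5) (nat_lit 0)
noncomputable def D10630 : OP := win (nat_lit 5) (nat_lit 8) (nat_lit 6) (nat_lit 0)
noncomputable def D14921 : AP := fin (add (start D12473) D11280)
noncomputable def D7952 : OP := win (nat_lit 5) (nat_lit 7) (nat_lit 7) (nat_lit 5)
noncomputable def D12079 : AP := fin (add (start D7952) D11082)
noncomputable def D14926 : OP := orK (nat_lit 128) (fin (add (start D6004) (orK (nat_lit 207) (fin (add (start D11966) D6003)))))
noncomputable def D15228 : AP := fin (add (add (add (add (add (start (orK (nat_lit 167) (fin (add (add (start D11438) (orK (nat_lit 151) (fin (add (start D14920) (orK (nat_lit 170) (fin (add (start (orK (nat_lit 171) D14921)) (orK (nat_lit 187) (fin (add (start D7659) D14926)))))))))) (orK (nat_lit 166) (fin (add (start D11436) (orK (nat_lit 186) (fin (add (start D11352) (orK (nat_lit 187) (fin (add (start D11373) D14926))))))))))))) D14963) (orK (nat_lit 151) (fin (add (add (start (orK (nat_lit 150) D12079)) (orK (nat_lit 171) (fin (add (add (add (start (orK (nat_lit 170) D14921))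 (orK (nat_lit 170) D14968)) (orK (nat_lit 131) (fin (add (add (add (add (start (orK (nat_lit 129) (fin (add (start D11397) (orK (nat_lit 130) (fin (add (start D10630) (orK (nat_lit 110) (fin (add (start D11112) (orK (nat_lit 90) (fin (add (start D10616) D13790))))))))))))) (orK (nat_lit 129) (fin (add (start D11397) (orK (nat_lit 132) (fin (add (start (win (nat_lit 5) (nat_lit 8) (nat_lit 6) (nat_lit 2))) (orK (nat_lit 112) (fin (add (start D11147) D10243)))))))))) (orK (nat_lit 111) (fin (add (add (start (orK (nat_lit 91) (fin (add (start D8375) D8383)))) (orK (nat_lit 191) (fin (add (start (orK (nat_lit 112) (fin (add (start D8392) D14972)))) D11173)))) D11134)))) (orK (nat_lit 111) (fin (add (add (start (orK (nat_lit 91) (fin (add (start D11121) D8375)))) D11175) D11134)))) (orK (nat_lit 111) (fin (add (add (add (start D8379) D8387) D8391) (orK (nat_lit 112) (fin (add (start D8392) (orK (nat_lit 110) (fin (add (start D8393) (orK (nat_lit 172) (fin (add (start D8373) (orK (nat_lit 132) (fin (add (start (orK (nat_lit 133) (fin (add (start (win (nat_lit 0) (nat_lit 9) (nat_lit 5) (nat_lit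 0))) D8398)))) (orK (nat_lit 113) (fin (add (start D8402) (orK (nat_lit 114) (fin (add (start (win (nat_lit 5) (nat_lit 10) (nat_lit 5) (nat_lit 5))) (win (nat_lit 5) (nat_lit 11) (nat_lit 5) (nat_lit 0))))))))))))))))))))))))))) (orK (nat_lit 170) (fin (add (start D11280) D14967))))))) (orK (nat_lit 167) (fin (add (start D14920) D15036))))))) (orK (nat_lit 188) (fin (add (add (start D11388) D14948) (orK (nat_lit 128) (fin (add (add (start D15042) (orK (nat_lit 129) (fin (add (start D11066) (orK (nat_lit 127) (fin (add (start D8751) D11001))))))) D15048))))))) (orK (nat_lit 150) (fin (add (add (start (orK (nat_lit 167) (fin (add (start D11075) D12728)))) (orK (nat_lit 151) (fin (add (start D11082) (orK (nat_lit 171) (fin (add (start D10189) (orK (nat_lit 128) (fin (add (start D7951) (orK (nat_lit 108) (fin (add (start D11930) (orK (nat_lit 109) (fin (add (start D8672) (orK (nat_lit 129) (fin (add (start D10760) (orK (nat_lit 131) (fin (add (start D10190) (orK (nat_lit 107) (fin (add (start (win (nat_lit 2) (nat_lit 7) (nat_lit 5) (nat_lit 1))) D8673))))))))))))))))))))))))) (orK (nat_lit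 109) (fin (add (add (add (start (orK (nat_lit 129) D11396)) (orK (nat_lit 129) (fin (add (start D10760) D10816)))) (orK (nat_lit 108) (fin (add (add (add (start (orK (nat_lit 128) D14949)) (orK (nat_lit 128) (fin (add (start D8672) (orK (nat_lit 166) (fin (add (start D13386) D15082))))))) (orK (nat_lit 166) (fin (add (start D13386) (orK (nat_lit 128) (fin (add (start D11930) D15082))))))) (orK (nat_lit 110) (fin (add (add (add (start D15102) D15109) D15133) (orK (nat_lit 111) (fin (add (add (start (orK (nat_lit 107) D15138)) (orK (nat_lit 112) (fin (add (start D15120) D15123)))) D15129)))))))))) (orK (nat_lit 129) D13587)))))))) (orK (nat_lit 167) (fin (add (add (start D11438) (orK (nat_lit 108) (fin (add (add (start (orK (nat_lit 128) D11931)) (orK (nat_lit 109) (fin (add (add (add (start (orK (nat_lit 129) (fin (add (start D8834) D10743)))) (orK (nat_lit 110) (fin (add (add (add (start (orK (nat_lit 129) (fin (add (start D8834) D10600)))) (orK (nat_lit 90) (fin (add (start D15156) (orK (nat_lit 150) (fin (add (start D15091) D12728))))))) (orK (nat_lit 150) (fin (add (start D12728) (orK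 (nat_lit 89) (fin (add (start (win (nat_lit 1) (nat_lit 8) (nat_lit 4) (nat_lit 2))) (orK (nat_lit 130) (fin (add (start (win (nat_lit 7) (nat_lit 9) (nat_lit 4) (nat_lit 0))) (orK (nat_lit 131) D14883))))))))))) (orK (nat_lit 150) (fin (add (start D12728) (orK (nat_lit 90) (fin (add (start D15091) (orK (nat_lit 107) (fin (add (start D15169) (orK (nat_lit 86) (fin (add (start D10791) (orK (nat_lit 106) (fin (add (start D10792) D15170))))))))))))))))))) (orK (nat_lit 110) (fin (add (add (start (orK (nat_lit 129) (fin (add (start D10600) D10743)))) D15186) (orK (nat_lit 88) (fin (add (start D14846) (orK (nat_lit 87) (fin (add (start (win (nat_lit 2) (nat_lit 7) (nat_lit 4) (nat_lit 0))) (orK (nat_lit 86) (fin (add (start (win (nat_lit 0) (nat_lit 5) (nat_lit 4) (nat_lit 0))) (win (nat_lit 2) (nat_lit 6) (nat_lit 4) (nat_lit 3))))))))))))))) (orK (nat_lit 110) (fin (add (add (add (start (orK (nat_lit 150) (fin (add (start D12728) D15102)))) D15133) D15186) (orK (nat_lit 107) (fin (add (add (start (orK (nat_lit 111) D15138)) (orK (nat_lit 106) (fin (add (start (orK (nat_lit 90) (fin (add (start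 D15170) D15169)))) D10796)))) (orK (nat_lit 106) (fin (add (start (orK (nat_lit 86) (fin (add (start D10792) D10791)))) D10796))))))))))))) (orK (nat_lit 187) (fin (add (start (win (nat_lit 1) (nat_lit 7) (nat_lit 5) (nat_lit 1))) (orK (nat_lit 170) (fin (add (start D7659) (orK (nat_lit 171) (fin (add (start D12473) D11300))))))))))))) D15036))))
noncomputable def D10199 : OP := win (nat_lit 4) (nat_lit 8) (nat_lit 6) (nat_lit 4)
noncomputable def D10202 : OP := orK (nat_lit 132) (fin (add (start D10199) D10200))
noncomputable def D10148 : OP := win (nat_lit 0) (nat_lit 8) (nat_lit 7) (nat_lit 4)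
noncomputable def D10151 : OP := orK (nat_lit 172) (fin (add (start D10148) D10149))
noncomputable def D10154 : OP := orK (nat_lit 128) (fin (add (start D7951) D10152))
noncomputable def D10155 : AP := fin (add (start D10151) D10154)
noncomputable def D8728 : OP := win (nat_lit 0) (nat_lit 7) (nat_lit 7) (nat_lit 0)
noncomputable def D14812 : AP := fin (add (start D8728) D12473)
noncomputable def D14440 : OP := orK (nat_lit 167) (fin (add (start D7959) (orK (nat_lit 127) (fin (add (start D7984) (orK (nat_lit 107) (fin (add (add (start D14425) (orK (nat_lit 87) (fin (add (start (win (nat_lit 6) (nat_lit 7) (nat_lit 4) (nat_lit 5))) D11632)))) D14434))))))))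
noncomputable def D7958 : OP := win (nat_lit 5) (nat_lit 7) (nat_lit 7) (nat_lit 4)
noncomputable def D10210 : OP := orK (nat_lit 167) (fin (add (start D7959) D7958))
noncomputable def D14444 : OP := orK (nat_lit 131) (fin (add (start D10217) (orK (nat_lit 151) (fin (add (start D10190) D10210)))))
noncomputable def D12080 : OP := orK (nat_lit 168) D12079
noncomputable def D10206 : OP := orK (nat_lit 128) (fin (add (start D7951) (orK (nat_lit 152) (fin (add (start D10152) D10202)))))
noncomputable def D12108 : OP := orK (nat_lit 171) (fin (add (start D11085) D10189))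
noncomputable def D13166 : OP := win (nat_lit 2) (nat_lit 7) (nat_lit 7) (nat_lit 3)
noncomputable def D13177 : AP := fin (add (start D13166) D12473)
noncomputable def D14449 : OP := orK (nat_lit 170) (fin (add (start D11803) (orK (nat_lit 171) D13177)))
noncomputable def D14676 : OP := orK (nat_lit 171) (fin (add (start D11085) (orK (nat_lit 151) (fin (add (start D10189) D10210)))))
noncomputable def D8002 : OP := win (nat_lit 5) (nat_lit 6) (nat_lit 7) (nat_lit 4)
noncomputable def D8004 : OP := orK (nat_lit 166) (fin (add (start D8001) D8002))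
noncomputable def D8005 : AP := fin (add (start D8000) D8004)
noncomputable def D13641 : OP := orK (nat_lit 150) D8005
noncomputable def D14728 : OP := orK (nat_lit 146) (fin (add (add (start D13330) D13641) D14670))
noncomputable def D12179 : OP := orK (nat_lit 187) (fin (add (start D11871) D12177))
noncomputable def D14484 : OP := win (nat_lit 1) (nat_lit 7) (nat_lit 5) (nat_lit 3)
noncomputable def D11728 : AP := fin (add (start D11725) D8004)
noncomputable def D14481 : OP := orK (nat_lit 150) D11728
noncomputable def D12482 : OP := win (nat_lit 5) (nat_lit 4) (nat_lit 7) (nat_lit 4)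
noncomputable def D12481 : OP := win (nat_lit 5) (nat_lit 3) (nat_lit 7) (nat_lit 5)
noncomputable def D12484 : OP := orK (nat_lit 164) (fin (add (start D12481) D12482))
noncomputable def D14545 : OP := win (nat_lit 0) (nat_lit 4) (nat_lit 7) (nat_lit 4)
noncomputable def D14544 : OP := win (nat_lit 0) (nat_lit 5) (nat_lit 7) (nat_lit 5)
noncomputable def D14652 : OP := orK (nat_lit 168) (fin (add (start D14544) (orK (nat_lit 144) (fin (add (start D14545) D12484)))))
noncomputable def D14402 : OP := orK (nat_lit 127) D14401
noncomputable def D14321 : OP := win (nat_lit 2) (nat_lit 5) (nat_lit 6) (nat_lit 3)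
noncomputable def D14326 : OP := orK (nat_lit 125) (fin (add (start D14321) (orK (nat_lit 127) (fin (add (start D14322) D12504)))))
noncomputable def D13119 : OP := orK (nat_lit 163) (fin (add (start (win (nat_lit 5) (nat_lit 2) (nat_lit 7) (nat_lit 5))) (win (nat_lit 5) (nat_lit 3) (nat_lit 7) (nat_lit 4))))
noncomputable def D13092 : OP := win (nat_lit 2) (nat_lit 2) (nat_lit 6) (nat_lit 5)
noncomputable def D13091 : OP := win (nat_lit 2) (nat_lit 3) (nat_lit 6) (nat_lit 4)
noncomputable def D14375 : OP := orK (nat_lit 128) (fin (add (start D5958) D11871))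
noncomputable def D14376 : AP := fin (add (start D5959) D14375)
noncomputable def D14397 : OP := orK (nat_lit 127) (fin (add (start D12504) (orK (nat_lit 187) D14376)))
noncomputable def D14392 : OP := orK (nat_lit 106) (fin (add (start D14387) (orK (nat_lit 146) D14389)))
noncomputable def D11252 : OP := win (nat_lit 0) (nat_lit 4) (nat_lit 7) (nat_lit 0)
noncomputable def D13643 : OP := orK (nat_lit 145) (fin (add (start D13591) D12928))
noncomputable def D14543 : OP := orK (nat_lit 129) (fin (add (start D11393) D13643))
noncomputable def D13331 : OP := win (nat_lit 4) (nat_lit 3) (nat_lit 6) (nat_lit 0)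
noncomputable def D13094 : OP := win (nat_lit 4) (nat_lit 4) (nat_lit 6) (nat_lit 5)
noncomputable def D13335 : OP := orK (nat_lit 127) (fin (add (start D13094) (orK (nat_lit 126) (fin (add (start D12504) D13331)))))
noncomputable def D13050 : OP := win (nat_lit 2) (nat_lit 3) (nat_lit 6) (nat_lit 5)
noncomputable def D14561 : OP := orK (nat_lit 130) (fin (add (start D11723) (orK (nat_lit 150) (fin (add (start D11191) D8004)))))
noncomputable def D13049 : OP := win (nat_lit 2) (nat_lit 4) (nat_lit 6) (nat_lit 4)
noncomputable def D13108 : OP := orK (nat_lit 124) (fin (add (start D13050) D13049))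
noncomputable def D14549 : OP := orK (nat_lit 168) (fin (add (start D14544) (orK (nat_lit 144) (fin (add (start D14545) D13108)))))
noncomputable def D14419 : OP := orK (nat_lit 168) D11197
noncomputable def D12528 : OP := win (nat_lit 4) (nat_lit 4) (nat_lit 7) (nat_lit 0)
noncomputable def D14665 : AP := fin (add (add (add (add (add (add (add (add (add (start (orK (nat_lit 146) (fin (add (add (start D14480) D14470) D14481)))) (orK (nat_lit 167) (fin (add (add (add (start (orK (nat_lit 166) (fin (add (start D12527) (orK (nat_lit 165) (fin (add (start D12528) (win (nat_lit 4) (nat_lit 5) (nat_lit 7) (nat_lit 3))))))))) (orK (nat_lit 187) (fin (add (add (add (start (orK (nat_lit 128) (fin (add (start D11871) (orK (nat_lit 108) (fin (add (start D12507) D14484))))))) (orK (nat_lit 207) (fin (add (add (start (orK (nat_lit 127) D14489)) (orK (nat_lit 227) (fin (add (start D4293) D4291)))) (orK (nat_lit 227) (fin (add (start D4293) D8474))))))) D14381) (orK (nat_lit 127) (fin (add (start (orK (nat_lit 107) (fin (add (start D13978) D14419)))) D14504))))))) (orK (nat_lit 127) (fin (add (add (start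 D14509) (orK (nat_lit 187) (fin (add (add (start D14375) D14514) (orK (nat_lit 107) (fin (add (start D12905) D14419))))))) D14526)))) (orK (nat_lit 127) (fin (add (add (start D14531) (orK (nat_lit 187) (fin (add (start D14375) (orK (nat_lit 107) (fin (add (start D13978) D12894))))))) D14509))))))) (orK (nat_lit 146) (fin (add (add (add (start D14543) (orK (nat_lit 165) (fin (add (start D12926) (orK (nat_lit 145) (fin (add (start D12925) D14549))))))) (orK (nat_lit 129) (fin (add (start D11393) (orK (nat_lit 145) (fin (add (start D13591) D14549))))))) D14561)))) (orK (nat_lit 146) (fin (add (add (start D14470) D13641) D14567)))) (orK (nat_lit 146) (fin (add (add (add (start D14543) D14561) (orK (nat_lit 165) (fin (add (start D12926) (orK (nat_lit 145) (fin (add (start D12925) (orK (nat_lit 168) (fin (add (start D14544) (orK (nat_lit 144) (fin (add (start D14545) (orK (nat_lit 124) (fin (add (start D13050) D13335)))))))))))))))) (orK (nat_lit 129) (fin (add (start D11393) (orK (nat_lit 145) (fin (add (start D13591) (orK (nat_lit 168) (fin (add (start D14544) (orK (nat_lit 144) (fin (add (start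 D14545) (orK (nat_lit 123) (fin (add (start D13091) (orK (nat_lit 143) (fin (add (start D13092) (orK (nat_lit 208) (fin (add (start D12649) D13119))))))))))))))))))))))))) (orK (nat_lit 146) (fin (add (add (start (orK (nat_lit 125) (fin (add (start D12478) (orK (nat_lit 145) (fin (add (start D12479) D14565))))))) D14603) D14543)))) (orK (nat_lit 146) (fin (add (add (start (orK (nat_lit 145) (fin (add (start D13328) D14565)))) D14481) D13641)))) (orK (nat_lit 126) (fin (add (add (add (start (orK (nat_lit 167) (fin (add (add (add (start (orK (nat_lit 150) (fin (add (start D7960) D7959)))) (orK (nat_lit 146) (fin (add (start (orK (nat_lit 145) (fin (add (start (orK (nat_lit 168) (fin (add (start D11252) D14544)))) D14565)))) (orK (nat_lit 106) (fin (add (start D11849) (orK (nat_lit 166) (fin (add (start D12527) D11850)))))))))) (orK (nat_lit 187) (fin (add (add (start (orK (nat_lit 207) (fin (add (start D4292) D5960)))) (orK (nat_lit 127) D14376)) D14392)))) D14397)))) (orK (nat_lit 146) (fin (add (start D7961) (orK (nat_lit 129) (fin (add (start D11393) (orK (nat_lit 145) (fin (add (start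 D13591) (orK (nat_lit 168) (fin (add (start D14544) (orK (nat_lit 144) (fin (add (start D14545) (orK (nat_lit 123) (fin (add (start D13091) (orK (nat_lit 143) (fin (add (start D13092) D13119)))))))))))))))))))))) D14326) D14402)))) (orK (nat_lit 146) (fin (add (add (start (orK (nat_lit 126) (fin (add (start D7961) (orK (nat_lit 150) (fin (add (start D7960) D11725))))))) (orK (nat_lit 129) (fin (add (start D11393) (orK (nat_lit 145) (fin (add (start D13591) D14652))))))) (orK (nat_lit 125) (fin (add (start D12478) (orK (nat_lit 145) (fin (add (start D12479) D14652)))))))))) D14664)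
noncomputable def D15471 : AP := fin (add (add (add (add (add (add (add (add (add (start (orK (nat_lit 147) (fin (add (add (start (orK (nat_lit 150) (fin (add (add (add (start D13601) D12499) D12920) (orK (nat_lit 170) (fin (add (start D9036) D14465))))))) (orK (nat_lit 146) (fin (add (add (start D13330) D14470) (orK (nat_lit 129) (fin (add (start D11393) (orK (nat_lit 145) (fin (add (start D12243) D13591)))))))))) D14449)))) (orK (nat_lit 147) D14665)) (orK (nat_lit 147) (fin (add (add (add (start (orK (nat_lit 146) (fin (add (add (start (orK (nat_lit 145) (fin (add (start D12243) D14565)))) D14481) D14670)))) (orK (nat_lit 150) (fin (add (add (add (start D12499) D14676) D14444) (orK (nat_lit 167) (fin (add (start D7959) (orK (nat_lit 170) (fin (add (start D9036) (orK (nat_lit 128) (fin (add (add (start (orK (nat_lit 108) (fin (add (start D12507) (orK (nat_lit 187) (fin (add (start D14484) D11871))))))) (orK (nat_lit 108) (fin (add (start D12507) (orK (nat_lit 130) (fin (add (start D11191) (orK (nat_lit 110) (fin (add (start D10686) (orK (nat_lit 109) (fin (add (start D8555) (orK (nat_lit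 111) (fin (add (start D8554) (orK (nat_lit 112) (fin (add (start (win (nat_lit 5) (nat_lit 8) (nat_lit 5) (nat_lit 4))) (orK (nat_lit 133) (fin (add (start D14682) (orK (nat_lit 113) (fin (add (start D14683) D14686))))))))))))))))))))))))) (orK (nat_lit 187) (fin (add (start D11871) (orK (nat_lit 130) (fin (add (start D11191) (orK (nat_lit 110) (fin (add (start D10686) (orK (nat_lit 109) (fin (add (start D8555) (orK (nat_lit 111) (fin (add (start D8554) (orK (nat_lit 168) (fin (add (start D7659) (orK (nat_lit 129) (fin (add (start D10760) D13762)))))))))))))))))))))))))))))))))) D14449) D12477)))) (orK (nat_lit 147) (fin (add (add (add (start D14728) (orK (nat_lit 150) (fin (add (add (start D13601) D14440) D14676)))) D14449) D12477)))) (orK (nat_lit 147) (fin (add (add (add (start D14728) (orK (nat_lit 150) (fin (add (add (add (start D13601) D12499) D12920) (orK (nat_lit 167) (fin (add (start D7959) (orK (nat_lit 127) (fin (add (start D7984) (orK (nat_lit 170) (fin (add (start D9036) (orK (nat_lit 130) (fin (add (start D11191) (orK (nat_lit 110) (fin (add (start D10686) (orK (nat_lit 111)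 (fin (add (start D8554) (orK (nat_lit 128) (fin (add (start D14452) D12179))))))))))))))))))))))))) D14449) D12477)))) (orK (nat_lit 147) (fin (add (add (add (start D14728) (orK (nat_lit 150) (fin (add (add (add (start D12499) D14676) D14444) (orK (nat_lit 167) (fin (add (start D7959) (orK (nat_lit 127) (fin (add (start D7984) (orK (nat_lit 168) (fin (add (add (start D11198) (orK (nat_lit 170) (fin (add (start D9036) (orK (nat_lit 187) (fin (add (start D7659) (orK (nat_lit 207) (fin (add (start D6003) D14211)))))))))) (orK (nat_lit 107) (fin (add (start D8696) (orK (nat_lit 170) (fin (add (start D9036) (orK (nat_lit 130) (fin (add (start D11191) (orK (nat_lit 110) (fin (add (start D10686) (orK (nat_lit 187) (fin (add (start D7659) (orK (nat_lit 207) (fin (add (start D6003) (orK (nat_lit 109) (fin (add (start D8555) (orK (nat_lit 108) (fin (add (start D11627) (orK (nat_lit 106) (fin (add (start (win (nat_lit 0) (nat_lit 6) (nat_lit 5) (nat_lit 4))) D12891)))))))))))))))))))))))))))))))))))))))) D14449) D12477)))) (orK (nat_lit 150) (fin (add (add (add (add (start (orK (nat_lit 151) (fin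 (add (add (start (orK (nat_lit 152) (fin (add (start D12076) D10151)))) (orK (nat_lit 147) (fin (add (start D12108) D7987)))) (orK (nat_lit 152) (fin (add (start D12076) D10154))))))) (orK (nat_lit 151) (fin (add (add (start D12080) D10206) (orK (nat_lit 128) (fin (add (start D7951) (orK (nat_lit 168) (fin (add (start D7952) (orK (nat_lit 108) (fin (add (start D11930) (orK (nat_lit 109) (fin (add (start D8672) (orK (nat_lit 129) (fin (add (start D10760) (orK (nat_lit 110) (fin (add (start D10600) (orK (nat_lit 131) (fin (add (start D10190) (orK (nat_lit 107) (fin (add (start D10801) D8673)))))))))))))))))))))))))))) (orK (nat_lit 171) (fin (add (add (start (orK (nat_lit 170) D14812)) (orK (nat_lit 151) (fin (add (start D10189) D12080)))) (orK (nat_lit 147) (fin (add (start D11085) D14444))))))) (orK (nat_lit 130) (fin (add (add (add (start D14825) (orK (nat_lit 147) (fin (add (start D11191) D14440)))) (orK (nat_lit 170) (fin (add (add (start (orK (nat_lit 171) D14812)) D14858) (orK (nat_lit 110) (fin (add (start D10686) D14860))))))) (orK (nat_lit 131) (fin (add (add (start D14823) (orK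 (nat_lit 110) (fin (add (start D10686) (orK (nat_lit 109) (fin (add (start D14871) (orK (nat_lit 108) (fin (add (start D14872) D14848)))))))))) (orK (nat_lit 110) (fin (add (start D10686) (orK (nat_lit 109) (fin (add (start D14871) (orK (nat_lit 108) D14883)))))))))))))) (orK (nat_lit 151) (fin (add (add (start (orK (nat_lit 147) D11732)) (orK (nat_lit 152) D10155)) (orK (nat_lit 152) (fin (add (start D10151) D10202)))))))))) (orK (nat_lit 168) D15228)) (orK (nat_lit 168) D15445)) (orK (nat_lit 147) (fin (add (add (add (start D12477) (orK (nat_lit 146) (fin (add (start D11888) (orK (nat_lit 125) (fin (add (start D12478) (orK (nat_lit 145) (fin (add (start D12479) (orK (nat_lit 128) (fin (add (start D12244) D12928))))))))))))) (orK (nat_lit 150) (fin (add (add (add (start D13601) D12499) D12920) (orK (nat_lit 127) (fin (add (start D7984) (orK (nat_lit 170) (fin (add (start D9036) (orK (nat_lit 130) (fin (add (start D11191) (orK (nat_lit 110) (fin (add (start D10686) (orK (nat_lit 111) (fin (add (start D8554) (orK (nat_lit 128) (fin (add (start D14452) D14342)))))))))))))))))))))) D14664))))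
noncomputable def D6014 : OP := win (nat_lit 6) (nat_lit 6) (nat_lit 5) (nat_lit 0)
noncomputable def D12529 : OP := win (nat_lit 5) (nat_lit 5) (nat_lit 7) (nat_lit 3)
noncomputable def D12533 : OP := orK (nat_lit 166) (fin (add (start D12527) (orK (nat_lit 165) (fin (add (start D12528) D12529)))))
noncomputable def D14317 : OP := orK (nat_lit 167) (fin (add (start D12527) D11852))
noncomputable def D13605 : OP := orK (nat_lit 132) (fin (add (start D10199) (orK (nat_lit 152) (fin (add (start D10200) D12152)))))
noncomputable def D12166 : OP := orK (nat_lit 172) (fin (add (start D10148) (orK (nat_lit 152) (fin (add (start D10149) D10202)))))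
noncomputable def D13614 : OP := orK (nat_lit 151) (fin (add (add (add (start D12108) D12166) D13605) (orK (nat_lit 170) (fin (add (start D9036) (orK (nat_lit 132) (fin (add (start D10199) (orK (nat_lit 152) (fin (add (start D10200) D13606)))))))))))
noncomputable def D13597 : OP := orK (nat_lit 146) (fin (add (start D11888) (orK (nat_lit 125) (fin (add (start D12478) (orK (nat_lit 145) (fin (add (start D12479) D13591))))))))
noncomputable def D14287 : AP := fin (add (start D7961) D14286)
noncomputable def D11064 : OP := win (nat_lit 6) (nat_lit 9) (nat_lit 7) (nat_lit 2)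
noncomputable def D12664 : OP := win (nat_lit 1) (nat_lit 8) (nat_lit 6) (nat_lit 3)
noncomputable def D11560 : AP := fin (add (start D1955) (orK (nat_lit 187) (fin (add (start D2660) D4769))))
noncomputable def D14230 : OP := orK (nat_lit 209) (fin (add (start D11064) (orK (nat_lit 207) D11560)))
noncomputable def D12596 : OP := win (nat_lit 1) (nat_lit 8) (nat_lit 6) (nat_lit 4)
noncomputable def D12598 : OP := orK (nat_lit 189) (fin (add (start D12596) D42))
noncomputable def D12932 : OP := orK (nat_lit 125) (fin (add (start D12478) (orK (nat_lit 145) (fin (add (start D12479) D12928)))))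
noncomputable def D12933 : AP := fin (add (start D11888) D12932)
noncomputable def D12934 : OP := orK (nat_lit 146) D12933
noncomputable def D10951 : OP := win (nat_lit 1) (nat_lit 8) (nat_lit 3) (nat_lit 4)
noncomputable def D11743 : OP := orK (nat_lit 69) (fin (add (start D10951) D10899))
noncomputable def D13782 : OP := orK (nat_lit 90) (fin (add (start D10764) (orK (nat_lit 89) (fin (add (start D10763) D11743)))))
noncomputable def D10673 : OP := win (nat_lit 7) (nat_lit 8) (nat_lit 5) (nat_lit 5)
noncomputable def D10939 : OP := win (nat_lit 1) (nat_lit 8) (nat_lit 3) (nat_lit 0)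
noncomputable def D11763 : OP := orK (nat_lit 128) (fin (add (start D10939) D10673))
noncomputable def D10744 : OP := win (nat_lit 7) (nat_lit 8) (nat_lit 5) (nat_lit 4)
noncomputable def D10746 : OP := orK (nat_lit 108) (fin (add (start D10743) D10744))
noncomputable def D10921 : OP := orK (nat_lit 70) (fin (add (start D10914) (orK (nat_lit 69) (fin (add (start D10915) (orK (nat_lit 150) (fin (add (start D10829) D10827))))))))
noncomputable def D10929 : OP := orK (nat_lit 88) (fin (add (start D10770) (orK (nat_lit 89) (fin (add (start D10769) D10921)))))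
noncomputable def D11711 : AP := fin (add (start (win (nat_lit 6) (nat_lit 9) (nat_lit 3) (nat_lit 0))) D10827)
noncomputable def D11712 : OP := orK (nat_lit 150) D11711
noncomputable def D10672 : OP := win (nat_lit 3) (nat_lit 9) (nat_lit 5) (nat_lit 5)
noncomputable def D11759 : OP := orK (nat_lit 88) (fin (add (start D10770) (orK (nat_lit 89) (fin (add (start D10769) (orK (nat_lit 130) (fin (add (start D10672) D11712))))))))
noncomputable def D10601 : OP := win (nat_lit 3) (nat_lit 9) (nat_lit 5) (nat_lit 4)
noncomputable def D10603 : OP := orK (nat_lit 110) (fin (add (start D10600) D10601))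
noncomputable def D11761 : OP := orK (nat_lit 109) (fin (add (add (add (start D10603) D11759) D10929) D10935))
noncomputable def D12671 : OP := orK (nat_lit 189) (fin (add (start D42) D11761))
noncomputable def D12219 : OP := orK (nat_lit 146) (fin (add (start D12193) (orK (nat_lit 145) (fin (add (start D12214) (win (nat_lit 4) (nat_lit 5) (nat_lit 6) (nat_lit 3)))))))
noncomputable def D13878 : OP := win (nat_lit 2) (nat_lit 6) (nat_lit 5) (nat_lit 0)
noncomputable def D12341 : OP := win (nat_lit 4) (nat_lit 6) (nat_lit 8) (nat_lit 5)
noncomputable def D3070 : OP := win (nat_lit 2) (nat_lit 5) (nat_lit 8) (nat_lit 5)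
noncomputable def D12390 : OP := orK (nat_lit 187) (fin (add (start D3070) D12341))
noncomputable def D10598 : OP := win (nat_lit 1) (nat_lit 8) (nat_lit 6) (nat_lit 5)
noncomputable def D10691 : OP := win (nat_lit 2) (nat_lit 6) (nat_lit 5) (nat_lit 5)
noncomputable def D12194 : OP := win (nat_lit 4) (nat_lit 5) (nat_lit 6) (nat_lit 0)
noncomputable def D13906 : OP := orK (nat_lit 146) (fin (add (start D12194) D8004))
noncomputable def D13863 : AP := fin (add (start D11871) D7959)
noncomputable def D7805 : OP := win (nat_lit 4) (nat_lit 6) (nat_lit 8) (nat_lit 0)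
noncomputable def D13051 : OP := win (nat_lit 3) (nat_lit 7) (nat_lit 6) (nat_lit 1)
noncomputable def D13880 : OP := orK (nat_lit 106) (fin (add (start D13878) D12891))
noncomputable def D11287 : AP := fin (add (start D1955) D4769)
noncomputable def D13620 : OP := orK (nat_lit 208) (fin (add (start D12596) D4769))
noncomputable def D12342 : AP := fin (add (start D11372) D12341)
noncomputable def D13884 : OP := orK (nat_lit 166) (fin (add (start D12267) (orK (nat_lit 107) (fin (add (start D13068) D13880)))))
noncomputable def D10736 : OP := orK (nat_lit 151) (fin (add (start D10316) D10178))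
noncomputable def D10737 : AP := fin (add (start D10179) D10736)
noncomputable def D11037 : OP := orK (nat_lit 70) (fin (add (start (win (nat_lit 7) (nat_lit 10) (nat_lit 2) (nat_lit 5))) (win (nat_lit 7) (nat_lit 10) (nat_lit 3) (nat_lit 4))))
noncomputable def D11033 : OP := win (nat_lit 3) (nat_lit 11) (nat_lit 2) (nat_lit 5)
noncomputable def D11032 : OP := win (nat_lit 3) (nat_lit 11) (nat_lit 3) (nat_lit 4)
noncomputable def D11107 : OP := win (nat_lit 1) (nat_lit 10) (nat_lit 4) (nat_lit 5)
noncomputable def D12766 : OP := win (nat_lit 3) (nat_lit 11) (nat_lit 4) (nat_lit 0)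
noncomputable def D12116 : OP := win (nat_lit 4) (nat_lit 8) (nat_lit 5) (nat_lit 2)
noncomputable def D10696 : OP := win (nat_lit 4) (nat_lit 8) (nat_lit 5) (nat_lit 5)
noncomputable def D11115 : OP := win (nat_lit 1) (nat_lit 10) (nat_lit 3) (nat_lit 0)
noncomputable def D13916 : OP := orK (nat_lit 91) (fin (add (start D11107) (orK (nat_lit 130) (fin (add (start D11115) D10696)))))
noncomputable def D10139 : OP := win (nat_lit 0) (nat_lit 8) (nat_lit 7) (nat_lit 0)
noncomputable def D13918 : OP := orK (nat_lit 172) (fin (add (start D10139) D8373))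
noncomputable def D10244 : OP := win (nat_lit 1) (nat_lit 10) (nat_lit 3) (nat_lit 4)
noncomputable def D10237 : OP := win (nat_lit 5) (nat_lit 10) (nat_lit 6) (nat_lit 0)
noncomputable def D10230 : OP := win (nat_lit 5) (nat_lit 9) (nat_lit 6) (nat_lit 3)
noncomputable def D10262 : OP := orK (nat_lit 133) (fin (add (start D10230) D10237))
noncomputable def D11084 : OP := orK (nat_lit 132) (fin (add (start D10228) D10262))
noncomputable def D14058 : AP := fin (add (add (add (start (orK (nat_lit 151) (fin (add (start D10178) (orK (nat_lit 131) (fin (add (add (add (start D11084) (orK (nat_lit 148) (fin (add (start D10190) (orK (nat_lit 171) (fin (add (start D10189) (orK (nat_lit 147) (fin (add (start D11085) D13906)))))))))) (orK (nat_lit 111) (fin (add (add (add (start D13916) (orK (nat_lit 112) (fin (add (start D12116) (orK (nat_lit 171) (fin (add (start D8392) D13918))))))) (orK (nat_lit 91) (fin (add (start D11107) (orK (nat_lit 71) (fin (add (start D10244) (orK (nat_lit 72) (fin (add (start D11033) D11032)))))))))) (orK (nat_lit 91) (fin (add (start D11107) (orK (nat_lit 92) (fin (add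 (start D8371) (orK (nat_lit 171) (fin (add (start D8370) D13918))))))))))))) (orK (nat_lit 111) (fin (add (add (start D13916) (orK (nat_lit 112) (fin (add (start D12116) (orK (nat_lit 92) (fin (add (start D12766) (orK (nat_lit 72) (fin (add (start (win (nat_lit 1) (nat_lit 11) (nat_lit 2) (nat_lit 0))) (win (nat_lit 1) (nat_lit 11) (nat_lit 3) (nat_lit 3)))))))))))) (orK (nat_lit 91) (fin (add (start D11107) (orK (nat_lit 72) (fin (add (start D11032) (orK (nat_lit 71) (fin (add (start D11033) (orK (nat_lit 189) (fin (add (start D42) D11037)))))))))))))))))))))) (orK (nat_lit 127) D10737)) (orK (nat_lit 127) D13900)) (orK (nat_lit 127) (fin (add (start D10179) (orK (nat_lit 147) (fin (add (add (add (start (orK (nat_lit 167) (fin (add (add (add (start D13884) (orK (nat_lit 189) (fin (add (start D42) (orK (nat_lit 187) (fin (add (add (start (orK (nat_lit 188) (fin (add (start D10598) (orK (nat_lit 186) D12342))))) (orK (nat_lit 207) (fin (add (start D5957) D6049)))) (orK (nat_lit 207) (fin (add (start D5957) D13620)))))))))) (orK (nat_lit 209) (fin (add (start D11064) (orK (nat_lit 187) (fin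 (add (start (orK (nat_lit 208) (fin (add (start D12635) (orK (nat_lit 207) D11287))))) (orK (nat_lit 107) (fin (add (start D13978) D13880)))))))))) (orK (nat_lit 148) (fin (add (start D7959) (orK (nat_lit 208) (fin (add (add (start (orK (nat_lit 130) (fin (add (start D11191) (orK (nat_lit 189) (fin (add (start D12596) (win (nat_lit 3) (nat_lit 9) (nat_lit 6) (nat_lit 0))))))))) (orK (nat_lit 209) (fin (add (start D11064) (orK (nat_lit 207) (fin (add (start D1955) D13051))))))) (orK (nat_lit 130) (fin (add (start D11191) (orK (nat_lit 187) (fin (add (start D11871) D12635)))))))))))))))) (orK (nat_lit 148) (fin (add (add (start (orK (nat_lit 146) (fin (add (start D11888) D12194)))) (orK (nat_lit 189) (fin (add (start D42) (orK (nat_lit 170) (fin (add (start D9036) (orK (nat_lit 188) (fin (add (start D10598) (orK (nat_lit 187) (fin (add (start D7805) (orK (nat_lit 167) D13863)))))))))))))) D13906)))) (orK (nat_lit 107) (fin (add (add (start (orK (nat_lit 130) (fin (add (start D10691) D10646)))) (orK (nat_lit 166) (fin (add (add (start (orK (nat_lit 146) D14020)) (orK (nat_lit 186) (fin (add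 (start D12374) (orK (nat_lit 189) (fin (add (start D42) (orK (nat_lit 188) (fin (add (start D10598) D12390)))))))))) (orK (nat_lit 87) (fin (add (start D14028) (orK (nat_lit 68) (fin (add (start D12283) (orK (nat_lit 67) (fin (add (start D12284) (orK (nat_lit 189) (fin (add (start D42) D14032)))))))))))))))) (orK (nat_lit 106) (fin (add (start D13878) (orK (nat_lit 86) (fin (add (start D14043) (orK (nat_lit 66) (fin (add (start D14044) (win (nat_lit 7) (nat_lit 6) (nat_lit 3) (nat_lit 3))))))))))))))) D12219)))))))
noncomputable def D10738 : OP := orK (nat_lit 150) D10737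
noncomputable def D13867 : OP := win (nat_lit 1) (nat_lit 7) (nat_lit 3) (nat_lit 0)
noncomputable def D13872 : OP := orK (nat_lit 108) (fin (add (start D12508) (orK (nat_lit 88) (fin (add (start D13867) (win (nat_lit 3) (nat_lit 7) (nat_lit 4) (nat_lit 3)))))))
noncomputable def D13866 : OP := orK (nat_lit 187) (fin (add (start D5958) (orK (nat_lit 148) D13863)))
noncomputable def D12358 : AP := fin (add (start D12270) (orK (nat_lit 206) (fin (add (start (win (nat_lit 3) (nat_lit 6) (nat_lit 6) (nat_lit 3))) D12272))))
noncomputable def D10730 : OP := orK (nat_lit 146) (fin (add (start D10727) (win (nat_lit 5) (nat_lit 6) (nat_lit 6) (nat_lit 4))))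
noncomputable def D10724 : OP := win (nat_lit 2) (nat_lit 6) (nat_lit 5) (nat_lit 4)
noncomputable def D10726 : OP := orK (nat_lit 106) (fin (add (start D10723) D10724))
noncomputable def D10731 : AP := fin (add (start D10726) D10730)
noncomputable def D13531 : OP := win (nat_lit 0) (nat_lit 5) (nat_lit 6) (nat_lit 4)
noncomputable def D13537 : OP := orK (nat_lit 125) (fin (add (start D13531) (orK (nat_lit 145) (fin (add (start (win (nat_lit 5) (nat_lit 4) (nat_lit 6) (nat_lit 5))) (win (nat_lit 5) (nat_lit 5) (nat_lit 6) (nat_lit 4)))))))
noncomputable def D10945 : OP := win (nat_lit 4) (nat_lit 6) (nat_lit 6) (nat_lit 0)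
noncomputable def D11718 : OP := orK (nat_lit 147) (fin (add (start D10945) (orK (nat_lit 131) (fin (add (start (win (nat_lit 5) (nat_lit 7) (nat_lit 6) (nat_lit 3))) D10630)))))
noncomputable def D13656 : OP := win (nat_lit 2) (nat_lit 9) (nat_lit 6) (nat_lit 0)
noncomputable def D10946 : OP := win (nat_lit 4) (nat_lit 7) (nat_lit 6) (nat_lit 3)
noncomputable def D13671 : OP := orK (nat_lit 128) (fin (add (start D7951) D10178))
noncomputable def D13649 : OP := orK (nat_lit 89) (fin (add (start D10827) D11743))
noncomputable def D13713 : OP := orK (nat_lit 134) (fin (add (start (win (nat_lit 4) (nat_lit 10) (nat_lit 6) (nat_lit 4))) (win (nat_lit 4) (nat_lit 11) (nat_lit 6) (nat_lit 5))))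
noncomputable def D13709 : OP := win (nat_lit 2) (nat_lit 10) (nat_lit 6) (nat_lit 4)
noncomputable def D10168 : OP := win (nat_lit 4) (nat_lit 10) (nat_lit 6) (nat_lit 5)
noncomputable def D10167 : OP := win (nat_lit 4) (nat_lit 9) (nat_lit 6) (nat_lit 4)
noncomputable def D13289 : OP := orK (nat_lit 133) (fin (add (start D10167) (orK (nat_lit 153) (fin (add (start D10168) D12148)))))
noncomputable def D9857 : OP := win (nat_lit 0) (nat_lit 11) (nat_lit 7) (nat_lit 5)
noncomputable def D13708 : OP := win (nat_lit 0) (nat_lit 10) (nat_lit 7) (nat_lit 4)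
noncomputable def D11123 : OP := orK (nat_lit 91) (fin (add (start D11107) D11121))
noncomputable def D12118 : OP := orK (nat_lit 112) (fin (add (start D8392) D12116))
noncomputable def D11162 : OP := orK (nat_lit 91) (fin (add (start D11107) (orK (nat_lit 71) (fin (add (start D10244) D11037)))))
noncomputable def D13801 : AP := fin (add (add (add (add (add (start (orK (nat_lit 110) (fin (add (start D10601) (orK (nat_lit 109) (fin (add (start D10600) D13649))))))) (orK (nat_lit 130) (fin (add (start D10672) (orK (nat_lit 131) (fin (add (start D10630) (orK (nat_lit 151) (fin (add (start (orK (nat_lit 152) (fin (add (start D13656) D10151)))) (orK (nat_lit 111) (fin (add (start (orK (nat_lit 128) (fin (add (start (win (nat_lit 0) (nat_lit 7) (nat_lit 6) (nat_lit 0))) D10696)))) (orK (nat_lit 91) (fin (add (start D11115) D11107)))))))))))))))) (orK (nat_lit 151) (fin (add (add (start D13671) (orK (nat_lit 172) (fin (add (start D10148) (orK (nat_lit 152) (fin (add (start D10149) D13673))))))) (orK (nat_lit 131) (fin (add (start D10190) (orK (nat_lit 111) (fin (add (add (start (orK (nat_lit 171)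 (fin (add (start D10189) D11123)))) D11162) (orK (nat_lit 171) (fin (add (start D10189) (orK (nat_lit 128) (fin (add (start D7951) D12118)))))))))))))))) (orK (nat_lit 151) (fin (add (add (add (add (start D12166) (orK (nat_lit 171) (fin (add (start D10189) (orK (nat_lit 131) (fin (add (start D10190) (orK (nat_lit 111) (fin (add (add (start D11123) (orK (nat_lit 110) (fin (add (start D8393) (orK (nat_lit 130) (fin (add (start D11112) (orK (nat_lit 112) (fin (add (start D8392) (orK (nat_lit 113) (fin (add (start (win (nat_lit 5) (nat_lit 9) (nat_lit 5) (nat_lit 5))) (win (nat_lit 5) (nat_lit 10) (nat_lit 5) (nat_lit 0))))))))))))))) (orK (nat_lit 91) (fin (add (start D11107) D8383))))))))))))) (orK (nat_lit 152) (fin (add (add (add (start D10202) D13289) (orK (nat_lit 153) (fin (add (start D12148) (orK (nat_lit 174) (fin (add (start D13708) (orK (nat_lit 154) (fin (add (start D9857) (orK (nat_lit 130) (fin (add (start D13709) D13713))))))))))))) (orK (nat_lit 153) (fin (add (start D12148) (orK (nat_lit 174) (fin (add (start D13708) (orK (nat_lit 154) (fin (add (start D9857) (orK (nat_lit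 131) (fin (add (start (win (nat_lit 2) (nat_lit 10) (nat_lit 6) (nat_lit 5))) D10190)))))))))))))))) (orK (nat_lit 172) (fin (add (start D10148) (orK (nat_lit 152) (fin (add (start D10149) D13289))))))) (orK (nat_lit 172) (fin (add (start D10148) (orK (nat_lit 152) (fin (add (start D10149) (orK (nat_lit 153) (fin (add (start D12148) (orK (nat_lit 130) (fin (add (start (win (nat_lit 2) (nat_lit 9) (nat_lit 6) (nat_lit 5))) (orK (nat_lit 154) (fin (add (start D13709) (orK (nat_lit 175) (fin (add (start (win (nat_lit 0) (nat_lit 11) (nat_lit 7) (nat_lit 4))) (orK (nat_lit 155) (fin (add (start D13739) D13713))))))))))))))))))))))))) (orK (nat_lit 188) (fin (add (start D10598) (orK (nat_lit 109) (fin (add (add (add (start (orK (nat_lit 90) (fin (add (start D10764) (orK (nat_lit 89) (fin (add (start D10763) D10827))))))) D13649) (orK (nat_lit 151) (fin (add (add (start D13671) D12166) (orK (nat_lit 131) (fin (add (start D10190) (orK (nat_lit 111) (fin (add (add (start (orK (nat_lit 90) (fin (add (start D10764) (orK (nat_lit 91) (fin (add (start D11107) D8380))))))) (orK (nat_lit 110) (fin (add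 (start D10600) (orK (nat_lit 128) (fin (add (start D7951) D13762))))))) (orK (nat_lit 92) (fin (add (start (orK (nat_lit 171) (fin (add (start D10189) D8370)))) (orK (nat_lit 91) (fin (add (start D11107) D8371)))))))))))))))) D13782))))))) (orK (nat_lit 110) (fin (add (start D10601) (orK (nat_lit 90) (fin (add (start (win (nat_lit 3) (nat_lit 9) (nat_lit 4) (nat_lit 3))) (orK (nat_lit 151) (fin (add (start D13671) (orK (nat_lit 131) (fin (add (start D10190) (orK (nat_lit 171) (fin (add (start D10189) D13790))))))))))))))))
noncomputable def D12232 : OP := win (nat_lit 4) (nat_lit 6) (nat_lit 8) (nat_lit 2)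
noncomputable def D12303 : OP := orK (nat_lit 186) (fin (add (start D11372) D12232))
noncomputable def D8412 : OP := win (nat_lit 4) (nat_lit 9) (nat_lit 5) (nat_lit 5)
noncomputable def D10652 : OP := win (nat_lit 4) (nat_lit 8) (nat_lit 5) (nat_lit 4)
noncomputable def D10654 : OP := orK (nat_lit 112) (fin (add (start D10652) D8412))
noncomputable def D10635 : OP := win (nat_lit 5) (nat_lit 8) (nat_lit 6) (nat_lit 5)
noncomputable def D10637 : OP := win (nat_lit 0) (nat_lit 9) (nat_lit 6) (nat_lit 5)
noncomputable def D10636 : OP := win (nat_lit 0) (nat_lit 8) (nat_lit 6) (nat_lit 4)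
noncomputable def D10647 : OP := win (nat_lit 5) (nat_lit 7) (nat_lit 6) (nat_lit 4)
noncomputable def D10649 : OP := orK (nat_lit 147) (fin (add (start D10646) D10647))
noncomputable def D10622 : OP := win (nat_lit 0) (nat_lit 7) (nat_lit 6) (nat_lit 5)
noncomputable def D10642 : OP := orK (nat_lit 150) (fin (add (start D10179) D10622))
noncomputable def D10660 : OP := orK (nat_lit 131) (fin (add (add (start (orK (nat_lit 127) (fin (add (start D10642) D10649)))) (orK (nat_lit 132) (fin (add (start (orK (nat_lit 152) (fin (add (start D10636) D10637)))) D10654)))) (orK (nat_lit 132) (fin (add (start D10635) D10654)))))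
noncomputable def D11777 : OP := orK (nat_lit 128) (fin (add (start D10673) D10660))
noncomputable def D10994 : OP := orK (nat_lit 110) (fin (add (start D10601) (orK (nat_lit 109) (fin (add (start D10600) D10746)))))
noncomputable def D14409 : AP := fin (add (add (add (add (add (add (start (orK (nat_lit 189) (fin (add (start D42) D10994)))) (orK (nat_lit 189) (fin (add (start D42) (orK (nat_lit 130) (fin (add (start D10672) (orK (nat_lit 188) (fin (add (start D10598) D11777)))))))))) (orK (nat_lit 109) D13587)) (orK (nat_lit 189) (fin (add (start D42) (orK (nat_lit 148) (fin (add (add (add (add (start (orK (nat_lit 147) (fin (add (add (add (start D12477) D13597) (orK (nat_lit 150) (fin (add (add (add (start D13614) (orK (nat_lit 127) (fin (add (start D7984) (orK (nat_lit 167) (fin (add (start D7959) (orK (nat_lit 187) (fin (add (add (start (orK (nat_lit 170) (fin (add (start D9036) D12303)))) (orK (nat_lit 207) (fin (add (start D4292) D6049)))) (orK (nat_lit 207) (fin (add (start D4292) D13620))))))))))))) (orK (nat_lit 127) (fin (add (start D7984) (orK (nat_lit 151) (fin (add (start D7985)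 D12166))))))) (orK (nat_lit 127) (fin (add (start D7984) (orK (nat_lit 151) (fin (add (start D7985) D13605)))))))))) (orK (nat_lit 146) (fin (add (add (start (orK (nat_lit 145) (fin (add (start D13591) D13328)))) D13641) D13643))))))) (orK (nat_lit 150) D13801)) (orK (nat_lit 130) (fin (add (start D10672) (orK (nat_lit 147) (fin (add (start D10945) (orK (nat_lit 131) (fin (add (start D10946) D10630)))))))))) (orK (nat_lit 147) (fin (add (add (start D12477) (orK (nat_lit 150) (fin (add (add (add (start (orK (nat_lit 170) (fin (add (start D9036) (orK (nat_lit 110) (fin (add (start (win (nat_lit 1) (nat_lit 9) (nat_lit 5) (nat_lit 1))) (orK (nat_lit 109) (fin (add (start D10600) D11642)))))))))) D13601) (orK (nat_lit 127) (fin (add (start D7984) (orK (nat_lit 151) (fin (add (start D7985) (orK (nat_lit 172) (fin (add (start D10148) (orK (nat_lit 152) (fin (add (start D10149) (orK (nat_lit 130) (fin (add (start D13656) D10672)))))))))))))))) (orK (nat_lit 127) (fin (add (start D7984) (orK (nat_lit 128) (fin (add (start D11792) (orK (nat_lit 110) (fin (add (start D10601) (orK (nat_lit 109) (fin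 (add (start D10600) (orK (nat_lit 89) (fin (add (start D10939) D10827))))))))))))))))))) (orK (nat_lit 130) (fin (add (start D10672) D10945))))))) (orK (nat_lit 130) (fin (add (start D10672) D11718)))))))))) (orK (nat_lit 128) (fin (add (add (start (orK (nat_lit 189) (fin (add (start D42) D10673)))) (orK (nat_lit 127) (fin (add (add (add (start (orK (nat_lit 126) (fin (add (add (start (orK (nat_lit 125) (fin (add (start D13531) (orK (nat_lit 105) (fin (add (start (win (nat_lit 2) (nat_lit 4) (nat_lit 5) (nat_lit 5))) (win (nat_lit 2) (nat_lit 5) (nat_lit 5) (nat_lit 4))))))))) D13537) (orK (nat_lit 130) D10731))))) (orK (nat_lit 150) (fin (add (add (start D10736) D13862) (orK (nat_lit 147) (fin (add (add (add (start D12219) (orK (nat_lit 167) (fin (add (add (start D13866) D13872) (orK (nat_lit 166) (fin (add (start D12267) (orK (nat_lit 186) D12358)))))))) (orK (nat_lit 167) (fin (add (add (start D13866) D13884) D13872)))) (orK (nat_lit 130) (fin (add (start D10646) (orK (nat_lit 107) (fin (add (start D10691) (orK (nat_lit 108) (fin (add (start D10676) (orK (nat_lit 88) (fin (add (start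 D13867) D13887))))))))))))))))))) D10738) (orK (nat_lit 150) D13900))))) (orK (nat_lit 150) D14058))))) D12671) (orK (nat_lit 148) (fin (add (add (start (orK (nat_lit 189) (fin (add (start D42) (orK (nat_lit 109) (fin (add (add (add (start D10746) (orK (nat_lit 90) (fin (add (start D10764) (orK (nat_lit 89) (fin (add (start D10763) D11763))))))) D13782) D10935))))))) (orK (nat_lit 147) (fin (add (add (add (start D12477) D12934) (orK (nat_lit 150) (fin (add (start D13614) (orK (nat_lit 167) (fin (add (start D7959) (orK (nat_lit 127) (fin (add (start D7984) (orK (nat_lit 208) (fin (add (add (add (start D12598) D14230) (orK (nat_lit 187) (fin (add (start D12635) (orK (nat_lit 186) (fin (add (start D11372) D14231))))))) (orK (nat_lit 188) (fin (add (start D12664) D11246)))))))))))))))) (orK (nat_lit 166) (fin (add (add (add (add (start (orK (nat_lit 165) (fin (add (start D12529) (orK (nat_lit 167) (fin (add (start D12528) D12527))))))) (orK (nat_lit 146) (fin (add (start D8001) (orK (nat_lit 126) D14287))))) (orK (nat_lit 167) (fin (add (start D12527) (orK (nat_lit 164) (fin (add (start (win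 (nat_lit 4) (nat_lit 4) (nat_lit 7) (nat_lit 1))) (orK (nat_lit 208) (fin (add (add (add (start D12598) D14230) (orK (nat_lit 187) (fin (add (add (start (orK (nat_lit 127) (fin (add (start D12635) (orK (nat_lit 186) (fin (add (start D12270) D11372))))))) D14298) D14302)))) (orK (nat_lit 188) (fin (add (start D12664) (orK (nat_lit 187) D14301)))))))))))))) (orK (nat_lit 209) (fin (add (start D11064) (orK (nat_lit 126) (fin (add (add (add (start (orK (nat_lit 150) (fin (add (start D7960) D8002)))) (orK (nat_lit 146) (fin (add (start D7961) D14317)))) (orK (nat_lit 146) D14287)) D14326))))))) (orK (nat_lit 146) (fin (add (start D8001) (orK (nat_lit 126) (fin (add (start D7961) (orK (nat_lit 127) (fin (add (start D12504) (orK (nat_lit 107) (fin (add (start D12373) (win (nat_lit 3) (nat_lit 6) (nat_lit 5) (nat_lit 0))))))))))))))))))))) (orK (nat_lit 147) (fin (add (add (add (start D12477) D13597) (orK (nat_lit 150) (fin (add (add (start D13614) D14346) (orK (nat_lit 170) (fin (add (start D9036) (orK (nat_lit 127) (fin (add (start D7984) (orK (nat_lit 109) (fin (add (start D11642) (orK (nat_lit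 108) (fin (add (start D10743) (orK (nat_lit 110) (fin (add (start D10600) (orK (nat_lit 167) (fin (add (start D7959) (orK (nat_lit 128) (fin (add (start D12508) (win (nat_lit 5) (nat_lit 7) (nat_lit 5) (nat_lit 0))))))))))))))))))))))))))) (orK (nat_lit 126) (fin (add (add (add (start (orK (nat_lit 125) (fin (add (start D14321) (orK (nat_lit 127) D14365))))) (orK (nat_lit 146) (fin (add (start D7961) (orK (nat_lit 166) (fin (add (start D8001) D14317))))))) (orK (nat_lit 167) (fin (add (add (start D12533) (orK (nat_lit 187) (fin (add (add (start D14381) (orK (nat_lit 146) (fin (add (start D14382) (orK (nat_lit 166) (fin (add (start D8001) D6014))))))) D14392)))) D14397)))) D14402))))))))))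
noncomputable def D10599 : OP := win (nat_lit 1) (nat_lit 8) (nat_lit 5) (nat_lit 4)
noncomputable def D10750 : OP := orK (nat_lit 188) (fin (add (start D10598) (orK (nat_lit 109) (fin (add (start D10599) D10746)))))
noncomputable def D10626 : OP := win (nat_lit 0) (nat_lit 8) (nat_lit 6) (nat_lit 5)
noncomputable def D10643 : OP := win (nat_lit 0) (nat_lit 7) (nat_lit 6) (nat_lit 4)
noncomputable def D10607 : OP := orK (nat_lit 188) (fin (add (start D10598) (orK (nat_lit 109) (fin (add (start D10599) D10603)))))
noncomputable def D10940 : OP := win (nat_lit 5) (nat_lit 7) (nat_lit 6) (nat_lit 5)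
noncomputable def D11004 : OP := orK (nat_lit 107) (fin (add (start D10691) (win (nat_lit 7) (nat_lit 7) (nat_lit 5) (nat_lit 1))))
noncomputable def D12350 : OP := orK (nat_lit 187) D12342
noncomputable def D11023 : OP := orK (nat_lit 152) (fin (add (start D10636) (orK (nat_lit 132) (fin (add (start D10637) D10654)))))
noncomputable def D11504 : OP := win (nat_lit 5) (nat_lit 5) (nat_lit 10) (nat_lit 4)
noncomputable def D11503 : OP := win (nat_lit 5) (nat_lit 4) (nat_lit 10) (nat_lit 5)
noncomputable def D11484 : OP := win (nat_lit 2) (nat_lit 4) (nat_lit 9) (nat_lit 5)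
noncomputable def D11483 : OP := win (nat_lit 2) (nat_lit 5) (nat_lit 9) (nat_lit 4)
noncomputable def D11510 : OP := orK (nat_lit 185) (fin (add (start D11483) (orK (nat_lit 205) (fin (add (start D11484) (orK (nat_lit 225) (fin (add (start D11503) D11504))))))))
noncomputable def D11077 : OP := win (nat_lit 5) (nat_lit 7) (nat_lit 7) (nat_lit 3)
noncomputable def D11224 : AP := fin (add (start D11077) D11082)
noncomputable def D11225 : OP := orK (nat_lit 151) D11224
noncomputable def D11226 : AP := fin (add (start D11075) D11225)
noncomputable def D11227 : OP := orK (nat_lit 167) D11226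
noncomputable def D11362 : OP := win (nat_lit 0) (nat_lit 5) (nat_lit 7) (nat_lit 3)
noncomputable def D11363 : AP := fin (add (start D11252) D11362)
noncomputable def D11364 : OP := orK (nat_lit 145) D11363
noncomputable def D11251 : OP := win (nat_lit 2) (nat_lit 6) (nat_lit 7) (nat_lit 0)
noncomputable def D11366 : OP := orK (nat_lit 146) (fin (add (start D11251) D11364))
noncomputable def D4596 : OP := win (nat_lit 5) (nat_lit 5) (nat_lit 10) (nat_lit 5)
noncomputable def D11076 : OP := win (nat_lit 4) (nat_lit 7) (nat_lit 7) (nat_lit 3)
noncomputable def D11184 : AP := fin (add (start D11076) D11082)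
noncomputable def D11185 : OP := orK (nat_lit 151) D11184
noncomputable def D11186 : AP := fin (add (start D11075) D11185)
noncomputable def D11187 : OP := orK (nat_lit 167) D11186
noncomputable def D11151 : OP := orK (nat_lit 132) (fin (add (start (orK (nat_lit 112) (fin (add (start D8392) D11147)))) D10262))
noncomputable def D11088 : OP := orK (nat_lit 146) (fin (add (start D11086) D8000))
noncomputable def D11183 : OP := orK (nat_lit 151) (fin (add (start D11082) (orK (nat_lit 131) (fin (add (add (add (start D11084) (orK (nat_lit 148) (fin (add (start D10190) (orK (nat_lit 171) (fin (add (start D10189) (orK (nat_lit 147) (fin (add (start D11085) D11088)))))))))) (orK (nat_lit 148) (fin (add (add (start (orK (nat_lit 127) (fin (add (start D7985) (orK (nat_lit 147) (fin (add (start D7984) D10217))))))) (orK (nat_lit 171) (fin (add (start D10189) (orK (nat_lit 147) (fin (add (start D11085) D7987))))))) (orK (nat_lit 171) (fin (add (start D10189) (orK (nat_lit 111) (fin (add (add (start D11123) (orK (nat_lit 191) (fin (add (start (orK (nat_lit 192) (fin (add (start (win (nat_lit 0) (nat_lit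 8) (nat_lit 8) (nat_lit 2))) D11125)))) D11130)))) D11134)))))))))) (orK (nat_lit 111) (fin (add (add (add (start (orK (nat_lit 171) (fin (add (start D11151) (orK (nat_lit 172) (fin (add (start D8373) (orK (nat_lit 173) (fin (add (start (win (nat_lit 2) (nat_lit 9) (nat_lit 7) (nat_lit 3))) D10141)))))))))) D11162) (orK (nat_lit 91) (fin (add (start D11107) (orK (nat_lit 92) (fin (add (start D8371) (orK (nat_lit 171) (fin (add (start D8370) (orK (nat_lit 172) (fin (add (start D8373) D8383))))))))))))) (orK (nat_lit 171) (fin (add (add (start D11134) D11151) D11175)))))))))))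
noncomputable def D11411 : OP := orK (nat_lit 150) D11226
noncomputable def D11314 : OP := orK (nat_lit 192) (fin (add (start D7656) (orK (nat_lit 172) (fin (add (start D7655) D11310)))))
noncomputable def D11308 : OP := orK (nat_lit 192) (fin (add (start D7656) (orK (nat_lit 172) (fin (add (start D7655) D11304)))))
noncomputable def D11323 : OP := orK (nat_lit 171) (fin (add (add (add (start D11300) D11308) D11314) (orK (nat_lit 192) (fin (add (start D7656) (orK (nat_lit 172) (fin (add (start D7655) (orK (nat_lit 150) (fin (add (start D8299) D11315)))))))))))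
noncomputable def D13182 : AP := fin (add (start D7658) D11323)
noncomputable def D13300 : OP := orK (nat_lit 170) D13182
noncomputable def D13407 : OP := orK (nat_lit 127) (fin (add (start D8464) (win (nat_lit 7) (nat_lit 7) (nat_lit 6) (nat_lit 3))))
noncomputable def D11230 : OP := orK (nat_lit 150) D11186
noncomputable def D11253 : OP := win (nat_lit 2) (nat_lit 5) (nat_lit 7) (nat_lit 3)
noncomputable def D11254 : AP := fin (add (start D11252) D11253)
noncomputable def D11256 : AP := fin (add (start D11251) (orK (nat_lit 145) D11254))
noncomputable def D11257 : OP := orK (nat_lit 146) D11256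
noncomputable def D13415 : OP := orK (nat_lit 188) (fin (add (start D11065) (orK (nat_lit 167) (fin (add (add (add (start (orK (nat_lit 147) (fin (add (start D13407) D11257)))) D11230) (orK (nat_lit 147) (fin (add (start D13407) D13300)))) D11411)))))
noncomputable def D12322 : OP := win (nat_lit 3) (nat_lit 8) (nat_lit 7) (nat_lit 3)
noncomputable def D4594 : OP := win (nat_lit 2) (nat_lit 6) (nat_lit 9) (nat_lit 4)
noncomputable def D4595 : OP := win (nat_lit 2) (nat_lit 5) (nat_lit 9) (nat_lit 5)
noncomputable def D4759 : OP := orK (nat_lit 186) (fin (add (start D4595) D4594))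
noncomputable def D2659 : OP := win (nat_lit 5) (nat_lit 6) (nat_lit 10) (nat_lit 5)
noncomputable def D4599 : OP := orK (nat_lit 226) (fin (add (start D4596) D4597))
noncomputable def D11512 : OP := orK (nat_lit 206) (fin (add (add (add (start D4599) (orK (nat_lit 185) (fin (add (start D11483) (orK (nat_lit 205) (fin (add (start D11484) (orK (nat_lit 227) (fin (add (start (win (nat_lit 0) (nat_lit 4) (nat_lit 10) (nat_lit 0))) D2659)))))))))) (orK (nat_lit 185) (fin (add (start D11483) (orK (nat_lit 205) (fin (add (start D11484) (orK (nat_lit 204) (fin (add (start (win (nat_lit 0) (nat_lit 4) (nat_lit 10) (nat_lit 4))) (orK (nat_lit 224) (fin (add (start (win (nat_lit 5) (nat_lit 3) (nat_lit 10) (nat_lit 5))) (win (nat_lit 5) (nat_lit 4) (nat_lit 10) (nat_lit 4))))))))))))))) D11510))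
noncomputable def D11231 : OP := win (nat_lit 3) (nat_lit 8) (nat_lit 7) (nat_lit 2)
noncomputable def D11262 : OP := win (nat_lit 7) (nat_lit 5) (nat_lit 7) (nat_lit 4)
noncomputable def D11472 : OP := orK (nat_lit 145) (fin (add (start D11262) (orK (nat_lit 146) (fin (add (start (win (nat_lit 7) (nat_lit 5) (nat_lit 6) (nat_lit 5))) (orK (nat_lit 147) (fin (add (start D11362) (win (nat_lit 3) (nat_lit 6) (nat_lit 6) (nat_lit 5))))))))))
noncomputable def D13100 : OP := orK (nat_lit 123) (fin (add (start D13091) (orK (nat_lit 143) (fin (add (start D13092) (orK (nat_lit 127) (fin (add (start (win (nat_lit 4) (nat_lit 3) (nat_lit 6) (nat_lit 4))) D13094))))))))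
noncomputable def D12480 : OP := win (nat_lit 4) (nat_lit 4) (nat_lit 6) (nat_lit 4)
noncomputable def D12485 : AP := fin (add (start D12480) D12484)
noncomputable def D13128 : OP := orK (nat_lit 128) D12485
noncomputable def D13090 : OP := win (nat_lit 0) (nat_lit 4) (nat_lit 7) (nat_lit 5)
noncomputable def D13135 : AP := fin (add (add (add (add (add (start D12932) (orK (nat_lit 166) (fin (add (start D8001) (orK (nat_lit 126) (fin (add (start D7961) (orK (nat_lit 106) (fin (add (start D11849) (orK (nat_lit 107) (fin (add (start D13067) (orK (nat_lit 127) (fin (add (start D13068) (orK (nat_lit 108) (fin (add (start D11627) (orK (nat_lit 109) (fin (add (start D13069) (orK (nat_lit 89) (fin (add (start D13070) (orK (nat_lit 168) (fin (add (start (win (nat_lit 3) (nat_lit 8) (nat_lit 4) (nat_lit 2))) D11196)))))))))))))))))))))))))))) (orK (nat_lit 165) (fin (add (start D12926) (orK (nat_lit 145) (fin (add (start D12925) (orK (nat_lit 144) (fin (add (start D13090) D13100)))))))))) (orK (nat_lit 165) (fin (add (start D12926) (orK (nat_lit 145) (fin (add (start D12925) (orK (nat_lit 144) (fin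 (add (start D13090) D13108)))))))))) (orK (nat_lit 125) (fin (add (start D12478) (orK (nat_lit 145) (fin (add (start D12479) (orK (nat_lit 144) (fin (add (start D13090) (orK (nat_lit 143) (fin (add (start (win (nat_lit 0) (nat_lit 3) (nat_lit 7) (nat_lit 4))) D13119))))))))))))) (orK (nat_lit 125) (fin (add (start D12478) (orK (nat_lit 145) (fin (add (start D12479) (orK (nat_lit 144) (fin (add (start D13090) D13128))))))))))
noncomputable def D12923 : AP := fin (add (start D7959) (orK (nat_lit 170) (fin (add (start D9036) D12920))))
noncomputable def D12936 : OP := orK (nat_lit 148) (fin (add (add (add (start (orK (nat_lit 150) D12923)) D12934) D12477) D12533))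
noncomputable def D11078 : AP := fin (add (start D11076) D11077)
noncomputable def D13038 : OP := orK (nat_lit 168) D11256
noncomputable def D13037 : OP := orK (nat_lit 170) D13036
noncomputable def D13138 : OP := orK (nat_lit 146) (fin (add (add (add (start D13037) D13038) (orK (nat_lit 148) D12933)) (orK (nat_lit 148) D13135)))
noncomputable def D13186 : OP := orK (nat_lit 170) (fin (add (add (add (start D13165) (orK (nat_lit 171) (fin (add (add (add (start (orK (nat_lit 148) (fin (add (start D8757) D13166)))) (orK (nat_lit 172) (fin (add (add (start (orK (nat_lit 173) (fin (add (start D8330) D13170)))) (orK (nat_lit 168) D13173)) D11310)))) (orK (nat_lit 148) D13177)) (orK (nat_lit 148) D12474))))) (orK (nat_lit 168) D13182)) (orK (nat_lit 148) D12476)))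
noncomputable def D11590 : OP := orK (nat_lit 150) D11224
noncomputable def D11524 : OP := orK (nat_lit 171) (fin (add (start D7657) D11280))
noncomputable def D11526 : OP := orK (nat_lit 170) (fin (add (start D7658) D11524))
noncomputable def D11423 : OP := orK (nat_lit 146) (fin (add (start D11251) D4298))
noncomputable def D6009 : OP := orK (nat_lit 148) (fin (add (start D6003) (orK (nat_lit 128) (fin (add (start D6004) (win (nat_lit 3) (nat_lit 7) (nat_lit 6) (nat_lit 3)))))))
noncomputable def D13006 : OP := orK (nat_lit 126) (fin (add (start D5960) (orK (nat_lit 127) (fin (add (start D5959) (orK (nat_lit 108) (fin (add (start D11626) (orK (nat_lit 107) (fin (add (start D11627) D11196)))))))))))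
noncomputable def D4309 : OP := win (nat_lit 3) (nat_lit 7) (nat_lit 8) (nat_lit 4)
noncomputable def D12998 : OP := orK (nat_lit 247) (fin (add (start D4309) D4780))
noncomputable def D13012 : OP := orK (nat_lit 227) (fin (add (add (start D12998) D12878) (orK (nat_lit 226) (fin (add (start D4289) (orK (nat_lit 147) (fin (add (start D4288) D13006))))))))
noncomputable def D12985 : OP := orK (nat_lit 227) (fin (add (start D4308) (orK (nat_lit 246) (fin (add (start D4304) (orK (nat_lit 247) (fin (add (start D4305) D4309))))))))
noncomputable def D11522 : OP := orK (nat_lit 150) D11184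
noncomputable def D11521 : OP := orK (nat_lit 150) D11078
noncomputable def D7963 : AP := fin (add (start D7961) (win (nat_lit 7) (nat_lit 6) (nat_lit 6) (nat_lit 1)))
noncomputable def D12938 : AP := fin (add (start D11888) (orK (nat_lit 126) D7963))
noncomputable def D6013 : OP := win (nat_lit 7) (nat_lit 6) (nat_lit 7) (nat_lit 0)
noncomputable def D13028 : OP := orK (nat_lit 166) (fin (add (start D11326) (orK (nat_lit 146) (fin (add (start D11350) (orK (nat_lit 186) (fin (add (start D11352) (orK (nat_lit 187) (fin (add (start D4817) D6013)))))))))))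
noncomputable def D12826 : OP := orK (nat_lit 206) (fin (add (start D6047) (orK (nat_lit 127) (fin (add (start D6046) D5962)))))
noncomputable def D12977 : OP := orK (nat_lit 187) (fin (add (add (start (orK (nat_lit 148) (fin (add (start D4292) (orK (nat_lit 146) (fin (add (start D11888) D4298))))))) D12814) D12826))
noncomputable def D11901 : AP := fin (add (start (win (nat_lit 4) (nat_lit 4) (nat_lit 8) (nat_lit 0))) (win (nat_lit 4) (nat_lit 5) (nat_lit 8) (nat_lit 3)))
noncomputable def D11903 : AP := fin (add (start D11373) (orK (nat_lit 185) D11901))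
noncomputable def D11904 : OP := orK (nat_lit 186) D11903
noncomputable def D11528 : OP := orK (nat_lit 170) D11527
noncomputable def D13158 : OP := orK (nat_lit 226) (fin (add (start D4288) (orK (nat_lit 227) (fin (add (start D4289) D4295)))))
noncomputable def D12902 : OP := orK (nat_lit 206) (fin (add (start D6047) (orK (nat_lit 127) (fin (add (start D6046) D12898)))))
noncomputable def D12953 : OP := win (nat_lit 7) (nat_lit 6) (nat_lit 9) (nat_lit 0)
noncomputable def D13144 : OP := orK (nat_lit 148) (fin (add (start D4292) (orK (nat_lit 168) (fin (add (start D6003) (orK (nat_lit 170) (fin (add (start D12986) D7659))))))))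
noncomputable def D13162 : OP := orK (nat_lit 187) (fin (add (add (start D6056) D6054) D6058))
noncomputable def D4319 : OP := win (nat_lit 7) (nat_lit 6) (nat_lit 8) (nat_lit 5)
noncomputable def D12915 : OP := orK (nat_lit 187) (fin (add (add (add (start (orK (nat_lit 146) (fin (add (start D4298) (orK (nat_lit 227) (fin (add (start D4299) D12878))))))) (orK (nat_lit 226) (fin (add (start D4288) (orK (nat_lit 227) (fin (add (start D4289) D12886))))))) D12902) (orK (nat_lit 126) (fin (add (start D5960) (orK (nat_lit 127) (fin (add (start D5959) D12909))))))))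
noncomputable def D12945 : OP := orK (nat_lit 187) (fin (add (start D4298) (orK (nat_lit 226) (fin (add (start D4288) (orK (nat_lit 227) (fin (add (start D4289) D4299))))))))
noncomputable def D12703 : OP := orK (nat_lit 206) (fin (add (start D11529) D6047))
noncomputable def D4322 : OP := win (nat_lit 7) (nat_lit 6) (nat_lit 9) (nat_lit 4)
noncomputable def D6155 : OP := orK (nat_lit 186) (fin (add (start D4319) D4322))
noncomputable def D4321 : OP := win (nat_lit 1) (nat_lit 6) (nat_lit 10) (nat_lit 5)
noncomputable def D4320 : OP := win (nat_lit 1) (nat_lit 6) (nat_lit 9) (nat_lit 4)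
noncomputable def D6163 : OP := orK (nat_lit 266) (fin (add (start D4320) (orK (nat_lit 267) (fin (add (start D4321) D6155)))))
noncomputable def D11327 : OP := win (nat_lit 2) (nat_lit 4) (nat_lit 7) (nat_lit 5)
noncomputable def D11261 : OP := win (nat_lit 2) (nat_lit 5) (nat_lit 7) (nat_lit 4)
noncomputable def D11347 : OP := orK (nat_lit 145) (fin (add (start D11261) (orK (nat_lit 165) (fin (add (start D11327) D11343)))))
noncomputable def D11361 : OP := orK (nat_lit 166) (fin (add (add (start D11347) D11349) (orK (nat_lit 146) (fin (add (start D11350) (orK (nat_lit 170) (fin (add (start D11351) D11355))))))))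
noncomputable def D13380 : AP := fin (add (add (add (add (add (add (add (add (add (start (orK (nat_lit 168) (fin (add (add (add (start D11361) D11230) (orK (nat_lit 170) (fin (add (add (add (start (orK (nat_lit 147) (fin (add (start D7658) (orK (nat_lit 171) (fin (add (start D7657) D11300))))))) (orK (nat_lit 151) (fin (add (start D11279) (orK (nat_lit 171) (fin (add (start D11280) D7662))))))) (orK (nat_lit 147) (fin (add (start D7658) (orK (nat_lit 171) (fin (add (start D7657) D7662))))))) (orK (nat_lit 147) (fin (add (start D7658) (orK (nat_lit 148) (fin (add (start D12850) (orK (nat_lit 127) (fin (add (start (orK (nat_lit 150) (fin (add (start D7984) D11315)))) D11198))))))))))))) D11411)))) (orK (nat_lit 168) (fin (add (add (start (orK (nat_lit 187) (fin (add (add (start D11970) D11904) (orK (nat_lit 227) (fin (add (start D4308) (orK (nat_lit 246) (fin (add (start D4304) (orK (nat_lit 247) (fin (add (start D4305) (orK (nat_lit 186) (fin (add (start D11373) D4780)))))))))))))))) D11230) D11411)))) (orK (nat_lit 147) (fin (add (add (add (add (start D12915) D12936) (orK (nat_lit 146)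 (fin (add (add (start (orK (nat_lit 148) D12938)) D12945) (orK (nat_lit 148) (fin (add (start D11888) (orK (nat_lit 166) (fin (add (start D8001) D12527)))))))))) (orK (nat_lit 187) (fin (add (add (start D12814) (orK (nat_lit 148) (fin (add (start D4292) (orK (nat_lit 150) (fin (add (start D7959) D12499))))))) (orK (nat_lit 227) (fin (add (add (add (start D4291) D12878) (orK (nat_lit 248) (fin (add (start D4778) (orK (nat_lit 247) (fin (add (start D3935) D6163))))))) (orK (nat_lit 206) (fin (add (start D6047) (orK (nat_lit 186) (fin (add (start D11529) (orK (nat_lit 247) (fin (add (start D4319) D12953)))))))))))))))) D12977)))) (orK (nat_lit 168) (fin (add (add (start (orK (nat_lit 187) (fin (add (add (start D11904) D12985) (orK (nat_lit 148) (fin (add (start D6003) (orK (nat_lit 170) (fin (add (start D7659) D12988)))))))))) D11230) D11411)))) (orK (nat_lit 168) (fin (add (add (start D11230) (orK (nat_lit 187) (fin (add (add (start D11904) D13012) (orK (nat_lit 147) (fin (add (add (start (orK (nat_lit 186) (fin (add (start D11373) D12703)))) D6056) D11423))))))) D13028)))) (orK (nat_lit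 147) (fin (add (add (add (add (add (start (orK (nat_lit 146) (fin (add (add (add (start D13037) D13038) (orK (nat_lit 148) (fin (add (start D11888) (orK (nat_lit 187) (fin (add (start D4292) (orK (nat_lit 166) (fin (add (start D8001) D6013)))))))))) (orK (nat_lit 145) (fin (add (add (add (start (orK (nat_lit 168) D11363)) (orK (nat_lit 168) (fin (add (start D11362) D11253)))) (orK (nat_lit 168) D11254)) (orK (nat_lit 148) (fin (add (start D12928) (orK (nat_lit 124) (fin (add (start D13049) (orK (nat_lit 144) (fin (add (start D13050) (orK (nat_lit 128) (fin (add (start D13051) D12480))))))))))))))))))) (orK (nat_lit 146) (fin (add (start D13037) D12945)))) D12915) D13138) (orK (nat_lit 187) (fin (add (add (add (start D13144) (orK (nat_lit 206) (fin (add (start D6047) (orK (nat_lit 186) (fin (add (start D11529) (orK (nat_lit 168) (fin (add (start D11373) (orK (nat_lit 227) (fin (add (start D4308) (orK (nat_lit 247) (fin (add (start D4309) D4319)))))))))))))))) D12902) D13158)))) D13162)))) (orK (nat_lit 147) (fin (add (add (add (add (start D13162) D13186) (orK (nat_lit 187) (fin (add (add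 (add (start D13144) (orK (nat_lit 206) (fin (add (start D6047) (orK (nat_lit 186) (fin (add (start D11529) (orK (nat_lit 168) (fin (add (start D11373) (orK (nat_lit 227) (fin (add (start D4308) (orK (nat_lit 247) (fin (add (start D4309) D12953)))))))))))))))) D12902) D13158)))) (orK (nat_lit 187) (fin (add (add (add (start D12826) (orK (nat_lit 206) (fin (add (start D6047) (orK (nat_lit 186) (fin (add (start D11529) (orK (nat_lit 168) D11903)))))))) (orK (nat_lit 146) (fin (add (start D4298) (orK (nat_lit 226) (fin (add (start D4288) (orK (nat_lit 227) (fin (add (start D4289) (orK (nat_lit 168) (fin (add (start D11251) D12998))))))))))))) (orK (nat_lit 168) (fin (add (add (start D11528) D13006) D11904))))))) D12977)))) (orK (nat_lit 168) (fin (add (add (start D11411) (orK (nat_lit 187) (fin (add (add (add (start D11970) D12985) (orK (nat_lit 147) (fin (add (add (start D6053) (orK (nat_lit 146) (fin (add (start D4298) D11364)))) D6056)))) D13012)))) D13028)))) (orK (nat_lit 168) (fin (add (add (add (start (orK (nat_lit 148) (fin (add (add (start (orK (nat_lit 187) D11969)) (orK (nat_lit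 166) (fin (add (start D11436) (orK (nat_lit 146) (fin (add (start D11350) (orK (nat_lit 147) D12938)))))))) (orK (nat_lit 166) (fin (add (start D11436) (orK (nat_lit 146) (fin (add (start D11350) (orK (nat_lit 147) (fin (add (start D11888) (orK (nat_lit 126) (fin (add (start D7961) (orK (nat_lit 106) (fin (add (start D11849) (orK (nat_lit 107) (fin (add (start D13067) (orK (nat_lit 127) (fin (add (start D11196) (orK (nat_lit 105) (fin (add (start D13230) (orK (nat_lit 104) (fin (add (start (win (nat_lit 0) (nat_lit 3) (nat_lit 5) (nat_lit 0))) (win (nat_lit 0) (nat_lit 4) (nat_lit 5) (nat_lit 5))))))))))))))))))))))))))))))))) D11230) (orK (nat_lit 151) (fin (add (add (add (start D11521) D11522) (orK (nat_lit 187) (fin (add (add (add (start D12985) D13012) D6009) (orK (nat_lit 147) (fin (add (add (start D11423) (orK (nat_lit 128) (fin (add (start D5957) (orK (nat_lit 127) (fin (add (start D5958) (orK (nat_lit 107) (fin (add (start D11196) D12894)))))))))) D11526))))))) D11590)))) D11411)))) (orK (nat_lit 147) (fin (add (add (add (add (add (start D13186) D13138) (orK (nat_lit 150) (fin (add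 (add (add (start D12269) (orK (nat_lit 168) D11186)) (orK (nat_lit 151) (fin (add (add (add (start (orK (nat_lit 168) D11078)) (orK (nat_lit 168) D11184)) (orK (nat_lit 152) (fin (add (add (start D12152) (orK (nat_lit 172) (fin (add (start D10149) (orK (nat_lit 171) (fin (add (start D10139) (orK (nat_lit 132) (fin (add (start D10200) D13279)))))))))) D13289)))) (orK (nat_lit 168) D11224))))) (orK (nat_lit 148) D12923))))) (orK (nat_lit 168) (fin (add (add (add (start D11257) D11230) D13300) (orK (nat_lit 166) (fin (add (start D11326) (orK (nat_lit 146) (fin (add (start D11350) (orK (nat_lit 186) (fin (add (start D11352) (orK (nat_lit 107) (fin (add (start (win (nat_lit 1) (nat_lit 6) (nat_lit 5) (nat_lit 1))) (orK (nat_lit 206) (fin (add (start D12272) D13302))))))))))))))))))) D12936) (orK (nat_lit 148) (fin (add (add (add (start (orK (nat_lit 150) (fin (add (start D7959) (orK (nat_lit 127) (fin (add (start D7984) (orK (nat_lit 151) (fin (add (start D7985) D7958)))))))))) (orK (nat_lit 146) D13135)) (orK (nat_lit 146) (fin (add (add (add (add (start D13330) (orK (nat_lit 145) (fin (add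 (start D12243) (orK (nat_lit 164) (fin (add (start D12482) (orK (nat_lit 144) (fin (add (start D12481) D13335)))))))))) (orK (nat_lit 145) (fin (add (start D12243) (orK (nat_lit 124) (fin (add (start D13049) (orK (nat_lit 144) (fin (add (start D13050) D13128)))))))))) (orK (nat_lit 126) (fin (add (start D7961) (orK (nat_lit 150) (fin (add (start D7960) (orK (nat_lit 131) (fin (add (start D10217) (orK (nat_lit 151) (fin (add (start D10190) D12080))))))))))))) (orK (nat_lit 145) (fin (add (add (add (start D13328) (orK (nat_lit 164) (fin (add (start D12482) (orK (nat_lit 144) (fin (add (start D12481) (orK (nat_lit 126) (fin (add (start D7961) (orK (nat_lit 127) (fin (add (start D13331) D13094))))))))))))) (orK (nat_lit 164) (fin (add (start D12482) (orK (nat_lit 144) (fin (add (start D12481) D13100))))))) (orK (nat_lit 124) (fin (add (start D13049) (orK (nat_lit 144) (fin (add (start D13050) D12484))))))))))))) D12533)))))))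
noncomputable def D2694 : OP := win (nat_lit 3) (nat_lit 7) (nat_lit 9) (nat_lit 0)
noncomputable def D4399 : OP := win (nat_lit 3) (nat_lit 7) (nat_lit 8) (nat_lit 3)
noncomputable def D11415 : OP := orK (nat_lit 247) (fin (add (start D4399) D2694))
noncomputable def D4397 : OP := win (nat_lit 1) (nat_lit 7) (nat_lit 7) (nat_lit 0)
noncomputable def D2663 : AP := fin (add (start D2661) D2662)
noncomputable def D4604 : AP := fin (add (start D1955) (orK (nat_lit 186) (fin (add (start D4594) (orK (nat_lit 206) (fin (add (start D4595) D4599)))))))
noncomputable def D10759 : OP := win (nat_lit 1) (nat_lit 8) (nat_lit 4) (nat_lit 4)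
noncomputable def D10870 : OP := orK (nat_lit 89) (fin (add (start D10759) D10772))
noncomputable def D12086 : OP := orK (nat_lit 167) (fin (add (start D11075) D11076))
noncomputable def D12087 : AP := fin (add (start D11082) D12086)
noncomputable def D10824 : OP := orK (nat_lit 89) (fin (add (start D10759) D10766))
noncomputable def D11390 : OP := orK (nat_lit 127) (fin (add (start D7984) D8464))
noncomputable def D11395 : OP := orK (nat_lit 146) (fin (add (start D11086) D11393))
noncomputable def D11285 : AP := fin (add (start D11065) D4768)
noncomputable def D11248 : OP := orK (nat_lit 127) (fin (add (start D8464) D11246))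
noncomputable def D11249 : AP := fin (add (start D11065) D11248)
noncomputable def D12338 : OP := orK (nat_lit 186) (fin (add (start D11372) D12251))
noncomputable def D8855 : OP := win (nat_lit 3) (nat_lit 8) (nat_lit 6) (nat_lit 3)
noncomputable def D12601 : AP := fin (add (start D8855) D11065)
noncomputable def D12688 : OP := orK (nat_lit 208) D12601
noncomputable def D4816 : OP := win (nat_lit 7) (nat_lit 6) (nat_lit 8) (nat_lit 0)
noncomputable def D11239 : OP := win (nat_lit 5) (nat_lit 5) (nat_lit 8) (nat_lit 3)
noncomputable def D12633 : AP := fin (add (start D7984) (win (nat_lit 7) (nat_lit 7) (nat_lit 6) (nat_lit 1)))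
noncomputable def D11991 : OP := orK (nat_lit 171) (fin (add (start D11280) (orK (nat_lit 192) (fin (add (start D7656) (orK (nat_lit 172) (fin (add (start D7655) D11985))))))))
noncomputable def D11337 : OP := orK (nat_lit 166) (fin (add (start D11326) (orK (nat_lit 145) (fin (add (start D11261) (orK (nat_lit 165) (fin (add (start D11327) D11331))))))))
noncomputable def D11613 : OP := orK (nat_lit 228) (fin (add (start D11231) D11337))
noncomputable def D4605 : OP := orK (nat_lit 207) D4604
noncomputable def D12788 : AP := fin (add (add (add (add (start (orK (nat_lit 208) (fin (add (add (start (orK (nat_lit 209) (fin (add (start D11064) D4605)))) (orK (nat_lit 168) (fin (add (add (add (start (orK (nat_lit 188) D12601)) (orK (nat_lit 167) (fin (add (add (add (start D11230) (orK (nat_lit 147) (fin (add (start D11257) (orK (nat_lit 188) (fin (add (start (win (nat_lit 7) (nat_lit 7) (nat_lit 7) (nat_lit 0))) D11248))))))) (orK (nat_lit 170) (fin (add (start D11323) (orK (nat_lit 147) (fin (add (start D7658) (orK (nat_lit 228) (fin (add (start D11231) (orK (nat_lit 187) (fin (add (start D7659)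 D12415))))))))))))) D11613)))) (orK (nat_lit 167) (fin (add (add (add (start D11361) D11230) (orK (nat_lit 151) (fin (add (add (add (start D11521) D11522) (orK (nat_lit 170) (fin (add (start (orK (nat_lit 147) (fin (add (start D7658) (orK (nat_lit 187) (fin (add (start D7659) D12621))))))) D11991)))) D11590)))) D11411)))) (orK (nat_lit 167) (fin (add (add (add (start D11361) D11230) (orK (nat_lit 150) (fin (add (add (start D11185) (orK (nat_lit 147) (fin (add (add (add (start D11366) (orK (nat_lit 127) (fin (add (add (start (orK (nat_lit 148) D12633)) (orK (nat_lit 187) (fin (add (start D12635) D11375)))) D11380)))) (orK (nat_lit 170) (fin (add (start D7658) (orK (nat_lit 187) (fin (add (start D7659) (orK (nat_lit 188) (fin (add (start D11599) D4768)))))))))) (orK (nat_lit 148) (fin (add (add (start (orK (nat_lit 127) D12633)) (orK (nat_lit 146) (fin (add (start D11086) (orK (nat_lit 129) (fin (add (start D12649) D11393))))))) D11088))))))) D11225)))) D11411))))))) (orK (nat_lit 188) (fin (add (start D12664) (orK (nat_lit 168) D12601)))))))) D12671) (orK (nat_lit 189) (fin (add (start D42)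 (orK (nat_lit 188) (fin (add (start D10598) (orK (nat_lit 109) (fin (add (start D10599) (orK (nat_lit 90) (fin (add (start D10764) (orK (nat_lit 89) (fin (add (start D10763) (orK (nat_lit 170) (fin (add (start D12672) (orK (nat_lit 172) (fin (add (start (win (nat_lit 5) (nat_lit 8) (nat_lit 8) (nat_lit 1))) D10772)))))))))))))))))))))) (orK (nat_lit 168) (fin (add (add (add (start (orK (nat_lit 188) (fin (add (start D11066) D12688)))) (orK (nat_lit 109) (fin (add (start D10760) (orK (nat_lit 90) (fin (add (start D10764) (orK (nat_lit 89) (fin (add (start D10763) (orK (nat_lit 150) (fin (add (start D10827) D10772))))))))))))) (orK (nat_lit 167) (fin (add (add (add (start (orK (nat_lit 186) (fin (add (add (add (start (orK (nat_lit 185) (fin (add (start D11239) (orK (nat_lit 187) D11901))))) (orK (nat_lit 187) (fin (add (start D11373) (orK (nat_lit 207) (fin (add (start (orK (nat_lit 147) (fin (add (start D12703) D12706)))) (orK (nat_lit 227) (fin (add (start D4308) (orK (nat_lit 166) (fin (add (start D4333) D4816))))))))))))) (orK (nat_lit 187) D11903)) (orK (nat_lit 166) (fin (add (start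 D11352) (orK (nat_lit 146) (fin (add (start D11350) (orK (nat_lit 147) (fin (add (start D11251) D12719))))))))))))) D11230) (orK (nat_lit 147) (fin (add (add (add (start D11366) (orK (nat_lit 188) (fin (add (add (start D12688) (orK (nat_lit 127) (fin (add (start D8464) (orK (nat_lit 187) (fin (add (add (start (orK (nat_lit 148) (fin (add (start D12338) (orK (nat_lit 150) (fin (add (start D7984) D12728))))))) (orK (nat_lit 170) (fin (add (start D7659) D11599)))) (orK (nat_lit 150) (fin (add (start (orK (nat_lit 170) (fin (add (start D11315) D11599)))) D11378)))))))))) (orK (nat_lit 208) D11249))))) (orK (nat_lit 170) (fin (add (start D7658) (orK (nat_lit 150) (fin (add (start D11315) (orK (nat_lit 187) (fin (add (start D7659) (orK (nat_lit 188) (fin (add (start D11599) (orK (nat_lit 208) D11285)))))))))))))) (orK (nat_lit 148) (fin (add (start D11395) (orK (nat_lit 188) (fin (add (start D8835) (orK (nat_lit 150) (fin (add (start D12728) D11390))))))))))))) D11411)))) (orK (nat_lit 109) (fin (add (add (start D10824) (orK (nat_lit 108) (fin (add (start D10743) (orK (nat_lit 110) (fin (add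 (start D10600) (orK (nat_lit 107) (fin (add (start D10800) (orK (nat_lit 131) (fin (add (start D10801) (orK (nat_lit 111) (fin (add (start D10802) (orK (nat_lit 92) (fin (add (start D12764) (orK (nat_lit 112) (fin (add (start D12765) (orK (nat_lit 151) (fin (add (start D12766) (orK (nat_lit 150) D12087)))))))))))))))))))))))))) D10870))))))) (orK (nat_lit 109) (fin (add (add (start (orK (nat_lit 89) (fin (add (start (orK (nat_lit 168) (fin (add (start D10759) D10760)))) D10772)))) (orK (nat_lit 189) (fin (add (start (orK (nat_lit 188) (fin (add (start D10599) D10598)))) D10603)))) (orK (nat_lit 89) (fin (add (start D10766) D10772)))))))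
noncomputable def D11026 : OP := win (nat_lit 5) (nat_lit 7) (nat_lit 8) (nat_lit 3)
noncomputable def D8526 : OP := win (nat_lit 5) (nat_lit 8) (nat_lit 8) (nat_lit 0)
noncomputable def D12307 : OP := orK (nat_lit 167) (fin (add (start D7959) (orK (nat_lit 187) (fin (add (start D11871) D12303)))))
noncomputable def D12441 : OP := orK (nat_lit 170) (fin (add (start D9036) (orK (nat_lit 127) (fin (add (start D7984) D12307)))))
noncomputable def D12537 : OP := orK (nat_lit 147) (fin (add (add (add (start D12477) (orK (nat_lit 146) (fin (add (start D11888) (orK (nat_lit 125) (fin (add (start D12478) (orK (nat_lit 145) (fin (add (start D12479) (orK (nat_lit 144) D12485))))))))))) (orK (nat_lit 88) (fin (add (start D12493) (orK (nat_lit 150) (fin (add (add (start (orK (nat_lit 127) (fin (add (start D7984) D11792)))) D12499) D12441))))))) (orK (nat_lit 167) (fin (add (start (orK (nat_lit 108) (fin (add (start D12507) (orK (nat_lit 187) (fin (add (start D12522) D11871))))))) D12533)))))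
noncomputable def D12160 : OP := orK (nat_lit 126) (fin (add (start D10998) D12158))
noncomputable def D12231 : OP := orK (nat_lit 130) (fin (add (start D11191) (orK (nat_lit 146) (fin (add (start D11723) D8004)))))
noncomputable def D11911 : OP := orK (nat_lit 170) (fin (add (start D11803) D9036))
noncomputable def D11656 : OP := win (nat_lit 0) (nat_lit 6) (nat_lit 6) (nat_lit 3)
noncomputable def D12543 : OP := orK (nat_lit 126) (fin (add (start D10998) D11656))
noncomputable def D12162 : OP := orK (nat_lit 127) (fin (add (start D11792) D12160))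
noncomputable def D12039 : OP := win (nat_lit 7) (nat_lit 8) (nat_lit 5) (nat_lit 3)
noncomputable def D9040 : OP := orK (nat_lit 126) (fin (add (start D7960) (orK (nat_lit 146) (fin (add (start D7961) D8004)))))
noncomputable def D12186 : AP := fin (add (add (start D11911) D9040) (orK (nat_lit 127) (fin (add (start D7984) (orK (nat_lit 170) (fin (add (start D9036) (orK (nat_lit 167) (fin (add (start D7959) D12179))))))))))
noncomputable def D12081 : AP := fin (add (start D7951) D12080)
noncomputable def D12188 : AP := fin (add (add (add (start (orK (nat_lit 151) D12081)) D12162) (orK (nat_lit 147) (fin (add (add (start D11911) (orK (nat_lit 167) (fin (add (start D7959) (orK (nat_lit 151) (fin (add (start D7958) D12166))))))) (orK (nat_lit 146) (fin (add (start D11888) D8004))))))) (orK (nat_lit 147) D12186))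
noncomputable def D12041 : AP := fin (add (start D11930) (win (nat_lit 6) (nat_lit 8) (nat_lit 5) (nat_lit 3)))
noncomputable def D10181 : AP := fin (add (start D10179) D10180)
noncomputable def D10182 : OP := orK (nat_lit 127) D10181
noncomputable def D10183 : AP := fin (add (start D10178) D10182)
noncomputable def D12458 : OP := orK (nat_lit 129) D10183
noncomputable def D12088 : OP := orK (nat_lit 168) D12087
noncomputable def D3442 : OP := orK (nat_lit 165) (fin (add (start (win (nat_lit 2) (nat_lit 5) (nat_lit 8) (nat_lit 4))) (orK (nat_lit 185) (fin (add (start (win (nat_lit 2) (nat_lit 4) (nat_lit 8) (nat_lit 5))) (orK (nat_lit 205) (fin (add (start (win (nat_lit 5) (nat_lit 4) (nat_lit 9) (nat_lit 5))) (win (nat_lit 5) (nat_lit 5) (nat_lit 9) (nat_lit 4))))))))))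
noncomputable def D12403 : OP := orK (nat_lit 186) (fin (add (start D12341) D3442))
noncomputable def D12323 : OP := win (nat_lit 3) (nat_lit 8) (nat_lit 8) (nat_lit 0)
noncomputable def D12279 : OP := win (nat_lit 1) (nat_lit 8) (nat_lit 6) (nat_lit 0)
noncomputable def D12419 : OP := orK (nat_lit 208) (fin (add (start D4768) (orK (nat_lit 228) (fin (add (start D12323) D12415)))))
noncomputable def D12345 : OP := orK (nat_lit 170) (fin (add (start D7658) D11599))
noncomputable def D11029 : AP := fin (add (start D7805) (orK (nat_lit 171) (fin (add (start D11026) D8526))))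
noncomputable def D12376 : OP := orK (nat_lit 107) (fin (add (start D12373) D12374))
noncomputable def D3071 : OP := win (nat_lit 5) (nat_lit 5) (nat_lit 9) (nat_lit 5)
noncomputable def D12211 : OP := orK (nat_lit 109) (fin (add (start D10599) (orK (nat_lit 130) (fin (add (start D10646) (orK (nat_lit 89) D11711))))))
noncomputable def D8654 : OP := win (nat_lit 0) (nat_lit 5) (nat_lit 8) (nat_lit 0)
noncomputable def D11783 : OP := orK (nat_lit 166) (fin (add (start D8654) D11326))
noncomputable def D11784 : AP := fin (add (start D7658) D11783)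
noncomputable def D11781 : OP := orK (nat_lit 187) (fin (add (start D7805) D11599))
noncomputable def D12315 : OP := orK (nat_lit 168) (fin (add (start D11066) (orK (nat_lit 167) (fin (add (start D11075) D8464)))))
noncomputable def D12192 : OP := orK (nat_lit 126) (fin (add (start D11656) D11376))
noncomputable def D12213 : OP := orK (nat_lit 188) (fin (add (start D10598) D12211))
noncomputable def D10978 : OP := orK (nat_lit 70) (fin (add (start D10915) D10914))
noncomputable def D12444 : AP := fin (add (add (add (add (add (add (start (orK (nat_lit 148) D12186)) (orK (nat_lit 127) (fin (add (add (add (start D12192) (orK (nat_lit 129) (fin (add (add (start (orK (nat_lit 188) (fin (add (start D10598) (orK (nat_lit 109) (fin (add (start D10599) (orK (nat_lit 89) (fin (add (start D10827) (orK (nat_lit 69) (fin (add (start D10850) D10978))))))))))))) D12213) D12219)))) (orK (nat_lit 148) (fin (add (start D7984) D11911)))) (orK (nat_lit 129) (fin (add (start D10179) D12213))))))) (orK (nat_lit 148) (fin (add (add (start D11911) D12231) (orK (nat_lit 170) (fin (add (start D9036) (orK (nat_lit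 167) (fin (add (start D7959) (orK (nat_lit 187) (fin (add (start D11871) (orK (nat_lit 186) (fin (add (start D12232) D12175)))))))))))))))) (orK (nat_lit 148) (fin (add (add (start (orK (nat_lit 126) (fin (add (start D7960) (orK (nat_lit 146) (fin (add (start D7961) (orK (nat_lit 145) (fin (add (start D12243) D12244)))))))))) D12231) (orK (nat_lit 127) (fin (add (start D7984) (orK (nat_lit 167) (fin (add (start D7959) (orK (nat_lit 187) (fin (add (start D11871) (orK (nat_lit 188) (fin (add (start D8465) (orK (nat_lit 186) (fin (add (start D11372) (orK (nat_lit 168) (fin (add (start D12251) D8464)))))))))))))))))))))) (orK (nat_lit 127) (fin (add (add (add (start D12192) (orK (nat_lit 167) (fin (add (add (add (start D12269) (orK (nat_lit 166) (fin (add (start D12266) D12276)))) (orK (nat_lit 188) (fin (add (start (orK (nat_lit 208) (fin (add (start D12279) D11246)))) (orK (nat_lit 107) (fin (add (start D12282) (orK (nat_lit 86) (fin (add (start D11630) (orK (nat_lit 87) (fin (add (start D11629) (orK (nat_lit 68) (fin (add (start D12283) (orK (nat_lit 67) (fin (add (start D12284) (win (nat_lit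 6) (nat_lit 7) (nat_lit 3) (nat_lit 5))))))))))))))))))))) (orK (nat_lit 166) (fin (add (start D12267) D12276))))))) (orK (nat_lit 148) (fin (add (start D7984) (orK (nat_lit 170) (fin (add (start D9036) D12307))))))) (orK (nat_lit 129) (fin (add (start D10179) (orK (nat_lit 188) (fin (add (start D10598) D12315)))))))))) (orK (nat_lit 188) (fin (add (add (add (start (orK (nat_lit 208) (fin (add (start D12279) (orK (nat_lit 228) (fin (add (start D12322) D12323))))))) (orK (nat_lit 127) (fin (add (add (add (start (orK (nat_lit 129) (fin (add (start D10179) D12315)))) (orK (nat_lit 167) (fin (add (add (add (start (orK (nat_lit 168) (fin (add (start D8464) D11783)))) (orK (nat_lit 168) (fin (add (start D8464) (orK (nat_lit 170) (fin (add (start D7658) D11781))))))) (orK (nat_lit 168) (fin (add (add (start (orK (nat_lit 170) D11784)) (orK (nat_lit 187) (fin (add (start D11783) D12338)))) (orK (nat_lit 187) (fin (add (start D12338) D12345))))))) (orK (nat_lit 186) (fin (add (add (start D12350) (orK (nat_lit 166) D12358)) (orK (nat_lit 187) (fin (add (start D12341) (orK (nat_lit 166) (fin (add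 (start D12270) D3070))))))))))))) (orK (nat_lit 129) (fin (add (start D10179) D12211)))) (orK (nat_lit 146) (fin (add (start (orK (nat_lit 129) (fin (add (start D10179) D12193)))) (orK (nat_lit 186) (fin (add (add (add (start (orK (nat_lit 166) (fin (add (start D12372) D12376)))) (orK (nat_lit 187) (fin (add (start D12341) (orK (nat_lit 206) (fin (add (start (win (nat_lit 1) (nat_lit 6) (nat_lit 6) (nat_lit 2))) D3071))))))) (orK (nat_lit 166) (fin (add (start D12372) D12390)))) (orK (nat_lit 166) (fin (add (start D12376) D12390))))))))))))) (orK (nat_lit 187) (fin (add (add (add (start (orK (nat_lit 170) D11029)) D12403) (orK (nat_lit 167) (fin (add (start (orK (nat_lit 166) (fin (add (start D12266) (orK (nat_lit 165) (fin (add (start (win (nat_lit 0) (nat_lit 4) (nat_lit 8) (nat_lit 0))) (win (nat_lit 2) (nat_lit 5) (nat_lit 8) (nat_lit 3))))))))) D12419)))) (orK (nat_lit 167) (fin (add (start (orK (nat_lit 168) (fin (add (start D11075) D12345)))) D12419))))))) (orK (nat_lit 208) (fin (add (start D12279) (orK (nat_lit 187) (fin (add (start (orK (nat_lit 228) (fin (add (start D12323) (orK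 (nat_lit 167) (fin (add (start D4768) D12415))))))) D12403)))))))))) (orK (nat_lit 148) (fin (add (add (start D11911) D9040) D12441))))
noncomputable def D12078 : OP := orK (nat_lit 152) (fin (add (start D10152) D12076))
noncomputable def D10319 : OP := orK (nat_lit 127) (fin (add (start D10316) (orK (nat_lit 129) D10181)))
noncomputable def D11816 : OP := win (nat_lit 4) (nat_lit 6) (nat_lit 8) (nat_lit 1)
noncomputable def D12560 : AP := fin (add (add (add (add (start (orK (nat_lit 108) (fin (add (start D12039) (orK (nat_lit 148) D12041))))) (orK (nat_lit 129) (fin (add (start D10673) (orK (nat_lit 188) (fin (add (start D10598) (orK (nat_lit 168) (fin (add (start D11066) (orK (nat_lit 170) (fin (add (add (start D11781) (orK (nat_lit 171) (fin (add (start D8526) (orK (nat_lit 151) (fin (add (start D11280) (orK (nat_lit 167) (fin (add (start D11279) (orK (nat_lit 166) (fin (add (start D8654) (orK (nat_lit 146) (fin (add (start D11350) D11351)))))))))))))))) (orK (nat_lit 167) (fin (add (start (orK (nat_lit 186) (fin (add (start D11816) (orK (nat_lit 166) (fin (add (start D8654) D11352)))))))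 (orK (nat_lit 127) (fin (add (start (orK (nat_lit 150) (fin (add (start D10179) D11315)))) (orK (nat_lit 147) (fin (add (start D7658) D8464)))))))))))))))))))))) (orK (nat_lit 150) (fin (add (add (add (add (add (start (orK (nat_lit 151) (fin (add (add (start D12078) (orK (nat_lit 148) D12081)) D10319)))) (orK (nat_lit 151) (fin (add (add (add (start D12078) D12088) (orK (nat_lit 168) (fin (add (add (start D12086) (orK (nat_lit 188) (fin (add (add (start (orK (nat_lit 129) (fin (add (start D11066) D10598)))) (orK (nat_lit 208) (fin (add (start D11065) (orK (nat_lit 148) (fin (add (start (orK (nat_lit 171) (fin (add (start D10189) D12098)))) (orK (nat_lit 147) (fin (add (start D11890) D11731)))))))))) (orK (nat_lit 170) (fin (add (add (start D11781) (orK (nat_lit 129) (fin (add (start D11066) (orK (nat_lit 171) (fin (add (start D8526) (orK (nat_lit 148) (fin (add (start D8728) (orK (nat_lit 131) (fin (add (start D10190) (orK (nat_lit 191) (fin (add (start D7684) (orK (nat_lit 111) (fin (add (start D12115) D12118))))))))))))))))))) (orK (nat_lit 109) (fin (add (start D12131) (orK (nat_lit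 187) (fin (add (start D7805) (orK (nat_lit 148) (fin (add (start D8844) (orK (nat_lit 147) (fin (add (start D11803) D11731))))))))))))))))))) (orK (nat_lit 167) (fin (add (start D11075) D11077))))))) (orK (nat_lit 152) (fin (add (start D10152) D12152))))))) (orK (nat_lit 148) D12188)) (orK (nat_lit 147) D12444)) (orK (nat_lit 151) (fin (add (add (start (orK (nat_lit 152) (fin (add (start D10152) (orK (nat_lit 172) (fin (add (start D10149) (orK (nat_lit 148) (fin (add (start D10148) D10202)))))))))) (orK (nat_lit 148) (fin (add (start D7951) (orK (nat_lit 171) (fin (add (start D10189) (orK (nat_lit 147) (fin (add (start D11085) D11731)))))))))) D12458)))) (orK (nat_lit 151) (fin (add (add (start D12088) (orK (nat_lit 129) (fin (add (start D10182) (orK (nat_lit 188) (fin (add (start D10598) (orK (nat_lit 168) (fin (add (start D11066) D12086)))))))))) D12458))))))) (orK (nat_lit 148) (fin (add (add (start (orK (nat_lit 108) D12041)) (orK (nat_lit 150) D12188)) D12537)))) (orK (nat_lit 148) (fin (add (add (start (orK (nat_lit 108) (fin (add (start D11930) D12039)))) (orK (nat_lit 150) (fin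 (add (add (add (start (orK (nat_lit 127) (fin (add (start D11792) D12543)))) (orK (nat_lit 147) (fin (add (add (start D11911) D12231) D12499)))) D12162) (orK (nat_lit 127) (fin (add (add (start D12543) (orK (nat_lit 147) (fin (add (add (start D11911) D12231) (orK (nat_lit 170) (fin (add (start D9036) (orK (nat_lit 130) (fin (add (start D11191) D12307)))))))))) D12160))))))) D12537))))
noncomputable def D11879 : OP := orK (nat_lit 146) (fin (add (start D11086) D11725))
noncomputable def D11212 : OP := orK (nat_lit 170) (fin (add (start D7658) (orK (nat_lit 187) (fin (add (start D7659) (orK (nat_lit 171) (fin (add (start D7660) (orK (nat_lit 192) (fin (add (start D7656) (orK (nat_lit 172) (fin (add (start D7655) D8299))))))))))))))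
noncomputable def D11536 : OP := orK (nat_lit 186) (fin (add (start D11373) (orK (nat_lit 206) (fin (add (start D11529) (orK (nat_lit 207) (fin (add (start D6047) (win (nat_lit 2) (nat_lit 6) (nat_lit 9) (nat_lit 2))))))))))
noncomputable def D11539 : OP := orK (nat_lit 208) D11287
noncomputable def D11594 : OP := orK (nat_lit 167) (fin (add (add (add (start D11361) D11230) (orK (nat_lit 151) (fin (add (add (add (start D11521) D11522) (orK (nat_lit 147) (fin (add (add (add (start D11526) (orK (nat_lit 187) (fin (add (add (add (start D11528) D11536) (orK (nat_lit 207) (fin (add (start D11539) D6056)))) (orK (nat_lit 146) (fin (add (start D11251) (orK (nat_lit 207) (fin (add (start D4298) D11539)))))))))) (orK (nat_lit 187) (fin (add (add (start (orK (nat_lit 170) (fin (add (start D7659) D11524)))) (orK (nat_lit 207) (fin (add (start D11539) D11553)))) D11536)))) (orK (nat_lit 207) (fin (add (add (add (start (orK (nat_lit 208) D11560)) (orK (nat_lit 187) (fin (add (start D11553) D6056)))) (orK (nat_lit 208) (fin (add (start D1955) (orK (nat_lit 227) (fin (add (start D2659) (orK (nat_lit 187)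 (fin (add (start D4308) D4769)))))))))) (orK (nat_lit 208) (fin (add (start D1955) (orK (nat_lit 226) (fin (add (start D4597) (orK (nat_lit 206) (fin (add (start D4596) (orK (nat_lit 185) (fin (add (start D11483) (orK (nat_lit 205) (fin (add (start D11484) (orK (nat_lit 145) (fin (add (start (win (nat_lit 6) (nat_lit 5) (nat_lit 7) (nat_lit 1))) (orK (nat_lit 146) D11363)))))))))))))))))))))))))) D11590)))) D11411))
noncomputable def D11516 : OP := orK (nat_lit 228) (fin (add (start D11231) (orK (nat_lit 207) (fin (add (start D1955) D11512)))))
noncomputable def D3458 : OP := win (nat_lit 3) (nat_lit 8) (nat_lit 6) (nat_lit 5)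
noncomputable def D11896 : OP := orK (nat_lit 188) (fin (add (start D11065) (orK (nat_lit 148) (fin (add (start D3458) D11892)))))
noncomputable def D4818 : OP := win (nat_lit 6) (nat_lit 6) (nat_lit 7) (nat_lit 3)
noncomputable def D11482 : OP := orK (nat_lit 166) (fin (add (add (add (start (orK (nat_lit 167) (fin (add (start D11326) D11347)))) (orK (nat_lit 167) (fin (add (start D11326) D11349)))) (orK (nat_lit 207) (fin (add (start D1955) (orK (nat_lit 167) (fin (add (start D11326) (orK (nat_lit 146) (fin (add (start D11350) (orK (nat_lit 186) (fin (add (start D11352) (orK (nat_lit 227) (fin (add (start D2659) D4818)))))))))))))))) (orK (nat_lit 207) (fin (add (start D1955) (orK (nat_lit 226) (fin (add (start D4597) (orK (nat_lit 206) (fin (add (start D4596) (orK (nat_lit 186) (fin (add (start D4595) D11472))))))))))))))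
noncomputable def D11435 : OP := win (nat_lit 3) (nat_lit 7) (nat_lit 7) (nat_lit 2)
noncomputable def D11434 : OP := win (nat_lit 1) (nat_lit 7) (nat_lit 7) (nat_lit 2)
noncomputable def D11431 : OP := orK (nat_lit 207) (fin (add (start D1955) (orK (nat_lit 227) (fin (add (start D2659) (orK (nat_lit 187) (fin (add (start D4308) (orK (nat_lit 147) (fin (add (start D4769) D11423)))))))))))
noncomputable def D11259 : OP := orK (nat_lit 147) (fin (add (start (orK (nat_lit 188) D11249)) D11257))
noncomputable def D11339 : OP := orK (nat_lit 167) (fin (add (add (add (start D11230) (orK (nat_lit 208) (fin (add (add (add (start (orK (nat_lit 207) (fin (add (start D1955) (orK (nat_lit 187) (fin (add (start D2660) (orK (nat_lit 228) (fin (add (start D11231) D2661)))))))))) (orK (nat_lit 207) (fin (add (start D1955) (orK (nat_lit 186) (fin (add (start D4594) (orK (nat_lit 185) (fin (add (start (win (nat_lit 2) (nat_lit 5) (nat_lit 9) (nat_lit 3))) D11239)))))))))) D11259) (orK (nat_lit 207) (fin (add (start D1955) (orK (nat_lit 228) (fin (add (start D11231) (orK (nat_lit 226) (fin (add (start D4597)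 (orK (nat_lit 206) (fin (add (start D4596) (orK (nat_lit 186) (fin (add (start D4595) (orK (nat_lit 166) (fin (add (start (win (nat_lit 3) (nat_lit 6) (nat_lit 7) (nat_lit 5))) (orK (nat_lit 145) (fin (add (start D11261) D11262))))))))))))))))))))))))) (orK (nat_lit 170) (fin (add (start (orK (nat_lit 187) (fin (add (start D7659) (orK (nat_lit 147) (fin (add (start D7658) (orK (nat_lit 208) (fin (add (start (orK (nat_lit 188) D11285)) (orK (nat_lit 207) D11291))))))))))) D11323)))) D11337))
noncomputable def D11200 : OP := orK (nat_lit 127) D11199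
noncomputable def D12035 : AP := fin (add (add (add (add (add (add (add (add (start (orK (nat_lit 150) (fin (add (add (add (start D11183) D11187) (orK (nat_lit 167) (fin (add (start D11075) (orK (nat_lit 147) (fin (add (add (add (start D11366) (orK (nat_lit 148) (fin (add (start D11200) (orK (nat_lit 187) (fin (add (start (orK (nat_lit 170) (fin (add (start D9036) D7659)))) D11873))))))) D11212) (orK (nat_lit 148) (fin (add (start D11879) D11200)))))))))) D11227)))) (orK (nat_lit 208) (fin (add (start D4605) D11896)))) (orK (nat_lit 208) (fin (add (add (start (orK (nat_lit 207) (fin (add (start D1955) (orK (nat_lit 188) (fin (add (start D11065) (orK (nat_lit 148) (fin (add (start D8664) D3458)))))))))) D4605) (orK (nat_lit 188) (fin (add (start D11065) (orK (nat_lit 148) (fin (add (start D3458) (orK (nat_lit 127) (fin (add (start D8752) (orK (nat_lit 128) (fin (add (start D8751) (orK (nat_lit 150) (fin (add (start D11792) (orK (nat_lit 167) (fin (add (start D11075) (orK (nat_lit 108) D11931))))))))))))))))))))))) (orK (nat_lit 167) (fin (add (add (add (start (orK (nat_lit 166) (fin (add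 (add (start D11347) D11349) (orK (nat_lit 146) (fin (add (start D11350) (orK (nat_lit 186) (fin (add (start D11352) (orK (nat_lit 187) (fin (add (start D11373) (orK (nat_lit 126) (fin (add (start D6014) D11947)))))))))))))))) D11230) (orK (nat_lit 151) (fin (add (add (add (start D11521) D11522) (orK (nat_lit 187) (fin (add (add (start (orK (nat_lit 170) (fin (add (start D7659) (orK (nat_lit 171) (fin (add (start D11280) D7660))))))) (orK (nat_lit 207) (fin (add (add (add (start (orK (nat_lit 208) (fin (add (start D1955) (orK (nat_lit 227) (fin (add (start D4308) D2659))))))) D11970) (orK (nat_lit 208) (fin (add (start D1955) (orK (nat_lit 228) (fin (add (start D11231) (orK (nat_lit 227) (fin (add (start D2659) D2662)))))))))) (orK (nat_lit 208) (fin (add (start D1955) (orK (nat_lit 188) (fin (add (start D11065) (orK (nat_lit 148) (fin (add (start D4341) D3458))))))))))))) (orK (nat_lit 170) (fin (add (start D7659) D11991))))))) D11590)))) D11411)))) D11339) (orK (nat_lit 150) (fin (add (add (add (start D11183) D11187) (orK (nat_lit 167) (fin (add (start D11075) (orK (nat_lit 208) (fin (add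 (add (add (start D11896) (orK (nat_lit 207) (fin (add (start D1955) (orK (nat_lit 228) (fin (add (start D11231) (orK (nat_lit 227) (fin (add (start D2659) (orK (nat_lit 187) D2663))))))))))) D11431) (orK (nat_lit 207) (fin (add (start D1955) (orK (nat_lit 227) (fin (add (start D2659) (orK (nat_lit 148) (fin (add (start D11434) D11435)))))))))))))))) D11227)))) (orK (nat_lit 208) (fin (add (add (start D11482) D11896) D11516)))) D11594) (orK (nat_lit 150) (fin (add (add (add (start D11183) D11187) (orK (nat_lit 167) (fin (add (start D11075) (orK (nat_lit 147) (fin (add (add (add (start D11366) D11386) D11212) (orK (nat_lit 127) (fin (add (start (orK (nat_lit 148) (fin (add (start D7984) D11879)))) D11384)))))))))) D11227))))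
noncomputable def D10938 : OP := win (nat_lit 1) (nat_lit 8) (nat_lit 4) (nat_lit 5)
noncomputable def D11749 : OP := orK (nat_lit 90) (fin (add (start D10764) (orK (nat_lit 89) (fin (add (start D10763) (orK (nat_lit 148) (fin (add (start D10938) D11743))))))))
noncomputable def D8006 : OP := orK (nat_lit 146) D8005
noncomputable def D10982 : OP := orK (nat_lit 148) (fin (add (start D10938) (orK (nat_lit 69) (fin (add (start D10951) D10978)))))
noncomputable def D11741 : OP := orK (nat_lit 89) (fin (add (add (start D10982) (orK (nat_lit 148) (fin (add (start D10938) (orK (nat_lit 150) (fin (add (start D10827) (orK (nat_lit 147) (fin (add (add (start (orK (nat_lit 146) D11728)) D8006) (orK (nat_lit 151) D11732))))))))))) D10921))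
noncomputable def D10732 : OP := orK (nat_lit 126) D10731
noncomputable def D10645 : OP := orK (nat_lit 151) (fin (add (start D10643) D10626))
noncomputable def D11070 : OP := orK (nat_lit 188) (fin (add (start D11065) (orK (nat_lit 129) (fin (add (start D11066) D8855)))))
noncomputable def D11517 : AP := fin (add (add (start D11070) D11482) D11516)
noncomputable def D11447 : AP := fin (add (add (add (start D11070) (orK (nat_lit 207) (fin (add (start D1955) (orK (nat_lit 188) (fin (add (start D11065) (orK (nat_lit 227) (fin (add (start D2659) D11415)))))))))) (orK (nat_lit 167) (fin (add (add (start D11431) D11230) D11411)))) (orK (nat_lit 207) (fin (add (start D1955) (orK (nat_lit 227) (fin (add (start D2659) (orK (nat_lit 148) (fin (add (start D11434) (orK (nat_lit 167) (fin (add (start D11435) D11438)))))))))))))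
noncomputable def D10949 : AP := fin (add (start D10630) (orK (nat_lit 147) (fin (add (start D10945) D10946))))
noncomputable def D8415 : OP := win (nat_lit 6) (nat_lit 9) (nat_lit 3) (nat_lit 5)
noncomputable def D10820 : OP := orK (nat_lit 188) (fin (add (start D10599) (orK (nat_lit 189) (fin (add (start D10598) D10746)))))
noncomputable def D10826 : OP := orK (nat_lit 168) (fin (add (start D10760) D10824))
noncomputable def D10786 : OP := orK (nat_lit 188) (fin (add (start D10599) (orK (nat_lit 189) (fin (add (start D10598) D10603)))))
noncomputable def D10849 : OP := orK (nat_lit 168) (fin (add (start D10760) (orK (nat_lit 89) (fin (add (start D10759) (orK (nat_lit 150) (fin (add (start D10827) (orK (nat_lit 152) (fin (add (start (win (nat_lit 5) (nat_lit 8) (nat_lit 7) (nat_lit 1))) D10841)))))))))))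
noncomputable def D10698 : OP := orK (nat_lit 111) (fin (add (start (win (nat_lit 4) (nat_lit 7) (nat_lit 5) (nat_lit 4))) D10696))
noncomputable def D10694 : OP := orK (nat_lit 107) (fin (add (start D10691) (win (nat_lit 2) (nat_lit 7) (nat_lit 5) (nat_lit 4))))
noncomputable def D10700 : OP := orK (nat_lit 131) (fin (add (start D10694) D10698))
noncomputable def D10608 : OP := win (nat_lit 7) (nat_lit 8) (nat_lit 5) (nat_lit 0)
noncomputable def D10615 : OP := win (nat_lit 3) (nat_lit 9) (nat_lit 5) (nat_lit 0)
noncomputable def D10621 : OP := orK (nat_lit 110) (fin (add (start D10615) (orK (nat_lit 90) (fin (add (start D10616) (win (nat_lit 1) (nat_lit 9) (nat_lit 4) (nat_lit 3)))))))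
noncomputable def D10742 : OP := orK (nat_lit 128) (fin (add (add (add (start (orK (nat_lit 108) (fin (add (start D10608) (orK (nat_lit 88) (fin (add (start (win (nat_lit 6) (nat_lit 8) (nat_lit 3) (nat_lit 0))) (win (nat_lit 6) (nat_lit 8) (nat_lit 4) (nat_lit 3))))))))) (orK (nat_lit 130) (fin (add (add (start D10621) D10660) (orK (nat_lit 110) (fin (add (start D10615) (orK (nat_lit 111) (fin (add (start (win (nat_lit 4) (nat_lit 7) (nat_lit 5) (nat_lit 0))) (orK (nat_lit 112) (fin (add (start (win (nat_lit 4) (nat_lit 8) (nat_lit 5) (nat_lit 3))) D10663))))))))))))) (orK (nat_lit 130) (fin (add (add (start D10621) (orK (nat_lit 108) (fin (add (start D10608) (orK (nat_lit 107) (fin (add (start D10676) (orK (nat_lit 106) (fin (add (start (win (nat_lit 0) (nat_lit 5) (nat_lit 5) (nat_lit 0))) (win (nat_lit 2) (nat_lit 6) (nat_lit 5) (nat_lit 3)))))))))))) (orK (nat_lit 127) (fin (add (start D10642) D10700))))))) (orK (nat_lit 127) (fin (add (add (start (orK (nat_lit 130) (fin (add (add (start (orK (nat_lit 131) (fin (add (start D10645) D10694)))) (orK (nat_lit 150) (fin (add (start D10622)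 (orK (nat_lit 110) (fin (add (start D10686) (win (nat_lit 4) (nat_lit 7) (nat_lit 5) (nat_lit 5))))))))) D10700)))) (orK (nat_lit 130) (fin (add (add (start D10700) (orK (nat_lit 131) (fin (add (start D10698) D10649)))) D10732)))) D10738)))))
noncomputable def D15473 : AP := fin (add (add (add (add (add (add (add (add (add (add (add (add (add (add (add (add (start (orK (nat_lit 129) (fin (add (add (add (add (add (add (add (start D10742) (orK (nat_lit 109) (fin (add (add (start D10786) D10816) D10820)))) (orK (nat_lit 109) (fin (add (add (add (start D10826) D10786) D10849) D10866)))) (orK (nat_lit 109) (fin (add (add (start (orK (nat_lit 168) (fin (add (start D10760) D10870)))) (orK (nat_lit 108) (fin (add (start D10743) (orK (nat_lit 130) (fin (add (add (start (orK (nat_lit 131) (fin (add (start D10873) (orK (nat_lit 107) (fin (add (start D10787) (win (nat_lit 0) (nat_lit 7) (nat_lit 5) (nat_lit 3))))))))) (orK (nat_lit 189) (fin (add (start D10672) D10744)))) (orK (nat_lit 131) (fin (add (start D10873) (orK (nat_lit 107) (fin (add (start D10787) D10879))))))))))))) D10849)))) (orK (nat_lit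 109) (fin (add (add (add (start D10826) D10786) (orK (nat_lit 168) (fin (add (start D10760) (orK (nat_lit 89) (fin (add (start D10759) D10903))))))) D10911)))) (orK (nat_lit 109) (fin (add (add (start (orK (nat_lit 168) (fin (add (start D10760) (orK (nat_lit 89) (fin (add (start D10759) D10921))))))) D10929) D10820)))) (orK (nat_lit 109) (fin (add (add (start D10826) D10820) D10935)))) (orK (nat_lit 109) (fin (add (add (add (add (start D10935) (orK (nat_lit 90) (fin (add (start D10764) (orK (nat_lit 89) (fin (add (start D10763) (orK (nat_lit 148) (fin (add (start D10938) (orK (nat_lit 130) (fin (add (add (start (orK (nat_lit 131) (fin (add (start D10630) (orK (nat_lit 128) (fin (add (start D10939) D10940))))))) (orK (nat_lit 131) D10949)) (orK (nat_lit 69) (fin (add (start D10951) D8415)))))))))))))))) D10816) (orK (nat_lit 88) (fin (add (start D10770) (orK (nat_lit 89) (fin (add (start D10769) (orK (nat_lit 148) (fin (add (start D10938) (orK (nat_lit 69) (fin (add (start D10951) (orK (nat_lit 50) (fin (add (start D10830) (orK (nat_lit 49) (fin (add (start D10831) (orK (nat_lit 130) (fin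 (add (start (win (nat_lit 6) (nat_lit 9) (nat_lit 2) (nat_lit 4))) D8415)))))))))))))))))))))) (orK (nat_lit 88) (fin (add (start D10770) (orK (nat_lit 89) (fin (add (start D10769) D10982))))))))))))) (orK (nat_lit 189) (fin (add (start D42) (orK (nat_lit 129) (fin (add (add (add (start D10607) D10750) D10994) (orK (nat_lit 188) (fin (add (start D10598) (orK (nat_lit 128) (fin (add (start D10673) (orK (nat_lit 130) (fin (add (start D10672) (orK (nat_lit 148) (fin (add (start (orK (nat_lit 147) (fin (add (start D10945) (win (nat_lit 5) (nat_lit 7) (nat_lit 6) (nat_lit 0)))))) (orK (nat_lit 127) (fin (add (start D11001) D11004)))))))))))))))))))))) (orK (nat_lit 189) (fin (add (start D42) (orK (nat_lit 129) (fin (add (add (add (start D10607) D10750) D10994) (orK (nat_lit 188) (fin (add (start D10598) (orK (nat_lit 130) (fin (add (start D10672) (orK (nat_lit 131) (fin (add (add (start (orK (nat_lit 148) D10949)) (orK (nat_lit 128) (fin (add (start D10673) D11023)))) (orK (nat_lit 170) (fin (add (start (orK (nat_lit 187) D11029)) (orK (nat_lit 128) (fin (add (start D10673) (orK (nat_lit 151)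 (fin (add (start D10626) (orK (nat_lit 111) (fin (add (start D10696) (orK (nat_lit 91) (fin (add (start D11031) (orK (nat_lit 72) (fin (add (start D11032) (orK (nat_lit 71) (fin (add (start D11033) (orK (nat_lit 148) (fin (add (start D10940) D11037)))))))))))))))))))))))))))))))))))))))) (orK (nat_lit 168) (fin (add (add (add (add (add (add (start (orK (nat_lit 209) (fin (add (start D11064) (orK (nat_lit 208) (fin (add (start D11070) D4605))))))) (orK (nat_lit 150) (fin (add (add (add (start D11183) D11187) (orK (nat_lit 167) (fin (add (start D11075) (orK (nat_lit 189) (fin (add (start D42) (orK (nat_lit 130) (fin (add (start (orK (nat_lit 147) (fin (add (add (start (orK (nat_lit 170) (fin (add (start D7658) (orK (nat_lit 148) (fin (add (start D9036) D11191))))))) (orK (nat_lit 148) (fin (add (start D11191) D11200)))) D11212)))) (orK (nat_lit 110) (fin (add (start D10686) (win (nat_lit 3) (nat_lit 9) (nat_lit 5) (nat_lit 3))))))))))))))) D11227)))) (orK (nat_lit 209) (fin (add (start D11064) D11339)))) (orK (nat_lit 167) (fin (add (add (add (start D11361) D11230) (orK (nat_lit 150) (fin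 (add (add (start D11185) (orK (nat_lit 147) (fin (add (add (add (start D11366) D11386) D11212) (orK (nat_lit 148) (fin (add (add (start (orK (nat_lit 188) (fin (add (start D11388) D11390)))) (orK (nat_lit 129) (fin (add (start D11395) D11397)))) D11088))))))) D11225)))) D11411)))) (orK (nat_lit 209) (fin (add (start D11064) (orK (nat_lit 208) D11447))))) (orK (nat_lit 209) (fin (add (start D11064) (orK (nat_lit 208) D11517))))) (orK (nat_lit 209) (fin (add (start D11064) D11594))))))) (orK (nat_lit 209) (fin (add (start D11064) (orK (nat_lit 208) (fin (add (add (add (start D4605) (orK (nat_lit 168) (fin (add (add (start D11070) (orK (nat_lit 167) (fin (add (add (add (start D11230) D11259) (orK (nat_lit 170) (fin (add (start D11323) (orK (nat_lit 147) (fin (add (start D7658) (orK (nat_lit 188) (fin (add (start D11065) (orK (nat_lit 187) (fin (add (start D7659) D4768))))))))))))) D11613)))) (orK (nat_lit 167) (fin (add (add (add (start D11361) D11230) (orK (nat_lit 170) (fin (add (add (add (start D11323) (orK (nat_lit 147) (fin (add (start D7658) (orK (nat_lit 127) (fin (add (add (add (start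 (orK (nat_lit 150) (fin (add (start D11315) (orK (nat_lit 126) (fin (add (start D11376) (orK (nat_lit 187) (fin (add (start D7659) D5959)))))))))) (orK (nat_lit 187) (fin (add (start D7659) (orK (nat_lit 108) (fin (add (start D11626) (orK (nat_lit 107) (fin (add (start D11627) (orK (nat_lit 87) (fin (add (start D11628) D11632))))))))))))) (orK (nat_lit 150) (fin (add (start D11315) D11653)))) (orK (nat_lit 150) (fin (add (start D11315) (orK (nat_lit 187) (fin (add (start D7659) (orK (nat_lit 128) (fin (add (start D5958) (orK (nat_lit 126) (fin (add (start D11656) D5959))))))))))))))))))) (orK (nat_lit 147) (fin (add (start D7658) (orK (nat_lit 171) (fin (add (start D7657) D11308))))))) (orK (nat_lit 147) (fin (add (start D7658) (orK (nat_lit 171) (fin (add (start D7657) D11314)))))))))) D11411))))))) (orK (nat_lit 168) D11447)) (orK (nat_lit 168) D11517)))))))) (orK (nat_lit 189) (fin (add (start D42) (orK (nat_lit 129) (fin (add (add (add (add (start (orK (nat_lit 128) (fin (add (start D10673) (orK (nat_lit 130) (fin (add (start D10672) (orK (nat_lit 127) (fin (add (add (start (orK (nat_lit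 131) (fin (add (start D10645) D10649)))) (orK (nat_lit 126) (fin (add (start D10999) D10726)))) D10732)))))))))) (orK (nat_lit 109) (fin (add (add (add (start D10603) (orK (nat_lit 130) (fin (add (start D10672) (orK (nat_lit 148) (fin (add (start (orK (nat_lit 89) (fin (add (start D10938) D11712)))) D11718))))))) D11741) D11749)))) (orK (nat_lit 109) (fin (add (add (start D10746) D11741) D10929)))) D11761) (orK (nat_lit 109) (fin (add (add (add (start D10746) (orK (nat_lit 90) (fin (add (start D10764) (orK (nat_lit 89) (fin (add (start D10763) (orK (nat_lit 148) (fin (add (start D10938) D11763)))))))))) D11749) D10935)))))))))) (orK (nat_lit 189) (fin (add (start D42) (orK (nat_lit 129) (fin (add (add (add (start D10750) (orK (nat_lit 130) (fin (add (start D10672) D11777)))) (orK (nat_lit 188) (fin (add (start D10598) (orK (nat_lit 168) (fin (add (start D11066) (orK (nat_lit 170) (fin (add (add (start D11781) (orK (nat_lit 171) (fin (add (start D8526) (orK (nat_lit 147) (fin (add (start D7657) (orK (nat_lit 167) D11784)))))))) (orK (nat_lit 150) (fin (add (add (start D11791) (orK (nat_lit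 148) (fin (add (start (orK (nat_lit 131) (fin (add (start (orK (nat_lit 147) (fin (add (start D11803) D10217)))) (orK (nat_lit 151) (fin (add (start D10190) D11082))))))) (orK (nat_lit 128) (fin (add (start (orK (nat_lit 127) (fin (add (start D10179) D8751)))) (orK (nat_lit 187) (fin (add (start D8844) D7805)))))))))) (orK (nat_lit 167) (fin (add (start D11075) (orK (nat_lit 147) (fin (add (start D7658) (orK (nat_lit 186) (fin (add (start D11816) (orK (nat_lit 127) (fin (add (start D8464) (orK (nat_lit 126) (fin (add (start D11641) D11376)))))))))))))))))))))))))))) (orK (nat_lit 188) (fin (add (start D10598) (orK (nat_lit 109) (fin (add (start D10599) D11759))))))))))))) (orK (nat_lit 209) (fin (add (start D11064) (orK (nat_lit 168) D12035))))) (orK (nat_lit 189) (fin (add (start D42) (orK (nat_lit 128) D12560))))) (orK (nat_lit 189) (fin (add (start D42) (orK (nat_lit 129) (fin (add (add (add (start D10607) D10750) D10994) (orK (nat_lit 130) (fin (add (start D10672) (orK (nat_lit 128) (fin (add (start D10673) (orK (nat_lit 127) (fin (add (start (orK (nat_lit 106) (fin (add (start D10724)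 (orK (nat_lit 126) (fin (add (start D10723) D10730))))))) (orK (nat_lit 151) (fin (add (start D10643) (orK (nat_lit 188) (fin (add (start D10598) (orK (nat_lit 131) (fin (add (start D10626) (orK (nat_lit 112) (fin (add (start D10652) (orK (nat_lit 132) (fin (add (start D8412) (orK (nat_lit 171) (fin (add (start D11147) (orK (nat_lit 170) (fin (add (start D8526) (orK (nat_lit 187) (fin (add (start D7805) D11026)))))))))))))))))))))))))))))))))))))))) (orK (nat_lit 129) D12788)) (orK (nat_lit 209) (fin (add (start D11064) (orK (nat_lit 207) (fin (add (add (add (add (add (start (orK (nat_lit 208) D4604)) (orK (nat_lit 208) (fin (add (start D1955) (orK (nat_lit 227) (fin (add (start D2659) (orK (nat_lit 168) (fin (add (add (add (start (orK (nat_lit 188) (fin (add (start D4397) D11065)))) (orK (nat_lit 188) (fin (add (start D11065) D11415)))) (orK (nat_lit 167) (fin (add (start D11230) (orK (nat_lit 187) (fin (add (start D4308) (orK (nat_lit 228) D2663)))))))) (orK (nat_lit 188) (fin (add (start D4397) D11415))))))))))))) (orK (nat_lit 167) D13380)) (orK (nat_lit 208) (fin (add (start D1955)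 (orK (nat_lit 168) (fin (add (add (start (orK (nat_lit 226) (fin (add (start D4597) (orK (nat_lit 150) (fin (add (add (start (orK (nat_lit 206) (fin (add (start D4596) (orK (nat_lit 186) (fin (add (start D4595) (orK (nat_lit 166) (fin (add (start D13386) D11472)))))))))) D11183) D11187))))))) D13415) (orK (nat_lit 228) (fin (add (start D11231) D11512)))))))))) (orK (nat_lit 208) (fin (add (start D1955) (orK (nat_lit 187) (fin (add (start D2660) (orK (nat_lit 167) (fin (add (add (start (orK (nat_lit 228) (fin (add (start D2661) (orK (nat_lit 188) (fin (add (start D12322) D13422))))))) (orK (nat_lit 168) (fin (add (start D11970) D11230)))) D13433)))))))))) (orK (nat_lit 208) (fin (add (start D1955) (orK (nat_lit 206) (fin (add (add (add (start D4759) (orK (nat_lit 187) (fin (add (start D2660) (orK (nat_lit 225) (fin (add (start D11504) (orK (nat_lit 205) (fin (add (start D11503) (orK (nat_lit 188) (fin (add (start (win (nat_lit 4) (nat_lit 4) (nat_lit 9) (nat_lit 0))) (orK (nat_lit 228) (fin (add (start D12322) (orK (nat_lit 167) (fin (add (start D2661) D13422))))))))))))))))))) (orK (nat_lit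 168) (fin (add (add (start (orK (nat_lit 225) (fin (add (start D11504) (orK (nat_lit 205) (fin (add (start D11503) (orK (nat_lit 184) (fin (add (start (win (nat_lit 2) (nat_lit 4) (nat_lit 9) (nat_lit 4))) (orK (nat_lit 204) (fin (add (start (win (nat_lit 2) (nat_lit 3) (nat_lit 9) (nat_lit 5))) (orK (nat_lit 188) (fin (add (start D11065) (win (nat_lit 4) (nat_lit 4) (nat_lit 9) (nat_lit 4)))))))))))))))))) D13415) (orK (nat_lit 150) (fin (add (add (add (start D11183) D11187) (orK (nat_lit 167) (fin (add (start D11075) (orK (nat_lit 226) (fin (add (start D4596) (orK (nat_lit 147) (fin (add (start (win (nat_lit 1) (nat_lit 6) (nat_lit 7) (nat_lit 2))) D11366)))))))))) D11227))))))) D11510))))))))))))) (orK (nat_lit 189) (fin (add (start D42) (orK (nat_lit 129) (fin (add (add (add (start D10607) D10750) D10994) (orK (nat_lit 188) (fin (add (start D10598) (orK (nat_lit 128) (fin (add (start D10673) (orK (nat_lit 130) (fin (add (start D10672) (orK (nat_lit 131) (fin (add (start D11023) (orK (nat_lit 147) (fin (add (start D10647) (orK (nat_lit 127) (fin (add (start D10646) (orK (nat_lit 107)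 (fin (add (start D10691) (orK (nat_lit 167) (fin (add (start D12282) (orK (nat_lit 186) (fin (add (start D12903) D12350)))))))))))))))))))))))))))))))))) (orK (nat_lit 189) (fin (add (start D42) (orK (nat_lit 129) (fin (add (add (add (start D10607) D10750) D10994) (orK (nat_lit 188) (fin (add (start D10598) (orK (nat_lit 128) (fin (add (start D10673) (orK (nat_lit 130) (fin (add (start D10672) (orK (nat_lit 127) (fin (add (start D10642) (orK (nat_lit 148) (fin (add (start D11004) (orK (nat_lit 131) (fin (add (start D10940) D10630))))))))))))))))))))))))) (orK (nat_lit 189) (fin (add (start D42) (orK (nat_lit 129) (fin (add (add (add (start D10607) (orK (nat_lit 128) (fin (add (start D10673) (orK (nat_lit 130) (fin (add (start D10672) (orK (nat_lit 188) (fin (add (start D10598) (orK (nat_lit 127) (fin (add (add (start D10642) (orK (nat_lit 106) (fin (add (start D10724) (orK (nat_lit 126) (fin (add (start D10723) D13537))))))) (orK (nat_lit 151) (fin (add (start D10643) (orK (nat_lit 131) (fin (add (start D10626) (orK (nat_lit 107) (fin (add (start D10691) (orK (nat_lit 112) (fin (add (start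 D10652) (orK (nat_lit 132) (fin (add (start D8412) D10635)))))))))))))))))))))))))))) D10750) D10994))))))) (orK (nat_lit 129) D14409)) (orK (nat_lit 148) D15471))
noncomputable def D1753 : OP := orK (nat_lit 293) (fin (add (start D1721) D1521))
noncomputable def D1365 : OP := win (nat_lit 2) (nat_lit 9) (nat_lit 10) (nat_lit 2)
noncomputable def D1696 : OP := orK (nat_lit 248) (fin (add (start D1299) D1694))
noncomputable def D1666 : OP := win (nat_lit 7) (nat_lit 7) (nat_lit 8) (nat_lit 4)
noncomputable def D1665 : OP := win (nat_lit 7) (nat_lit 7) (nat_lit 7) (nat_lit 5)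
noncomputable def D1668 : OP := orK (nat_lit 167) (fin (add (start D1665) D1666))
noncomputable def D597 : OP := win (nat_lit 3) (nat_lit 8) (nat_lit 7) (nat_lit 5)
noncomputable def D1672 : OP := orK (nat_lit 169) (fin (add (start D596) (orK (nat_lit 168) (fin (add (start D597) D1668)))))
noncomputable def D1381 : OP := orK (nat_lit 233) (fin (add (start D133) (orK (nat_lit 232) (fin (add (start D1365) D890)))))
noncomputable def D1419 : OP := orK (nat_lit 273) (fin (add (start D131) D1381))
noncomputable def D1407 : OP := orK (nat_lit 233) D827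
noncomputable def D1406 : OP := win (nat_lit 0) (nat_lit 9) (nat_lit 13) (nat_lit 0)
noncomputable def D1411 : OP := orK (nat_lit 293) (fin (add (start D824) (orK (nat_lit 292) (fin (add (start D1406) D1407)))))
noncomputable def D1377 : OP := orK (nat_lit 233) (fin (add (add (add (start (orK (nat_lit 232) (fin (add (start D1365) D928)))) D945) (orK (nat_lit 232) (fin (add (start D1365) (orK (nat_lit 293) (fin (add (start D905) (orK (nat_lit 312) (fin (add (start D852) (orK (nat_lit 313) (fin (add (start D853) D935))))))))))))) D1000))
noncomputable def D1404 : AP := fin (add (start D754) D823)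
noncomputable def D1345 : OP := win (nat_lit 0) (nat_lit 11) (nat_lit 13) (nat_lit 5)
noncomputable def D1344 : OP := win (nat_lit 0) (nat_lit 10) (nat_lit 13) (nat_lit 4)
noncomputable def D1350 : OP := orK (nat_lit 294) (fin (add (start D1344) (orK (nat_lit 274) (fin (add (start D1345) D1346)))))
noncomputable def D721 : OP := orK (nat_lit 268) (fin (add (start D272) (orK (nat_lit 252) (fin (add (start D716) D717)))))
noncomputable def D1889 : AP := fin (add (add (add (add (add (add (add (add (start (orK (nat_lit 270) (fin (add (add (start D805) D809) (orK (nat_lit 269) (fin (add (start D104) D721))))))) D1012) D1250) (orK (nat_lit 270) (fin (add (add (start (orK (nat_lit 189) (fin (add (start D114) D1260)))) D1268) D1331)))) (orK (nat_lit 271) (fin (add (add (start D738) D740) (orK (nat_lit 270) (fin (add (add (add (start D1336) (orK (nat_lit 289) (fin (add (start D250) (orK (nat_lit 290) (fin (add (start D251) D820))))))) (orK (nat_lit 209) (fin (add (start D260) (orK (nat_lit 290) (fin (add (add (start D820) (orK (nat_lit 273) (fin (add (add (start (orK (nat_lit 289) (fin (add (start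 D251) (win (nat_lit 5) (nat_lit 9) (nat_lit 13) (nat_lit 1)))))) (orK (nat_lit 272) (fin (add (add (add (start D1350) D1356) (orK (nat_lit 294) (fin (add (start D1344) (orK (nat_lit 274) (fin (add (start D1345) D1354))))))) D870)))) (orK (nat_lit 253) (fin (add (add (add (start (orK (nat_lit 252) (fin (add (start D131) D1270)))) D1377) (orK (nat_lit 252) (fin (add (start D131) (orK (nat_lit 289) (fin (add (start D251) D1381))))))) (orK (nat_lit 289) (fin (add (start D251) (orK (nat_lit 252) (fin (add (start D1270) D1381))))))))))))) (orK (nat_lit 309) (fin (add (start D378) (orK (nat_lit 310) (fin (add (start D379) D489))))))))))))) (orK (nat_lit 209) (fin (add (start D260) (orK (nat_lit 253) (fin (add (add (add (start (orK (nat_lit 252) (fin (add (start D1269) D1270)))) (orK (nat_lit 273) (fin (add (add (add (start (orK (nat_lit 272) D1404)) (orK (nat_lit 272) (fin (add (start D754) D1411)))) D1377) (orK (nat_lit 272) (fin (add (start D823) D1411))))))) (orK (nat_lit 252) (fin (add (start D1269) D1419)))) (orK (nat_lit 252) (fin (add (start D1270) D1419)))))))))))))))) D1459) (orK (nat_lit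 249) (fin (add (add (add (add (start D1474) D1484) D1508) (orK (nat_lit 231) (fin (add (add (start D1509) D1645) (orK (nat_lit 248) (fin (add (start D142) (orK (nat_lit 228) (fin (add (start D141) (orK (nat_lit 208) (fin (add (add (add (start D1648) (orK (nat_lit 209) (fin (add (start D326) (orK (nat_lit 189) (fin (add (start D1649) (orK (nat_lit 169) (fin (add (start (win (nat_lit 1) (nat_lit 8) (nat_lit 7) (nat_lit 0))) D1651)))))))))) D1664) (orK (nat_lit 188) (fin (add (start D413) D1672)))))))))))))))) D1696)))) (orK (nat_lit 269) (fin (add (add (add (add (start D1716) (orK (nat_lit 270) (fin (add (start D104) (orK (nat_lit 252) (fin (add (start D695) (orK (nat_lit 209) (fin (add (start D260) (orK (nat_lit 272) (fin (add (add (add (start D1717) (orK (nat_lit 292) (fin (add (add (add (start D1720) (orK (nat_lit 293) (fin (add (start D1721) (orK (nat_lit 313) (fin (add (start D1722) (orK (nat_lit 333) (fin (add (start (win (nat_lit 6) (nat_lit 12) (nat_lit 12) (nat_lit 3))) D1724)))))))))) D1732) (orK (nat_lit 293) (fin (add (start D1721) (orK (nat_lit 232) (fin (add (start D1521) (orK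 (nat_lit 233) (fin (add (start D1365) D1733))))))))))))) D1749) (orK (nat_lit 232) (fin (add (add (start (orK (nat_lit 233) (fin (add (start D1365) D886)))) (orK (nat_lit 292) (fin (add (add (start D1753) (orK (nat_lit 312) (fin (add (start D311) (orK (nat_lit 331) (fin (add (start D315) (orK (nat_lit 332) (fin (add (start D316) (win (nat_lit 7) (nat_lit 11) (nat_lit 12) (nat_lit 4)))))))))))) D1049)))) (orK (nat_lit 233) (fin (add (start D886) (orK (nat_lit 292) (fin (add (start D1733) D1753)))))))))))))))))))))) D1782) (orK (nat_lit 249) (fin (add (add (add (start D1472) D1482) (orK (nat_lit 248) (fin (add (add (start D145) D1299) (orK (nat_lit 228) (fin (add (start D141) (orK (nat_lit 231) (fin (add (start D143) (orK (nat_lit 268) (fin (add (start D577) (orK (nat_lit 208) (fin (add (start D1646) D1498)))))))))))))))) (orK (nat_lit 289) (fin (add (start D760) (orK (nat_lit 252) (fin (add (add (start D139) D1796) D1800)))))))))) (orK (nat_lit 252) (fin (add (add (add (start (orK (nat_lit 268) (fin (add (start D717) (orK (nat_lit 270) (fin (add (start D272) D695))))))) (orK (nat_lit 253)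 (fin (add (start D1811) D1018)))) (orK (nat_lit 249) (fin (add (start D694) (orK (nat_lit 232) (fin (add (start D570) (orK (nat_lit 248) (fin (add (start D569) D1820)))))))))) (orK (nat_lit 249) D1481)))))))) D1888)
noncomputable def D1890 : OP := orK (nat_lit 251) D1889
noncomputable def D64 : OP := orK (nat_lit 171) D63
noncomputable def D67 : AP := fin (add (add (add (start D46) (orK (nat_lit 250) D55)) D60) (orK (nat_lit 170) (fin (add (start D11) D64))))
noncomputable def D17486 : AP := fin (add (add (add (add (add (add (add (start (orK (nat_lit 190) D67)) (orK (nat_lit 250) (fin (add (add (start D6727) D1890) (orK (nat_lit 189) (fin (add (start D6592) (orK (nat_lit 149) (fin (add (start D42) (orK (nat_lit 129) (fin (add (add (start D10607) D10742) D10750))))))))))))) (orK (nat_lit 149) D15473)) (orK (nat_lit 250) (fin (add (add (add (add (start (orK (nat_lit 190) D55)) D6727) (orK (nat_lit 251) (fin (add (add (add (add (add (add (add (start D1250) (orK (nat_lit 270) (fin (add (add (add (start (orK (nat_lit 269) (fin (add (start D104) (orK (nat_lit 268) (fin (add (start D272) (orK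 (nat_lit 271) (fin (add (start D273) D106)))))))))) D805) D809) D1457)))) D1012) (orK (nat_lit 270) (fin (add (add (start D1260) D1268) D1331)))) D1459) (orK (nat_lit 249) (fin (add (add (add (start D1474) D1484) (orK (nat_lit 248) (fin (add (add (start D145) D1299) (orK (nat_lit 231) (fin (add (start D143) (orK (nat_lit 268) (fin (add (start D577) (orK (nat_lit 228) (fin (add (start D141) (orK (nat_lit 208) (fin (add (add (start (orK (nat_lit 189) (fin (add (start D1651) D1486)))) D1498) (orK (nat_lit 187) (fin (add (start D606) (orK (nat_lit 188) (fin (add (start D596) D605)))))))))))))))))))))) (orK (nat_lit 231) (fin (add (add (start D1509) D1645) (orK (nat_lit 248) (fin (add (start D142) (orK (nat_lit 228) (fin (add (start D141) (orK (nat_lit 208) (fin (add (add (add (start (orK (nat_lit 188) (fin (add (start D596) D413)))) D1664) D1648) (orK (nat_lit 209) (fin (add (start D326) (orK (nat_lit 189) (fin (add (start D1651) D1649)))))))))))))))))))))) (orK (nat_lit 269) (fin (add (add (add (start (orK (nat_lit 252) (fin (add (add (add (start (orK (nat_lit 253) (fin (add (add (add (start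 D1018) D1028) D1126) (orK (nat_lit 233) (fin (add (start D133) (orK (nat_lit 273) (fin (add (start D131) (orK (nat_lit 213) (fin (add (start (orK (nat_lit 272) (fin (add (start D2534) D5327)))) (orK (nat_lit 214) (fin (add (start D832) (orK (nat_lit 232) (fin (add (start D974) D1073))))))))))))))))))) (orK (nat_lit 249) (fin (add (start D694) D1796)))) (orK (nat_lit 249) (fin (add (start D694) D139)))) (orK (nat_lit 249) (fin (add (start D694) D1800))))))) D1716) D1782) (orK (nat_lit 270) (fin (add (start D104) (orK (nat_lit 252) (fin (add (start D695) D4546)))))))))) D1888)))) (orK (nat_lit 189) (fin (add (start D6592) D8033)))) (orK (nat_lit 269) (fin (add (add (add (start (orK (nat_lit 190) (fin (add (start D103) D12)))) (orK (nat_lit 249) D5669)) D4117) (orK (nat_lit 270) (fin (add (start D104) (orK (nat_lit 189) (fin (add (start D6592) D114))))))))))))) (orK (nat_lit 190) (fin (add (add (start D46) D15571) (orK (nat_lit 170) D16218))))) (orK (nat_lit 170) (fin (add (add (add (add (start (orK (nat_lit 190) D16228)) (orK (nat_lit 149) (fin (add (start (win (nat_lit 7) (nat_lit 9) (nat_lit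 7) (nat_lit 2))) (orK (nat_lit 147) D17147))))) (orK (nat_lit 171) D17373)) (orK (nat_lit 171) (fin (add (add (add (start (orK (nat_lit 190) D63)) (orK (nat_lit 152) (fin (add (add (start (orK (nat_lit 168) (fin (add (start D11301) (orK (nat_lit 192) D7667))))) (orK (nat_lit 172) (fin (add (start D11302) D7670)))) (orK (nat_lit 153) (fin (add (start D16050) (orK (nat_lit 151) (fin (add (start D17376) (win (nat_lit 5) (nat_lit 10) (nat_lit 7) (nat_lit 0)))))))))))) (orK (nat_lit 168) (fin (add (add (start (orK (nat_lit 191) (fin (add (start D7684) (orK (nat_lit 190) (fin (add (start D7683) D7819))))))) D7666) (orK (nat_lit 148) (fin (add (start D8583) (orK (nat_lit 187) (fin (add (start D7660) (orK (nat_lit 172) (fin (add (add (add (start D8532) D7654) (orK (nat_lit 190) (fin (add (add (start D62) D7681) (orK (nat_lit 231) (fin (add (start D10) (orK (nat_lit 173) (fin (add (add (add (start D7650) D17339) (orK (nat_lit 233) (fin (add (add (add (start D17399) (orK (nat_lit 194) (fin (add (start D7671) (orK (nat_lit 174) (fin (add (start D7672) (orK (nat_lit 154) (fin (add (start D8222) (orK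 (nat_lit 214) (fin (add (start (win (nat_lit 1) (nat_lit 13) (nat_lit 7) (nat_lit 4))) (orK (nat_lit 234) (fin (add (start (win (nat_lit 1) (nat_lit 13) (nat_lit 8) (nat_lit 5))) (orK (nat_lit 235) (fin (add (start (win (nat_lit 6) (nat_lit 14) (nat_lit 7) (nat_lit 4))) (win (nat_lit 6) (nat_lit 14) (nat_lit 8) (nat_lit 5))))))))))))))))))))) D17429) (orK (nat_lit 193) (fin (add (start D7646) (orK (nat_lit 232) (fin (add (start D919) (orK (nat_lit 213) D15873))))))))))) (orK (nat_lit 152) (fin (add (start D11302) (orK (nat_lit 233) (fin (add (add (start (orK (nat_lit 193) (fin (add (start D7646) D16024)))) D17399) D17429)))))))))))))))) (orK (nat_lit 191) (fin (add (start D7684) (orK (nat_lit 190) (fin (add (start D7819) (orK (nat_lit 153) (fin (add (start D7647) (orK (nat_lit 173) (fin (add (start D7648) D7682))))))))))))))))))))))))) (orK (nat_lit 151) (fin (add (start (win (nat_lit 3) (nat_lit 10) (nat_lit 7) (nat_lit 2))) (orK (nat_lit 152) (fin (add (start D17285) (orK (nat_lit 153) (fin (add (start D16050) D17376))))))))))))) (orK (nat_lit 190) D16218))))) (orK (nat_lit 190) (fin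 (add (add (start D15571) (orK (nat_lit 170) D16228)) (orK (nat_lit 170) (fin (add (start D11) (orK (nat_lit 171) (fin (add (start D9) D8548)))))))))) (orK (nat_lit 190) D7826))
noncomputable def D17487 : OP := orK (nat_lit 169) D17486
noncomputable def D221 : OP := win (nat_lit 5) (nat_lit 9) (nat_lit 8) (nat_lit 0)
noncomputable def D220 : OP := win (nat_lit 4) (nat_lit 8) (nat_lit 8) (nat_lit 3)
noncomputable def D223 : OP := orK (nat_lit 172) (fin (add (start D220) D221))
noncomputable def D219 : OP := win (nat_lit 4) (nat_lit 7) (nat_lit 8) (nat_lit 0)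
noncomputable def D224 : AP := fin (add (start D219) D223)
noncomputable def D218 : OP := win (nat_lit 1) (nat_lit 7) (nat_lit 8) (nat_lit 0)
noncomputable def D217 : OP := win (nat_lit 5) (nat_lit 6) (nat_lit 11) (nat_lit 5)
noncomputable def D216 : OP := win (nat_lit 5) (nat_lit 7) (nat_lit 11) (nat_lit 4)
noncomputable def D215 : OP := win (nat_lit 2) (nat_lit 7) (nat_lit 10) (nat_lit 5)
noncomputable def D214 : OP := win (nat_lit 2) (nat_lit 8) (nat_lit 10) (nat_lit 4)
noncomputable def D206 : OP := win (nat_lit 4) (nat_lit 9) (nat_lit 10) (nat_lit 4)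
noncomputable def D209 : OP := orK (nat_lit 213) (fin (add (start D206) D207))
noncomputable def D204 : OP := win (nat_lit 0) (nat_lit 9) (nat_lit 11) (nat_lit 4)
noncomputable def D213 : OP := orK (nat_lit 253) (fin (add (start D204) (orK (nat_lit 233) (fin (add (start D205) D209)))))
noncomputable def D169 : OP := win (nat_lit 7) (nat_lit 9) (nat_lit 7) (nat_lit 4)
noncomputable def D188 : OP := win (nat_lit 1) (nat_lit 9) (nat_lit 8) (nat_lit 5)
noncomputable def D168 : OP := win (nat_lit 7) (nat_lit 9) (nat_lit 6) (nat_lit 5)
noncomputable def D171 : OP := orK (nat_lit 149) (fin (add (start D168) D169))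
noncomputable def D167 : OP := win (nat_lit 3) (nat_lit 10) (nat_lit 6) (nat_lit 5)
noncomputable def D166 : OP := win (nat_lit 3) (nat_lit 10) (nat_lit 7) (nat_lit 4)
noncomputable def D175 : OP := orK (nat_lit 151) (fin (add (start D166) (orK (nat_lit 150) (fin (add (start D167) D171)))))
noncomputable def D189 : OP := win (nat_lit 1) (nat_lit 9) (nat_lit 7) (nat_lit 4)
noncomputable def D199 : OP := orK (nat_lit 229) (fin (add (start D188) (orK (nat_lit 150) (fin (add (start D189) D171)))))
noncomputable def D191 : OP := orK (nat_lit 151) (fin (add (start D167) D166))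
noncomputable def D193 : OP := orK (nat_lit 150) (fin (add (start D189) D191))
noncomputable def D195 : OP := orK (nat_lit 229) (fin (add (start D188) D193))
noncomputable def D247 : OP := orK (nat_lit 170) (fin (add (add (add (start D195) D199) D175) (orK (nat_lit 229) (fin (add (start D188) (orK (nat_lit 149) (fin (add (start D169) (orK (nat_lit 231) (fin (add (start D10) (orK (nat_lit 171) (fin (add (start D9) (orK (nat_lit 232) (fin (add (start D213) (orK (nat_lit 208) (fin (add (start D214) (orK (nat_lit 228) (fin (add (start D215) (orK (nat_lit 247) (fin (add (start D216) (orK (nat_lit 227) (fin (add (start D217) (orK (nat_lit 188) (fin (add (start D218) (orK (nat_lit 189) D224)))))))))))))))))))))))))))))))))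
noncomputable def D14 : OP := orK (nat_lit 169) (fin (add (start D11) D12))
noncomputable def D21 : AP := fin (add (start D7) (orK (nat_lit 171) (fin (add (start D8) (orK (nat_lit 170) (fin (add (start D9) (orK (nat_lit 231) (fin (add (start D10) D14))))))))))
noncomputable def D140 : OP := win (nat_lit 2) (nat_lit 8) (nat_lit 11) (nat_lit 4)
noncomputable def D149 : OP := orK (nat_lit 228) (fin (add (start D140) (orK (nat_lit 248) (fin (add (start D141) D145)))))
noncomputable def D127 : OP := win (nat_lit 2) (nat_lit 9) (nat_lit 11) (nat_lit 0)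
noncomputable def D126 : OP := win (nat_lit 2) (nat_lit 8) (nat_lit 11) (nat_lit 5)
noncomputable def D128 : AP := fin (add (start D126) D127)
noncomputable def D129 : OP := orK (nat_lit 229) D128
noncomputable def D151 : OP := orK (nat_lit 252) (fin (add (add (start D129) D139) D149))
noncomputable def D31 : OP := win (nat_lit 1) (nat_lit 9) (nat_lit 8) (nat_lit 4)
noncomputable def D23 : OP := win (nat_lit 3) (nat_lit 9) (nat_lit 10) (nat_lit 0)
noncomputable def D1 : OP := win (nat_lit 1) (nat_lit 9) (nat_lit 9) (nat_lit 3)
noncomputable def D0 : OP := win (nat_lit 1) (nat_lit 9) (nat_lit 8) (nat_lit 0)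
noncomputable def D187 : OP := orK (nat_lit 249) (fin (add (add (add (start (orK (nat_lit 229) (fin (add (start D0) (orK (nat_lit 269) (fin (add (start D1) D23))))))) (orK (nat_lit 170) (fin (add (start D31) D175)))) (orK (nat_lit 250) (fin (add (start D7) (orK (nat_lit 191) (fin (add (start D125) (orK (nat_lit 169) (fin (add (start D12) (orK (nat_lit 251) (fin (add (start D48) D151))))))))))))) (orK (nat_lit 250) D21)))
noncomputable def D155 : OP := orK (nat_lit 251) (fin (add (start D48) (orK (nat_lit 249) (fin (add (start D7) D151)))))
noncomputable def D113 : OP := win (nat_lit 7) (nat_lit 9) (nat_lit 8) (nat_lit 5)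
noncomputable def D116 : OP := orK (nat_lit 189) (fin (add (start D113) D114))
noncomputable def D124 : OP := orK (nat_lit 269) (fin (add (start D103) (orK (nat_lit 270) (fin (add (start D104) D116)))))
noncomputable def D120 : OP := orK (nat_lit 271) (fin (add (start D105) (orK (nat_lit 270) (fin (add (start D106) D116)))))
noncomputable def D161 : OP := orK (nat_lit 250) (fin (add (add (add (start D112) D120) D124) (orK (nat_lit 191) (fin (add (start D125) (orK (nat_lit 169) (fin (add (start D12) D155))))))))
noncomputable def D24 : AP := fin (add (start (win (nat_lit 3) (nat_lit 9) (nat_lit 9) (nat_lit 3))) D23)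
noncomputable def D28 : OP := orK (nat_lit 269) D24
noncomputable def D29 : AP := fin (add (start D0) D28)
noncomputable def D30 : OP := orK (nat_lit 229) D29
noncomputable def D27 : OP := orK (nat_lit 269) (fin (add (start D1) (orK (nat_lit 229) D24)))
noncomputable def D92 : OP := orK (nat_lit 171) (fin (add (start D8) (orK (nat_lit 170) (fin (add (start D9) D14)))))
noncomputable def D102 : OP := orK (nat_lit 249) (fin (add (add (add (start (orK (nat_lit 250) (fin (add (start D7) D92)))) D27) D30) (orK (nat_lit 170) (fin (add (start D31) (orK (nat_lit 171) (fin (add (start D9) (orK (nat_lit 250) (fin (add (start D8) D14)))))))))))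
noncomputable def D84 : OP := orK (nat_lit 251) (fin (add (start D47) (orK (nat_lit 250) (fin (add (start D48) D14)))))
noncomputable def D78 : OP := orK (nat_lit 251) (fin (add (start D48) (orK (nat_lit 170) (fin (add (start D47) D14)))))
noncomputable def D88 : OP := orK (nat_lit 249) (fin (add (add (add (start (orK (nat_lit 250) (fin (add (start D7) D78)))) D27) D30) (orK (nat_lit 170) (fin (add (start D31) D84)))))
noncomputable def D74 : OP := orK (nat_lit 249) (fin (add (add (add (start (orK (nat_lit 250) (fin (add (start D7) D54)))) D27) D30) (orK (nat_lit 170) (fin (add (start D31) D64)))))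
noncomputable def D68 : OP := orK (nat_lit 169) D67
noncomputable def D249 : OP := orK (nat_lit 190) (fin (add (add (add (add (add (add (start D68) D74) D88) D102) D161) D187) D247))
noncomputable def D5565 : OP := win (nat_lit 5) (nat_lit 6) (nat_lit 9) (nat_lit 4)
noncomputable def D7716 : OP := orK (nat_lit 206) (fin (add (start D3071) D5565))
noncomputable def D3069 : OP := win (nat_lit 0) (nat_lit 6) (nat_lit 9) (nat_lit 4)
noncomputable def D7718 : OP := orK (nat_lit 186) (fin (add (start D3069) D7716))
noncomputable def D7722 : OP := orK (nat_lit 167) (fin (add (start D5385) (orK (nat_lit 187) (fin (add (start D5386) D7718)))))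
noncomputable def D7537 : OP := win (nat_lit 5) (nat_lit 9) (nat_lit 9) (nat_lit 0)
noncomputable def D7706 : OP := win (nat_lit 5) (nat_lit 8) (nat_lit 9) (nat_lit 5)
noncomputable def D7707 : AP := fin (add (start D7706) D7537)
noncomputable def D7708 : OP := orK (nat_lit 192) D7707
noncomputable def D3396 : OP := win (nat_lit 0) (nat_lit 6) (nat_lit 9) (nat_lit 0)
noncomputable def D5280 : OP := win (nat_lit 4) (nat_lit 10) (nat_lit 8) (nat_lit 5)
noncomputable def D5279 : OP := win (nat_lit 4) (nat_lit 9) (nat_lit 8) (nat_lit 4)
noncomputable def D5281 : AP := fin (add (start D5279) D5280)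
noncomputable def D5282 : OP := orK (nat_lit 173) D5281
noncomputable def D5278 : OP := win (nat_lit 0) (nat_lit 10) (nat_lit 9) (nat_lit 5)
noncomputable def D5283 : AP := fin (add (start D5278) D5282)
noncomputable def D5277 : OP := win (nat_lit 0) (nat_lit 9) (nat_lit 9) (nat_lit 4)
noncomputable def D5285 : AP := fin (add (start D5277) (orK (nat_lit 193) D5283))
noncomputable def D5286 : OP := orK (nat_lit 213) D5285
noncomputable def D7701 : OP := win (nat_lit 5) (nat_lit 8) (nat_lit 9) (nat_lit 4)
noncomputable def D5396 : OP := win (nat_lit 5) (nat_lit 7) (nat_lit 9) (nat_lit 5)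
noncomputable def D7705 : OP := orK (nat_lit 208) (fin (add (start D5396) (orK (nat_lit 192) (fin (add (start D7701) D5286)))))
noncomputable def D5394 : OP := orK (nat_lit 167) (fin (add (start D5385) (orK (nat_lit 187) (fin (add (start D5386) D5390)))))
noncomputable def D7724 : OP := orK (nat_lit 188) (fin (add (add (add (start D5394) D7705) (orK (nat_lit 167) (fin (add (start D5385) (orK (nat_lit 187) (fin (add (start D5386) (orK (nat_lit 209) (fin (add (start D3396) D7708)))))))))) D7722))
noncomputable def D7728 : OP := orK (nat_lit 189) (fin (add (start D113) (orK (nat_lit 191) (fin (add (start D125) D7724)))))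
noncomputable def D7730 : OP := orK (nat_lit 250) (fin (add (start D112) D7728))
noncomputable def D7700 : OP := orK (nat_lit 170) (fin (add (add (start D195) (orK (nat_lit 169) (fin (add (start D11) (orK (nat_lit 171) (fin (add (start D9) (orK (nat_lit 172) (fin (add (add (add (start D7654) D7670) D7681) (orK (nat_lit 153) (fin (add (start D7647) (orK (nat_lit 173) (fin (add (start D7648) (orK (nat_lit 191) (fin (add (start D7682) D7686))))))))))))))))))) D199))
noncomputable def D7734 : OP := orK (nat_lit 190) (fin (add (add (add (add (start D7700) D7730) D88) (orK (nat_lit 170) (fin (add (add (start D64) D175) D84)))) D74))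
noncomputable def D2645 : OP := win (nat_lit 4) (nat_lit 6) (nat_lit 10) (nat_lit 0)
noncomputable def D431 : OP := win (nat_lit 2) (nat_lit 6) (nat_lit 10) (nat_lit 5)
noncomputable def D2880 : OP := win (nat_lit 0) (nat_lit 7) (nat_lit 10) (nat_lit 1)
noncomputable def D2736 : OP := win (nat_lit 5) (nat_lit 7) (nat_lit 12) (nat_lit 2)
noncomputable def D2735 : OP := win (nat_lit 1) (nat_lit 7) (nat_lit 10) (nat_lit 5)
noncomputable def D2738 : OP := orK (nat_lit 267) (fin (add (start D2735) D2736))
noncomputable def D2818 : OP := win (nat_lit 3) (nat_lit 8) (nat_lit 10) (nat_lit 0)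
noncomputable def D2132 : OP := win (nat_lit 5) (nat_lit 7) (nat_lit 11) (nat_lit 5)
noncomputable def D2101 : OP := win (nat_lit 0) (nat_lit 8) (nat_lit 11) (nat_lit 5)
noncomputable def D404 : OP := win (nat_lit 0) (nat_lit 7) (nat_lit 11) (nat_lit 5)
noncomputable def D2646 : AP := fin (add (start D404) D2645)
noncomputable def D2647 : OP := orK (nat_lit 227) D2646
noncomputable def D2707 : OP := win (nat_lit 5) (nat_lit 8) (nat_lit 11) (nat_lit 4)
noncomputable def D2709 : OP := orK (nat_lit 248) (fin (add (start D2132) D2707))
noncomputable def D2863 : OP := win (nat_lit 4) (nat_lit 6) (nat_lit 10) (nat_lit 1)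
noncomputable def D2705 : OP := win (nat_lit 0) (nat_lit 8) (nat_lit 11) (nat_lit 4)
noncomputable def D2706 : OP := win (nat_lit 0) (nat_lit 9) (nat_lit 11) (nat_lit 5)
noncomputable def D201 : OP := win (nat_lit 2) (nat_lit 9) (nat_lit 10) (nat_lit 0)
noncomputable def D2871 : OP := orK (nat_lit 232) (fin (add (start D201) (orK (nat_lit 252) (fin (add (start D2706) (orK (nat_lit 228) (fin (add (start D2705) (orK (nat_lit 226) (fin (add (start D2863) D2709)))))))))))
noncomputable def D2644 : OP := win (nat_lit 2) (nat_lit 8) (nat_lit 10) (nat_lit 0)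
noncomputable def D2862 : OP := orK (nat_lit 208) (fin (add (start D326) D2644))
noncomputable def D2888 : OP := orK (nat_lit 231) (fin (add (add (start D2862) D2871) (orK (nat_lit 228) (fin (add (add (start D2647) (orK (nat_lit 208) (fin (add (start D326) (orK (nat_lit 251) (fin (add (start D2101) (orK (nat_lit 248) (fin (add (start D2132) (orK (nat_lit 268) (fin (add (start D2818) D2738))))))))))))) (orK (nat_lit 207) (fin (add (start D2880) (orK (nat_lit 227) (fin (add (start D431) D2645)))))))))))
noncomputable def D2860 : OP := win (nat_lit 7) (nat_lit 9) (nat_lit 10) (nat_lit 0)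
noncomputable def D2892 : OP := orK (nat_lit 209) (fin (add (start D260) (orK (nat_lit 229) (fin (add (start D2860) D2888)))))
noncomputable def D289 : OP := win (nat_lit 4) (nat_lit 9) (nat_lit 12) (nat_lit 5)
noncomputable def D288 : OP := win (nat_lit 4) (nat_lit 8) (nat_lit 12) (nat_lit 4)
noncomputable def D277 : OP := win (nat_lit 2) (nat_lit 6) (nat_lit 12) (nat_lit 5)
noncomputable def D285 : OP := orK (nat_lit 247) (fin (add (start (win (nat_lit 2) (nat_lit 7) (nat_lit 12) (nat_lit 4))) (orK (nat_lit 267) (fin (add (start D277) D281)))))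
noncomputable def D275 : OP := orK (nat_lit 251) D274
noncomputable def D301 : OP := orK (nat_lit 269) (fin (add (start D104) (orK (nat_lit 271) (fin (add (start D106) (orK (nat_lit 268) (fin (add (add (start D275) D285) (orK (nat_lit 248) (fin (add (start D286) (orK (nat_lit 272) (fin (add (start D287) (orK (nat_lit 252) (fin (add (start D288) D289)))))))))))))))))
noncomputable def D261 : OP := win (nat_lit 7) (nat_lit 9) (nat_lit 10) (nat_lit 4)
noncomputable def D263 : OP := orK (nat_lit 209) (fin (add (start D260) D261))
noncomputable def D271 : OP := orK (nat_lit 289) (fin (add (start D250) (orK (nat_lit 290) (fin (add (start D251) D263)))))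
noncomputable def D264 : AP := fin (add (start D253) D263)
noncomputable def D266 : AP := fin (add (start D252) (orK (nat_lit 290) D264))
noncomputable def D267 : OP := orK (nat_lit 291) D266
noncomputable def D2730 : OP := orK (nat_lit 213) (fin (add (start D206) (orK (nat_lit 233) (fin (add (start D207) D906)))))
noncomputable def D4964 : OP := orK (nat_lit 208) (fin (add (start D215) (orK (nat_lit 232) (fin (add (start D214) D2730)))))
noncomputable def D4966 : OP := orK (nat_lit 231) (fin (add (start D2132) D4964))
noncomputable def D3126 : OP := win (nat_lit 1) (nat_lit 8) (nat_lit 9) (nat_lit 0)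
noncomputable def D3350 : AP := fin (add (start D3126) D2818)
noncomputable def D3353 : OP := orK (nat_lit 268) (fin (add (start D577) (orK (nat_lit 209) D3350)))
noncomputable def D3318 : AP := fin (add (start D23) D1646)
noncomputable def D3319 : OP := orK (nat_lit 269) D3318
noncomputable def D3892 : OP := win (nat_lit 1) (nat_lit 7) (nat_lit 10) (nat_lit 0)
noncomputable def D3577 : OP := win (nat_lit 3) (nat_lit 8) (nat_lit 9) (nat_lit 3)
noncomputable def D2816 : OP := win (nat_lit 1) (nat_lit 8) (nat_lit 8) (nat_lit 0)
noncomputable def D3632 : AP := fin (add (start D2816) D3577)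
noncomputable def D3635 : OP := orK (nat_lit 209) (fin (add (start D2818) (orK (nat_lit 189) D3632)))
noncomputable def D3133 : OP := win (nat_lit 3) (nat_lit 8) (nat_lit 11) (nat_lit 0)
noncomputable def D5088 : AP := fin (add (start D3133) D577)
noncomputable def D3476 : OP := win (nat_lit 3) (nat_lit 8) (nat_lit 10) (nat_lit 5)
noncomputable def D5091 : OP := orK (nat_lit 288) (fin (add (start D3476) (orK (nat_lit 249) D5088)))
noncomputable def D4983 : OP := win (nat_lit 4) (nat_lit 6) (nat_lit 11) (nat_lit 3)
noncomputable def D2971 : OP := win (nat_lit 4) (nat_lit 5) (nat_lit 11) (nat_lit 0)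
noncomputable def D2970 : OP := win (nat_lit 5) (nat_lit 7) (nat_lit 11) (nat_lit 0)
noncomputable def D4987 : OP := orK (nat_lit 247) (fin (add (start D2970) (orK (nat_lit 246) (fin (add (start D2971) D4983)))))
noncomputable def D2016 : OP := win (nat_lit 0) (nat_lit 8) (nat_lit 11) (nat_lit 3)
noncomputable def D2781 : AP := fin (add (start D2016) D127)
noncomputable def D2782 : OP := orK (nat_lit 252) D2781
noncomputable def D1984 : OP := win (nat_lit 2) (nat_lit 8) (nat_lit 11) (nat_lit 3)
noncomputable def D2127 : AP := fin (add (start D1984) D127)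
noncomputable def D2128 : OP := orK (nat_lit 252) D2127
noncomputable def D2688 : OP := win (nat_lit 5) (nat_lit 6) (nat_lit 11) (nat_lit 4)
noncomputable def D2687 : OP := win (nat_lit 5) (nat_lit 5) (nat_lit 11) (nat_lit 5)
noncomputable def D2690 : OP := orK (nat_lit 246) (fin (add (start D2687) D2688))
noncomputable def D2787 : OP := win (nat_lit 4) (nat_lit 6) (nat_lit 10) (nat_lit 4)
noncomputable def D2801 : OP := orK (nat_lit 226) (fin (add (start D2787) D2690))
noncomputable def D2797 : OP := orK (nat_lit 247) (fin (add (start D217) D216))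
noncomputable def D432 : OP := win (nat_lit 2) (nat_lit 7) (nat_lit 10) (nat_lit 4)
noncomputable def D2682 : OP := win (nat_lit 2) (nat_lit 6) (nat_lit 10) (nat_lit 4)
noncomputable def D2681 : OP := win (nat_lit 2) (nat_lit 5) (nat_lit 10) (nat_lit 5)
noncomputable def D2684 : OP := orK (nat_lit 206) (fin (add (start D2681) D2682))
noncomputable def D2803 : OP := orK (nat_lit 227) (fin (add (add (start (orK (nat_lit 226) (fin (add (start D2787) D2684)))) (orK (nat_lit 231) (fin (add (start (orK (nat_lit 207) (fin (add (start D431) D432)))) D2797)))) D2801))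
noncomputable def D2022 : AP := fin (add (start D2016) D1984)
noncomputable def D1983 : OP := win (nat_lit 0) (nat_lit 7) (nat_lit 11) (nat_lit 0)
noncomputable def D2679 : OP := orK (nat_lit 251) (fin (add (start D1983) (orK (nat_lit 252) D2022)))
noncomputable def D2680 : OP := win (nat_lit 0) (nat_lit 6) (nat_lit 11) (nat_lit 4)
noncomputable def D2789 : OP := orK (nat_lit 226) (fin (add (start D2680) D2787))
noncomputable def D2791 : OP := orK (nat_lit 227) (fin (add (start D404) D2789))
noncomputable def D2640 : OP := win (nat_lit 0) (nat_lit 6) (nat_lit 10) (nat_lit 0)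
noncomputable def D2672 : OP := orK (nat_lit 207) (fin (add (start D2640) (orK (nat_lit 227) (fin (add (start D2659) (orK (nat_lit 228) (fin (add (start D404) (orK (nat_lit 187) (fin (add (start D2660) (orK (nat_lit 167) D2663))))))))))))
noncomputable def D3009 : OP := win (nat_lit 1) (nat_lit 7) (nat_lit 9) (nat_lit 5)
noncomputable def D3398 : OP := orK (nat_lit 187) (fin (add (start D3396) D605))
noncomputable def D4281 : OP := win (nat_lit 7) (nat_lit 8) (nat_lit 8) (nat_lit 0)
noncomputable def D3387 : OP := win (nat_lit 6) (nat_lit 8) (nat_lit 7) (nat_lit 0)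
noncomputable def D2643 : OP := win (nat_lit 6) (nat_lit 9) (nat_lit 8) (nat_lit 0)
noncomputable def D2641 : AP := fin (add (start D2640) D1955)
noncomputable def D2642 : OP := orK (nat_lit 207) D2641
noncomputable def D2648 : AP := fin (add (start D1983) D2101)
noncomputable def D2649 : OP := orK (nat_lit 251) D2648
noncomputable def D4396 : OP := win (nat_lit 7) (nat_lit 8) (nat_lit 9) (nat_lit 1)
noncomputable def D4426 : OP := orK (nat_lit 188) (fin (add (start D4396) (orK (nat_lit 168) (fin (add (start D3387) (orK (nat_lit 228) (fin (add (start (orK (nat_lit 248) (fin (add (start D2132) D1668)))) D2649))))))))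
noncomputable def D4430 : OP := orK (nat_lit 231) (fin (add (add (start D2862) D2871) (orK (nat_lit 208) (fin (add (start D326) D4426)))))
noncomputable def D4131 : OP := orK (nat_lit 189) (fin (add (start D2643) D1649))
noncomputable def D3273 : OP := win (nat_lit 7) (nat_lit 8) (nat_lit 8) (nat_lit 5)
noncomputable def D3274 : OP := win (nat_lit 7) (nat_lit 8) (nat_lit 9) (nat_lit 4)
noncomputable def D407 : OP := win (nat_lit 4) (nat_lit 6) (nat_lit 11) (nat_lit 0)
noncomputable def D410 : OP := orK (nat_lit 247) (fin (add (start D407) D408))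
noncomputable def D3374 : OP := win (nat_lit 1) (nat_lit 8) (nat_lit 9) (nat_lit 5)
noncomputable def D3531 : OP := orK (nat_lit 189) (fin (add (start D3374) D2643))
noncomputable def D3155 : OP := win (nat_lit 7) (nat_lit 8) (nat_lit 9) (nat_lit 5)
noncomputable def D3376 : OP := orK (nat_lit 269) (fin (add (start D23) D3155))
noncomputable def D4811 : OP := orK (nat_lit 249) (fin (add (add (start (orK (nat_lit 208) (fin (add (start D2642) D3376)))) (orK (nat_lit 248) (fin (add (start D3531) D410)))) (orK (nat_lit 188) (fin (add (start (orK (nat_lit 269) (fin (add (start D23) D3274)))) (orK (nat_lit 189) (fin (add (start D2643) D3273))))))))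
noncomputable def D433 : OP := win (nat_lit 4) (nat_lit 7) (nat_lit 11) (nat_lit 1)
noncomputable def D3127 : OP := win (nat_lit 1) (nat_lit 8) (nat_lit 10) (nat_lit 5)
noncomputable def D4411 : OP := orK (nat_lit 208) (fin (add (add (start D2642) (orK (nat_lit 231) (fin (add (start D2644) (orK (nat_lit 249) (fin (add (start D3155) (orK (nat_lit 268) (fin (add (start D3127) (orK (nat_lit 267) (fin (add (start D358) (orK (nat_lit 247) (fin (add (start D277) D433)))))))))))))))) (orK (nat_lit 207) (fin (add (start D2640) (orK (nat_lit 227) (fin (add (start D2659) (orK (nat_lit 188) (fin (add (start D4396) (orK (nat_lit 168) (fin (add (start D4397) (orK (nat_lit 247) (fin (add (start (win (nat_lit 1) (nat_lit 7) (nat_lit 8) (nat_lit 3))) D4399)))))))))))))))))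
noncomputable def D2650 : OP := win (nat_lit 3) (nat_lit 8) (nat_lit 9) (nat_lit 0)
noncomputable def D2656 : OP := orK (nat_lit 231) (fin (add (start D2644) (orK (nat_lit 228) (fin (add (start D2647) (orK (nat_lit 248) (fin (add (start D2650) D2132))))))))
noncomputable def D2674 : OP := orK (nat_lit 208) (fin (add (add (start D2642) (orK (nat_lit 189) (fin (add (start D2643) D2656)))) D2672))
noncomputable def D4067 : OP := orK (nat_lit 227) (fin (add (start D2645) D2797))
noncomputable def D4071 : OP := orK (nat_lit 231) (fin (add (start D2862) (orK (nat_lit 228) (fin (add (add (start D2647) (orK (nat_lit 251) (fin (add (start D2101) (orK (nat_lit 268) (fin (add (start D272) (orK (nat_lit 248) (fin (add (start D2818) D2132)))))))))) D4067)))))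
noncomputable def D2988 : OP := orK (nat_lit 187) (fin (add (start D2983) (orK (nat_lit 167) (fin (add (start D2661) D2984)))))
noncomputable def D2693 : OP := win (nat_lit 2) (nat_lit 7) (nat_lit 10) (nat_lit 0)
noncomputable def D3599 : OP := orK (nat_lit 207) (fin (add (start D2693) D2988))
noncomputable def D3705 : OP := win (nat_lit 1) (nat_lit 7) (nat_lit 9) (nat_lit 4)
noncomputable def D3385 : OP := win (nat_lit 6) (nat_lit 8) (nat_lit 10) (nat_lit 5)
noncomputable def D4078 : OP := win (nat_lit 4) (nat_lit 7) (nat_lit 12) (nat_lit 3)
noncomputable def D5025 : AP := fin (add (start D215) D2132)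
noncomputable def D3866 : AP := fin (add (start D1700) (orK (nat_lit 309) (fin (add (start (win (nat_lit 6) (nat_lit 8) (nat_lit 11) (nat_lit 3))) (win (nat_lit 7) (nat_lit 8) (nat_lit 12) (nat_lit 0))))))
noncomputable def D4989 : OP := orK (nat_lit 268) D3866
noncomputable def D3639 : OP := win (nat_lit 3) (nat_lit 9) (nat_lit 10) (nat_lit 2)
noncomputable def D4992 : AP := fin (add (start D3639) D4989)
noncomputable def D2744 : OP := win (nat_lit 3) (nat_lit 8) (nat_lit 11) (nat_lit 4)
noncomputable def D2824 : OP := win (nat_lit 1) (nat_lit 7) (nat_lit 12) (nat_lit 5)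
noncomputable def D3794 : OP := win (nat_lit 1) (nat_lit 7) (nat_lit 11) (nat_lit 4)
noncomputable def D5017 : OP := orK (nat_lit 307) (fin (add (start D3794) (orK (nat_lit 308) (fin (add (start D2824) D2744)))))
noncomputable def D2996 : OP := win (nat_lit 6) (nat_lit 8) (nat_lit 11) (nat_lit 5)
noncomputable def D2994 : OP := win (nat_lit 1) (nat_lit 7) (nat_lit 11) (nat_lit 5)
noncomputable def D3902 : OP := orK (nat_lit 288) (fin (add (start D2996) (orK (nat_lit 287) (fin (add (start D2994) (orK (nat_lit 267) (fin (add (start D3892) (orK (nat_lit 266) (fin (add (start (win (nat_lit 0) (nat_lit 5) (nat_lit 13) (nat_lit 0))) (win (nat_lit 2) (nat_lit 6) (nat_lit 13) (nat_lit 0)))))))))))))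
noncomputable def D4990 : AP := fin (add (start D759) D4989)
noncomputable def D4929 : AP := fin (add (start D759) D3639)
noncomputable def D4930 : OP := orK (nat_lit 269) D4929
noncomputable def D4947 : OP := orK (nat_lit 207) (fin (add (start D2693) D591))
noncomputable def D4949 : OP := orK (nat_lit 208) (fin (add (start D2735) D4947))
noncomputable def D4231 : OP := orK (nat_lit 249) (fin (add (start D143) D1646))
noncomputable def D3386 : OP := win (nat_lit 6) (nat_lit 8) (nat_lit 9) (nat_lit 4)
noncomputable def D4155 : OP := orK (nat_lit 188) (fin (add (start D3386) D1672))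
noncomputable def D2783 : AP := fin (add (start D1983) D2782)
noncomputable def D3347 : OP := orK (nat_lit 228) D2783
noncomputable def D2129 : AP := fin (add (start D1983) D2128)
noncomputable def D2130 : OP := orK (nat_lit 228) D2129
noncomputable def D3342 : OP := orK (nat_lit 269) (fin (add (start D23) D694))
noncomputable def D4928 : OP := orK (nat_lit 252) (fin (add (start D127) (orK (nat_lit 249) (fin (add (start D3342) (orK (nat_lit 272) (fin (add (start D698) (orK (nat_lit 248) (fin (add (start D699) D410)))))))))))
noncomputable def D4958 : OP := orK (nat_lit 268) (fin (add (start D577) (orK (nat_lit 288) (fin (add (start D3476) D3133)))))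
noncomputable def D3132 : OP := win (nat_lit 3) (nat_lit 9) (nat_lit 10) (nat_lit 1)
noncomputable def D381 : OP := win (nat_lit 7) (nat_lit 9) (nat_lit 11) (nat_lit 4)
noncomputable def D4936 : OP := orK (nat_lit 310) (fin (add (start D452) D381))
noncomputable def D380 : OP := win (nat_lit 7) (nat_lit 9) (nat_lit 10) (nat_lit 5)
noncomputable def D4940 : AP := fin (add (start D4939) D407)
noncomputable def D4951 : OP := orK (nat_lit 267) (fin (add (start D2736) D4949))
noncomputable def D4932 : OP := orK (nat_lit 290) (fin (add (start D251) D380))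
noncomputable def D4933 : AP := fin (add (start D250) D4932)
noncomputable def D4172 : OP := win (nat_lit 1) (nat_lit 8) (nat_lit 10) (nat_lit 2)
noncomputable def D4175 : OP := orK (nat_lit 288) (fin (add (start D4172) (win (nat_lit 3) (nat_lit 8) (nat_lit 10) (nat_lit 2))))
noncomputable def D4177 : OP := orK (nat_lit 268) (fin (add (start D272) D4175))
noncomputable def D4530 : OP := orK (nat_lit 268) (fin (add (start D272) D716))
noncomputable def D4896 : OP := orK (nat_lit 252) (fin (add (start D127) D4530))
noncomputable def D4866 : AP := fin (add (start D260) D2860)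
noncomputable def D4867 : OP := orK (nat_lit 209) D4866
noncomputable def D361 : OP := orK (nat_lit 267) (fin (add (start D358) D359))
noncomputable def D4139 : OP := orK (nat_lit 208) (fin (add (start D2642) (orK (nat_lit 249) (fin (add (start D3155) (orK (nat_lit 268) (fin (add (start D3127) D361))))))))
noncomputable def D454 : OP := win (nat_lit 1) (nat_lit 9) (nat_lit 13) (nat_lit 4)
noncomputable def D5114 : AP := fin (add (add (add (add (add (add (add (add (add (start (orK (nat_lit 209) (fin (add (start D4131) D2888)))) (orK (nat_lit 270) (fin (add (add (start D4867) (orK (nat_lit 289) (fin (add (start D250) (orK (nat_lit 290) (fin (add (start D251) (orK (nat_lit 310) (fin (add (start D381) (orK (nat_lit 251) (fin (add (start D452) (orK (nat_lit 330) (fin (add (start D453) (orK (nat_lit 349) (fin (add (start D454) (orK (nat_lit 350) (fin (add (start (win (nat_lit 1) (nat_lit 9) (nat_lit 14) (nat_lit 5))) D458)))))))))))))))))))))) (orK (nat_lit 209) (fin (add (start D260) (orK (nat_lit 269) (fin (add (start D104) D4139)))))))))) (orK (nat_lit 270) (fin (add (add (start D4867) (orK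 (nat_lit 251) (fin (add (add (start D2130) (orK (nat_lit 289) (fin (add (start D250) (orK (nat_lit 290) (fin (add (start D251) (orK (nat_lit 310) (fin (add (start D381) D482)))))))))) (orK (nat_lit 269) (fin (add (start D104) D4896))))))) (orK (nat_lit 269) (fin (add (start D104) (orK (nat_lit 251) (fin (add (add (start D2130) D4896) (orK (nat_lit 209) (fin (add (start D260) (orK (nat_lit 228) (fin (add (start D1983) D4177)))))))))))))))) (orK (nat_lit 209) (fin (add (add (start D4131) (orK (nat_lit 208) (fin (add (add (start D2642) (orK (nat_lit 270) (fin (add (start D2860) (orK (nat_lit 231) (fin (add (start D2644) (orK (nat_lit 269) (fin (add (start D104) D4426)))))))))) D2672)))) D4811)))) (orK (nat_lit 251) (fin (add (add (add (start D4928) D2130) D3347) (orK (nat_lit 228) (fin (add (start D1983) (orK (nat_lit 289) (fin (add (add (add (start D4930) (orK (nat_lit 270) D4933)) (orK (nat_lit 270) (fin (add (add (add (start D4932) (orK (nat_lit 290) (fin (add (start D251) D4936)))) (orK (nat_lit 248) (fin (add (add (add (start (orK (nat_lit 247) (fin (add (start D2970) (orK (nat_lit 249)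 D4940))))) (orK (nat_lit 268) (fin (add (start (orK (nat_lit 288) (fin (add (start D3476) D2996)))) D4951)))) (orK (nat_lit 249) (fin (add (start (orK (nat_lit 247) D4940)) D4958)))) D4966)))) (orK (nat_lit 290) (fin (add (start D380) D4936))))))) (orK (nat_lit 249) (fin (add (start D3132) (orK (nat_lit 248) (fin (add (start D410) D4958)))))))))))))))) (orK (nat_lit 251) (fin (add (add (add (start D4928) D2130) D3347) (orK (nat_lit 228) (fin (add (start D1983) (orK (nat_lit 248) (fin (add (add (add (start D4987) (orK (nat_lit 269) (fin (add (add (add (start (orK (nat_lit 289) D4929)) (orK (nat_lit 289) D4990)) (orK (nat_lit 289) D4992)) (orK (nat_lit 268) (fin (add (add (start (orK (nat_lit 267) (fin (add (start D4078) D2736)))) (orK (nat_lit 208) (fin (add (add (start D4947) D4155) (orK (nat_lit 231) (fin (add (start D215) D4231))))))) (orK (nat_lit 267) (fin (add (start D4078) D4949)))))))))) (orK (nat_lit 289) (fin (add (add (add (start D4930) (orK (nat_lit 269) D4990)) (orK (nat_lit 268) (fin (add (add (start (orK (nat_lit 249) (fin (add (start D577) (orK (nat_lit 271) (fin (add (start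 D741) (orK (nat_lit 247) (fin (add (start (win (nat_lit 0) (nat_lit 7) (nat_lit 12) (nat_lit 4))) D407)))))))))) D3902) (orK (nat_lit 288) (fin (add (start D2996) D5017))))))) (orK (nat_lit 269) D4992))))) (orK (nat_lit 208) (fin (add (add (start (orK (nat_lit 231) D5025)) (orK (nat_lit 267) (fin (add (start (orK (nat_lit 268) (fin (add (start D2735) (orK (nat_lit 269) (fin (add (start D4078) D3385))))))) (orK (nat_lit 188) (fin (add (start D3705) D1672))))))) D3599))))))))))))) (orK (nat_lit 209) (fin (add (add (start D4131) (orK (nat_lit 270) (fin (add (start D2860) (orK (nat_lit 269) (fin (add (start D104) D4071))))))) D2674)))) (orK (nat_lit 209) (fin (add (add (start D4131) (orK (nat_lit 270) (fin (add (start D2860) (orK (nat_lit 269) (fin (add (start D104) D4411))))))) D4811)))) (orK (nat_lit 209) (fin (add (add (start D4131) (orK (nat_lit 270) (fin (add (start D2860) (orK (nat_lit 269) (fin (add (start D104) D4430))))))) (orK (nat_lit 208) (fin (add (add (start D2642) (orK (nat_lit 189) (fin (add (start D2643) (orK (nat_lit 188) (fin (add (start (orK (nat_lit 168) (fin (add (start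 D3387) D4281)))) (orK (nat_lit 228) (fin (add (start D2647) (orK (nat_lit 248) (fin (add (start D3398) (orK (nat_lit 247) (fin (add (start D3009) D2970)))))))))))))))) D2672))))))) (orK (nat_lit 228) (fin (add (add (add (start D2791) D2679) D2803) (orK (nat_lit 251) (fin (add (add (start D2128) D2782) (orK (nat_lit 248) (fin (add (add (add (start D4987) (orK (nat_lit 268) (fin (add (add (start D5091) D3635) (orK (nat_lit 267) (fin (add (start D2736) (orK (nat_lit 287) (fin (add (start D3892) (orK (nat_lit 307) (fin (add (start (win (nat_lit 3) (nat_lit 7) (nat_lit 11) (nat_lit 3))) (win (nat_lit 3) (nat_lit 7) (nat_lit 12) (nat_lit 0))))))))))))))) (orK (nat_lit 249) (fin (add (start (orK (nat_lit 208) (fin (add (start (orK (nat_lit 231) (fin (add (start D215) D143)))) D3319)))) D3353)))) D4966))))))))))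
noncomputable def D2839 : OP := win (nat_lit 6) (nat_lit 8) (nat_lit 8) (nat_lit 5)
noncomputable def D3400 : OP := orK (nat_lit 168) (fin (add (start D3387) D2839))
noncomputable def D3276 : OP := orK (nat_lit 188) (fin (add (start D3273) D3274))
noncomputable def D3129 : OP := orK (nat_lit 269) (fin (add (start D3127) D23))
noncomputable def D3542 : OP := win (nat_lit 1) (nat_lit 8) (nat_lit 9) (nat_lit 4)
noncomputable def D4256 : OP := orK (nat_lit 228) D2646
noncomputable def D4348 : OP := orK (nat_lit 188) (fin (add (start D3396) (orK (nat_lit 168) (fin (add (start D4281) (orK (nat_lit 148) (fin (add (start D4341) (win (nat_lit 3) (nat_lit 7) (nat_lit 7) (nat_lit 3))))))))))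
noncomputable def D4315 : OP := orK (nat_lit 147) (fin (add (start D4295) D4301))
noncomputable def D4307 : OP := orK (nat_lit 246) (fin (add (start D4304) D4305))
noncomputable def D4297 : OP := orK (nat_lit 147) D4296
noncomputable def D4340 : OP := orK (nat_lit 167) (fin (add (add (start D4297) (orK (nat_lit 247) (fin (add (start D4307) D4336)))) D4315))
noncomputable def D4311 : OP := orK (nat_lit 168) (fin (add (start D4308) D4309))
noncomputable def D4317 : OP := orK (nat_lit 167) (fin (add (add (start (orK (nat_lit 147) D4302)) (orK (nat_lit 247) (fin (add (start D4307) D4311)))) D4315))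
noncomputable def D4318 : OP := win (nat_lit 0) (nat_lit 6) (nat_lit 9) (nat_lit 2)
noncomputable def D4814 : AP := fin (add (start D404) D431)
noncomputable def D3303 : OP := win (nat_lit 1) (nat_lit 11) (nat_lit 8) (nat_lit 0)
noncomputable def D3302 : OP := win (nat_lit 4) (nat_lit 9) (nat_lit 10) (nat_lit 5)
noncomputable def D3301 : OP := win (nat_lit 0) (nat_lit 8) (nat_lit 11) (nat_lit 0)
noncomputable def D3308 : AP := fin (add (start D3301) (orK (nat_lit 212) (fin (add (start D3302) (orK (nat_lit 192) (fin (add (start D3303) D1091)))))))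
noncomputable def D3311 : OP := orK (nat_lit 252) (fin (add (start D2706) (orK (nat_lit 251) D3308)))
noncomputable def D2817 : OP := win (nat_lit 1) (nat_lit 8) (nat_lit 9) (nat_lit 3)
noncomputable def D2820 : OP := orK (nat_lit 268) (fin (add (start D2817) D2818))
noncomputable def D2821 : AP := fin (add (start D2816) D2820)
noncomputable def D4187 : OP := orK (nat_lit 252) (fin (add (start D2705) (orK (nat_lit 232) (fin (add (start D2706) D201)))))
noncomputable def D4202 : OP := orK (nat_lit 228) (fin (add (add (start D2647) (orK (nat_lit 189) (fin (add (start D2643) (orK (nat_lit 248) (fin (add (start D2820) (orK (nat_lit 231) (fin (add (start D2132) D4187)))))))))) (orK (nat_lit 227) (fin (add (start D2645) (orK (nat_lit 247) (fin (add (start D217) (orK (nat_lit 248) (fin (add (start D2970) (orK (nat_lit 189) D2821))))))))))))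
noncomputable def D4757 : OP := win (nat_lit 0) (nat_lit 6) (nat_lit 10) (nat_lit 4)
noncomputable def D4660 : AP := fin (add (start D286) (orK (nat_lit 287) (fin (add (start D279) (orK (nat_lit 267) (fin (add (start (win (nat_lit 1) (nat_lit 7) (nat_lit 10) (nat_lit 1))) D278)))))))
noncomputable def D4661 : OP := orK (nat_lit 268) D4660
noncomputable def D1921 : OP := win (nat_lit 6) (nat_lit 12) (nat_lit 10) (nat_lit 0)
noncomputable def D4721 : OP := orK (nat_lit 272) (fin (add (start (orK (nat_lit 293) (fin (add (start D1436) (orK (nat_lit 273) (fin (add (start D824) (orK (nat_lit 252) (fin (add (start D289) D1921)))))))))) (orK (nat_lit 248) (fin (add (start D287) D4661)))))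
noncomputable def D1948 : OP := orK (nat_lit 253) (fin (add (start (win (nat_lit 4) (nat_lit 9) (nat_lit 12) (nat_lit 4))) D823))
noncomputable def D1952 : OP := orK (nat_lit 293) (fin (add (start D1436) (orK (nat_lit 273) (fin (add (start D824) D1948)))))
noncomputable def D4617 : OP := orK (nat_lit 272) (fin (add (add (add (start D1952) (orK (nat_lit 252) (fin (add (start D289) (orK (nat_lit 268) (fin (add (start D288) D285))))))) D1440) (orK (nat_lit 293) (fin (add (start D1436) (orK (nat_lit 273) (fin (add (start D824) (orK (nat_lit 251) (fin (add (start D754) D1334)))))))))))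
noncomputable def D1902 : OP := win (nat_lit 2) (nat_lit 9) (nat_lit 12) (nat_lit 5)
noncomputable def D1893 : OP := win (nat_lit 4) (nat_lit 6) (nat_lit 12) (nat_lit 4)
noncomputable def D1892 : OP := win (nat_lit 2) (nat_lit 5) (nat_lit 12) (nat_lit 5)
noncomputable def D1912 : OP := orK (nat_lit 268) (fin (add (add (start D275) (orK (nat_lit 287) (fin (add (start D279) (orK (nat_lit 267) (fin (add (start D278) (orK (nat_lit 246) (fin (add (start (win (nat_lit 2) (nat_lit 6) (nat_lit 12) (nat_lit 4))) (orK (nat_lit 266) (fin (add (start D1892) D1893))))))))))))) (orK (nat_lit 252) (fin (add (start D288) (orK (nat_lit 272) (fin (add (start D289) (orK (nat_lit 293) (fin (add (start D1436) (orK (nat_lit 273) (fin (add (start D824) D1902))))))))))))))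
noncomputable def D2131 : OP := win (nat_lit 4) (nat_lit 8) (nat_lit 11) (nat_lit 1)
noncomputable def D325 : OP := win (nat_lit 7) (nat_lit 11) (nat_lit 11) (nat_lit 4)
noncomputable def D306 : OP := win (nat_lit 2) (nat_lit 8) (nat_lit 12) (nat_lit 5)
noncomputable def D307 : OP := win (nat_lit 2) (nat_lit 9) (nat_lit 12) (nat_lit 0)
noncomputable def D308 : AP := fin (add (start D306) D307)
noncomputable def D309 : OP := orK (nat_lit 249) D308
noncomputable def D660 : OP := win (nat_lit 4) (nat_lit 8) (nat_lit 11) (nat_lit 0)
noncomputable def D4648 : OP := orK (nat_lit 291) (fin (add (start D732) (win (nat_lit 7) (nat_lit 10) (nat_lit 10) (nat_lit 2))))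
noncomputable def D4652 : OP := orK (nat_lit 188) (fin (add (start (win (nat_lit 6) (nat_lit 8) (nat_lit 9) (nat_lit 2))) (win (nat_lit 7) (nat_lit 8) (nat_lit 9) (nat_lit 2))))
noncomputable def D4557 : OP := win (nat_lit 0) (nat_lit 8) (nat_lit 12) (nat_lit 3)
noncomputable def D3340 : OP := orK (nat_lit 272) (fin (add (start D699) D698))
noncomputable def D327 : OP := win (nat_lit 2) (nat_lit 8) (nat_lit 10) (nat_lit 3)
noncomputable def D329 : OP := orK (nat_lit 232) (fin (add (start D327) D201))
noncomputable def D4633 : OP := win (nat_lit 6) (nat_lit 8) (nat_lit 10) (nat_lit 3)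
noncomputable def D4634 : AP := fin (add (start D1646) D4633)
noncomputable def D4622 : OP := win (nat_lit 2) (nat_lit 8) (nat_lit 10) (nat_lit 1)
noncomputable def D3188 : OP := win (nat_lit 3) (nat_lit 9) (nat_lit 10) (nat_lit 3)
noncomputable def D3189 : AP := fin (add (start D3188) D760)
noncomputable def D3190 : OP := orK (nat_lit 289) D3189
noncomputable def D4058 : AP := fin (add (start D759) (orK (nat_lit 249) D3189))
noncomputable def D4059 : OP := orK (nat_lit 289) D4058
noncomputable def D4795 : AP := fin (add (add (start D4605) (orK (nat_lit 269) (fin (add (add (add (start D4059) (orK (nat_lit 270) (fin (add (start D104) (orK (nat_lit 271) (fin (add (start D106) D4617))))))) (orK (nat_lit 249) (fin (add (add (start D3190) (orK (nat_lit 229) (fin (add (start D3155) (orK (nat_lit 268) (fin (add (start D3127) (orK (nat_lit 232) (fin (add (start D4622) (orK (nat_lit 267) (fin (add (start D358) (orK (nat_lit 251) (fin (add (start D1468) D779)))))))))))))))) (orK (nat_lit 289) (fin (add (start D760) (orK (nat_lit 248) (fin (add (start (orK (nat_lit 228) D4634)) (orK (nat_lit 231)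 (fin (add (start D142) (orK (nat_lit 232) (fin (add (start D201) D543)))))))))))))))) (orK (nat_lit 231) (fin (add (add (start D329) (orK (nat_lit 271) (fin (add (add (add (start D4648) (orK (nat_lit 270) (fin (add (start D106) (orK (nat_lit 248) (fin (add (add (start D1435) (orK (nat_lit 249) (fin (add (start D351) D4652)))) D4661))))))) (orK (nat_lit 251) (fin (add (start D1834) (orK (nat_lit 252) (fin (add (add (start (orK (nat_lit 229) (fin (add (start D3301) D127)))) (orK (nat_lit 253) (fin (add (start D1511) (orK (nat_lit 273) (fin (add (start D131) (orK (nat_lit 249) (fin (add (start D130) (orK (nat_lit 248) (fin (add (start D142) D580))))))))))))) (orK (nat_lit 249) (fin (add (start (orK (nat_lit 229) (fin (add (start D3301) (orK (nat_lit 269) (fin (add (start D694) D3155))))))) (orK (nat_lit 248) (fin (add (start D142) D3340))))))))))))) (orK (nat_lit 249) (fin (add (add (start (orK (nat_lit 248) (fin (add (start D142) (orK (nat_lit 272) (fin (add (start D4557) (win (nat_lit 2) (nat_lit 8) (nat_lit 12) (nat_lit 2))))))))) (orK (nat_lit 229) (fin (add (start D3155) (orK (nat_lit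 268) (fin (add (start D3127) (orK (nat_lit 267) (fin (add (start D358) (orK (nat_lit 251) (fin (add (start D4078) D779))))))))))))) (orK (nat_lit 248) (fin (add (start D142) D4652)))))))))) (orK (nat_lit 232) (fin (add (start D201) (orK (nat_lit 271) (fin (add (add (add (start D4648) (orK (nat_lit 270) (fin (add (start D106) D4721)))) (orK (nat_lit 251) (fin (add (start D1834) (orK (nat_lit 249) (fin (add (start D660) (orK (nat_lit 252) (fin (add (start D694) D1515)))))))))) (orK (nat_lit 270) (fin (add (add (add (add (add (start (orK (nat_lit 272) (fin (add (add (start D309) D1952) (orK (nat_lit 249) (fin (add (start D306) (orK (nat_lit 252) (fin (add (start D289) (orK (nat_lit 292) (fin (add (start D310) (orK (nat_lit 312) (fin (add (start D325) D324)))))))))))))))) (orK (nat_lit 268) (fin (add (add (start D275) (orK (nat_lit 248) D4660)) (orK (nat_lit 248) (fin (add (start D286) (orK (nat_lit 251) (fin (add (start D2131) D273)))))))))) D1912) D4617) D4721) D1448)))))))))))))))) (orK (nat_lit 207) (fin (add (add (start (orK (nat_lit 206) (fin (add (start D4757) D4759)))) (orK (nat_lit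 206) (fin (add (start D4757) D4599)))) (orK (nat_lit 187) (fin (add (start D2660) (orK (nat_lit 227) (fin (add (start D2659) (orK (nat_lit 167) (fin (add (add (start (orK (nat_lit 247) (fin (add (start D4311) D4780)))) (orK (nat_lit 147) (fin (add (start D4769) D4301)))) D4315)))))))))))))
noncomputable def D4587 : OP := win (nat_lit 6) (nat_lit 9) (nat_lit 7) (nat_lit 0)
noncomputable def D4591 : AP := fin (add (start D1649) (orK (nat_lit 169) (fin (add (start D4587) (win (nat_lit 6) (nat_lit 9) (nat_lit 8) (nat_lit 3))))))
noncomputable def D1956 : AP := fin (add (start D1955) D591)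
noncomputable def D1954 : OP := win (nat_lit 7) (nat_lit 7) (nat_lit 10) (nat_lit 4)
noncomputable def D1953 : OP := win (nat_lit 3) (nat_lit 8) (nat_lit 10) (nat_lit 4)
noncomputable def D355 : OP := win (nat_lit 5) (nat_lit 7) (nat_lit 13) (nat_lit 5)
noncomputable def D1967 : OP := orK (nat_lit 248) (fin (add (start D287) (orK (nat_lit 268) (fin (add (start D286) (orK (nat_lit 288) (fin (add (start D355) (orK (nat_lit 228) (fin (add (start D1953) (orK (nat_lit 207) (fin (add (start D1954) (orK (nat_lit 208) D1956)))))))))))))))
noncomputable def D331 : OP := orK (nat_lit 208) (fin (add (start D326) D329))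
noncomputable def D339 : OP := orK (nat_lit 252) (fin (add (start D289) (orK (nat_lit 292) (fin (add (start D310) (orK (nat_lit 312) (fin (add (start D324) (orK (nat_lit 231) (fin (add (start D325) D331)))))))))))
noncomputable def D1030 : OP := orK (nat_lit 253) (fin (add (add (start D1018) D1022) D1028))
noncomputable def D2027 : OP := win (nat_lit 1) (nat_lit 11) (nat_lit 12) (nat_lit 5)
noncomputable def D4495 : OP := win (nat_lit 1) (nat_lit 11) (nat_lit 11) (nat_lit 4)
noncomputable def D1992 : AP := fin (add (start D747) D698)
noncomputable def D4453 : OP := win (nat_lit 4) (nat_lit 8) (nat_lit 12) (nat_lit 0)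
noncomputable def D4553 : AP := fin (add (add (add (add (start (orK (nat_lit 271) (fin (add (start D106) (orK (nat_lit 252) (fin (add (add (start (orK (nat_lit 269) (fin (add (start D4453) D695)))) (orK (nat_lit 253) (fin (add (start D1270) (orK (nat_lit 273) (fin (add (start D131) (orK (nat_lit 249) (fin (add (start D130) (orK (nat_lit 247) (fin (add (start (win (nat_lit 0) (nat_lit 7) (nat_lit 12) (nat_lit 1))) D135))))))))))))) (orK (nat_lit 269) (fin (add (start D4453) (orK (nat_lit 272) (fin (add (start (orK (nat_lit 249) D1992)) (orK (nat_lit 292) D1719)))))))))))))) D805) D1331) (orK (nat_lit 252) (fin (add (add (add (start D1278) (orK (nat_lit 253) (fin (add (start D1269) D1018)))) (orK (nat_lit 249) (fin (add (add (add (add (start D1134) (orK (nat_lit 269) (fin (add (start D694) (orK (nat_lit 232) (fin (add (start D570) (orK (nat_lit 272) (fin (add (start D698) (orK (nat_lit 292) (fin (add (add (start (orK (nat_lit 291) (fin (add (start D1043) (orK (nat_lit 293) (fin (add (start (win (nat_lit 2) (nat_lit 9) (nat_lit 13) (nat_lit 3))) D1521))))))) (orK (nat_lit 312) (fin (add (start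 D311) (orK (nat_lit 311) (fin (add (start D4495) D2027))))))) (orK (nat_lit 312) (fin (add (start D311) (orK (nat_lit 313) (fin (add (start D1044) D1045))))))))))))))))))) D1305) (orK (nat_lit 232) (fin (add (start D570) (orK (nat_lit 248) (fin (add (start D569) D1295))))))) (orK (nat_lit 232) (fin (add (start D570) (orK (nat_lit 248) (fin (add (start D569) D1299)))))))))) D1030)))) (orK (nat_lit 252) (fin (add (add (start (orK (nat_lit 269) (fin (add (add (start D4530) D4546) D1276)))) D1030) (orK (nat_lit 269) (fin (add (start D695) D4530)))))))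
noncomputable def D672 : AP := fin (add (start D142) D543)
noncomputable def D674 : AP := fin (add (start D544) (orK (nat_lit 248) D672))
noncomputable def D675 : OP := orK (nat_lit 232) D674
noncomputable def D411 : OP := win (nat_lit 5) (nat_lit 8) (nat_lit 11) (nat_lit 0)
noncomputable def D669 : OP := orK (nat_lit 248) (fin (add (start D142) D411))
noncomputable def D402 : OP := win (nat_lit 7) (nat_lit 9) (nat_lit 11) (nat_lit 0)
noncomputable def D504 : OP := win (nat_lit 7) (nat_lit 9) (nat_lit 11) (nat_lit 5)
noncomputable def D665 : OP := win (nat_lit 3) (nat_lit 10) (nat_lit 11) (nat_lit 4)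
noncomputable def D630 : OP := orK (nat_lit 246) (fin (add (start D537) (orK (nat_lit 226) (fin (add (start D550) D549)))))
noncomputable def D505 : OP := win (nat_lit 7) (nat_lit 9) (nat_lit 12) (nat_lit 4)
noncomputable def D532 : OP := orK (nat_lit 329) (fin (add (start D502) (orK (nat_lit 330) (fin (add (start D503) D505)))))
noncomputable def D598 : OP := win (nat_lit 6) (nat_lit 8) (nat_lit 8) (nat_lit 4)
noncomputable def D590 : OP := win (nat_lit 2) (nat_lit 7) (nat_lit 10) (nat_lit 2)
noncomputable def D584 : OP := orK (nat_lit 232) (fin (add (start D569) (orK (nat_lit 252) (fin (add (start D570) D580)))))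
noncomputable def D576 : OP := orK (nat_lit 228) (fin (add (start D141) (orK (nat_lit 252) (fin (add (start D140) D572)))))
noncomputable def D538 : OP := win (nat_lit 4) (nat_lit 6) (nat_lit 11) (nat_lit 4)
noncomputable def D560 : OP := orK (nat_lit 246) (fin (add (start D538) D558))
noncomputable def D554 : OP := orK (nat_lit 226) (fin (add (start D549) (orK (nat_lit 246) (fin (add (start D550) D538)))))
noncomputable def D568 : OP := orK (nat_lit 247) (fin (add (add (start D554) D560) (orK (nat_lit 227) (fin (add (start D561) (orK (nat_lit 251) (fin (add (start D562) D424))))))))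
noncomputable def D683 : OP := orK (nat_lit 291) (fin (add (start D252) (orK (nat_lit 249) (fin (add (add (add (start (orK (nat_lit 290) (fin (add (start D253) (orK (nat_lit 310) (fin (add (start D504) D532))))))) (orK (nat_lit 248) (fin (add (add (add (start (orK (nat_lit 247) (fin (add (start D408) (orK (nat_lit 246) (fin (add (start D537) D538))))))) D548) D568) (orK (nat_lit 251) (fin (add (add (add (start D576) D584) (orK (nat_lit 228) (fin (add (start D141) (orK (nat_lit 252) (fin (add (start D140) D580))))))) (orK (nat_lit 228) (fin (add (start D141) (orK (nat_lit 231) (fin (add (start D143) (orK (nat_lit 208) (fin (add (add (start (orK (nat_lit 207) (fin (add (start D590) (orK (nat_lit 268) (fin (add (start D577) D591))))))) (orK (nat_lit 188) (fin (add (start D413) (orK (nat_lit 169) (fin (add (start D596) (orK (nat_lit 168) (fin (add (start D597) D598)))))))))) (orK (nat_lit 268) (fin (add (start D577) D610))))))))))))))))))) (orK (nat_lit 248) (fin (add (add (add (start D548) (orK (nat_lit 290) (fin (add (start D253) (orK (nat_lit 267) (fin (add (add (start (orK (nat_lit 268)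 (fin (add (start (win (nat_lit 0) (nat_lit 7) (nat_lit 13) (nat_lit 2))) D624)))) (orK (nat_lit 247) (fin (add (start D421) D630)))) (orK (nat_lit 266) (fin (add (start D633) (orK (nat_lit 268) (fin (add (start D634) D624))))))))))))) (orK (nat_lit 290) (fin (add (start D253) (orK (nat_lit 251) (fin (add (add (start (orK (nat_lit 231) (fin (add (start D643) D143)))) (orK (nat_lit 268) (fin (add (start D577) (orK (nat_lit 252) (fin (add (start D578) D139))))))) (orK (nat_lit 310) (fin (add (start D452) D532)))))))))) (orK (nat_lit 247) (fin (add (start D408) D630))))))) (orK (nat_lit 290) (fin (add (start D253) (orK (nat_lit 231) (fin (add (add (start (orK (nat_lit 310) (fin (add (start D665) D504)))) (orK (nat_lit 229) (fin (add (start D402) D669)))) D675)))))))))))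
noncomputable def D403 : OP := win (nat_lit 0) (nat_lit 6) (nat_lit 11) (nat_lit 0)
noncomputable def D426 : OP := orK (nat_lit 247) (fin (add (start D407) D424))
noncomputable def D420 : OP := win (nat_lit 2) (nat_lit 8) (nat_lit 11) (nat_lit 0)
noncomputable def D412 : OP := win (nat_lit 6) (nat_lit 8) (nat_lit 8) (nat_lit 0)
noncomputable def D414 : AP := fin (add (start D412) D413)
noncomputable def D451 : OP := orK (nat_lit 291) (fin (add (start D252) (orK (nat_lit 290) (fin (add (start D253) (orK (nat_lit 229) (fin (add (start D380) (orK (nat_lit 249) (fin (add (start D402) (orK (nat_lit 228) (fin (add (add (start (orK (nat_lit 227) (fin (add (start D403) D404)))) (orK (nat_lit 248) (fin (add (start (orK (nat_lit 231) (fin (add (start D411) (orK (nat_lit 208) (fin (add (start D215) (orK (nat_lit 188) D414)))))))) (orK (nat_lit 251) (fin (add (start D420) D426))))))) (orK (nat_lit 227) (fin (add (start D403) (orK (nat_lit 207) (fin (add (start D431) (orK (nat_lit 231) (fin (add (start D432) (orK (nat_lit 247) (fin (add (start D433) D217))))))))))))))))))))))))))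
noncomputable def D4586 : OP := orK (nat_lit 270) (fin (add (add (add (add (add (start D267) D2892) D451) D683) (orK (nat_lit 189) (fin (add (start D114) (orK (nat_lit 251) D4553))))) (orK (nat_lit 271) (fin (add (start D106) (orK (nat_lit 209) (fin (add (start D260) (orK (nat_lit 272) (fin (add (add (add (start (orK (nat_lit 249) (fin (add (start D307) (orK (nat_lit 248) (fin (add (start D350) D4557))))))) (orK (nat_lit 273) (fin (add (add (start D1350) (orK (nat_lit 293) (fin (add (start D824) (orK (nat_lit 269) (fin (add (start D1436) D1948))))))) D1356)))) (orK (nat_lit 249) (fin (add (start D307) (orK (nat_lit 248) (fin (add (start D350) (win (nat_lit 2) (nat_lit 8) (nat_lit 12) (nat_lit 3))))))))) (orK (nat_lit 269) (fin (add (add (start (orK (nat_lit 248) (fin (add (start D287) (orK (nat_lit 268) (fin (add (start D286) D275))))))) D339) D1967))))))))))))))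
noncomputable def D3150 : OP := win (nat_lit 3) (nat_lit 8) (nat_lit 10) (nat_lit 3)
noncomputable def D3544 : OP := orK (nat_lit 268) (fin (add (start D3542) D3127))
noncomputable def D4142 : AP := fin (add (start D3544) D3276)
noncomputable def D4145 : OP := orK (nat_lit 189) (fin (add (start D2643) (orK (nat_lit 249) D4142)))
noncomputable def D3041 : OP := win (nat_lit 6) (nat_lit 7) (nat_lit 8) (nat_lit 0)
noncomputable def D4371 : OP := orK (nat_lit 248) (fin (add (start D2650) D3041))
noncomputable def D4072 : AP := fin (add (start D2860) D4071)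
noncomputable def D2696 : OP := orK (nat_lit 188) (fin (add (start D218) D2694))
noncomputable def D4358 : OP := orK (nat_lit 247) (fin (add (start D217) D2696))
noncomputable def D4353 : AP := fin (add (start D1955) D2659)
noncomputable def D4354 : OP := orK (nat_lit 208) D4353
noncomputable def D4141 : OP := orK (nat_lit 270) (fin (add (start D2860) D4139))
noncomputable def D3936 : AP := fin (add (start D3041) D3935)
noncomputable def D4032 : OP := win (nat_lit 3) (nat_lit 7) (nat_lit 8) (nat_lit 5)
noncomputable def D4035 : OP := orK (nat_lit 188) (fin (add (start D4032) (win (nat_lit 3) (nat_lit 7) (nat_lit 9) (nat_lit 4))))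
noncomputable def D2933 : OP := win (nat_lit 6) (nat_lit 7) (nat_lit 11) (nat_lit 5)
noncomputable def D2934 : OP := win (nat_lit 6) (nat_lit 7) (nat_lit 10) (nat_lit 4)
noncomputable def D4029 : OP := orK (nat_lit 288) (fin (add (start D2934) D2933))
noncomputable def D4025 : OP := win (nat_lit 1) (nat_lit 6) (nat_lit 11) (nat_lit 5)
noncomputable def D4024 : OP := win (nat_lit 1) (nat_lit 6) (nat_lit 10) (nat_lit 4)
noncomputable def D4031 : OP := orK (nat_lit 287) (fin (add (start (orK (nat_lit 286) (fin (add (start D4024) D4025)))) D4029))
noncomputable def D4040 : OP := orK (nat_lit 267) (fin (add (add (start (orK (nat_lit 208) (fin (add (start D3224) D2929)))) D4031) (orK (nat_lit 187) (fin (add (start D4035) (orK (nat_lit 248) D3936))))))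
noncomputable def D4044 : OP := orK (nat_lit 247) (fin (add (start D217) (orK (nat_lit 207) (fin (add (start D431) D4040)))))
noncomputable def D3576 : OP := orK (nat_lit 206) (fin (add (start D2682) (orK (nat_lit 226) (fin (add (start D2681) D2787)))))
noncomputable def D4046 : OP := orK (nat_lit 227) (fin (add (add (start D3576) D2801) D4044))
noncomputable def D4218 : OP := win (nat_lit 3) (nat_lit 8) (nat_lit 12) (nat_lit 0)
noncomputable def D4215 : OP := orK (nat_lit 188) (fin (add (start D412) (win (nat_lit 6) (nat_lit 8) (nat_lit 9) (nat_lit 3))))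
noncomputable def D3093 : OP := win (nat_lit 0) (nat_lit 6) (nat_lit 10) (nat_lit 3)
noncomputable def D3092 : OP := win (nat_lit 0) (nat_lit 5) (nat_lit 10) (nat_lit 0)
noncomputable def D3094 : AP := fin (add (start D3092) D3093)
noncomputable def D3095 : OP := orK (nat_lit 206) D3094
noncomputable def D3597 : OP := orK (nat_lit 207) (fin (add (start D2693) D3095))
noncomputable def D2784 : OP := orK (nat_lit 251) D2783
noncomputable def D2780 : OP := orK (nat_lit 251) D2129
noncomputable def D2718 : OP := win (nat_lit 5) (nat_lit 10) (nat_lit 11) (nat_lit 4)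
noncomputable def D2722 : OP := orK (nat_lit 254) (fin (add (start D2716) (orK (nat_lit 234) (fin (add (start D2717) D2718)))))
noncomputable def D2726 : OP := orK (nat_lit 213) (fin (add (start D206) (orK (nat_lit 233) (fin (add (start D207) D2722)))))
noncomputable def D2734 : OP := orK (nat_lit 232) (fin (add (add (add (start (orK (nat_lit 252) (fin (add (start D2705) D2706)))) D213) D2726) (orK (nat_lit 251) (fin (add (start D2101) D2730)))))
noncomputable def D2692 : OP := orK (nat_lit 226) (fin (add (start D2680) D2690))
noncomputable def D2686 : OP := orK (nat_lit 226) (fin (add (start D2680) D2684))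
noncomputable def D2704 : OP := orK (nat_lit 227) (fin (add (add (start D2686) D2692) (orK (nat_lit 247) (fin (add (start D217) (orK (nat_lit 207) (fin (add (start D431) (orK (nat_lit 208) (fin (add (start D2693) D2696)))))))))))
noncomputable def D4433 : AP := fin (add (add (add (add (add (add (add (add (start (orK (nat_lit 209) (fin (add (add (start D4131) D4141) D4145)))) (orK (nat_lit 228) (fin (add (add (add (start D2704) (orK (nat_lit 231) (fin (add (add (start D2734) (orK (nat_lit 248) (fin (add (start D2132) (orK (nat_lit 208) (fin (add (start D215) (orK (nat_lit 249) (fin (add (start D411) D1646)))))))))) (orK (nat_lit 251) (fin (add (start D2101) (orK (nat_lit 248) (fin (add (start D2132) (orK (nat_lit 208) (fin (add (start D215) D4155))))))))))))) D2780) D2784)))) (orK (nat_lit 209) (fin (add (add (start D4131) (orK (nat_lit 251) (fin (add (add (start (orK (nat_lit 252) (fin (add (start D127) (orK (nat_lit 268) (fin (add (start D717) (orK (nat_lit 270) (fin (add (start D272) D2860)))))))))) D3347) (orK (nat_lit 228) (fin (add (start D1983) (orK (nat_lit 270) (fin (add (start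 D2860) D4177)))))))))) D4202)))) (orK (nat_lit 251) (fin (add (add (add (start (orK (nat_lit 252) (fin (add (start D127) (orK (nat_lit 268) (fin (add (start D717) (orK (nat_lit 270) (fin (add (start D272) (orK (nat_lit 290) (fin (add (start D380) D803))))))))))))) D2130) D3347) (orK (nat_lit 228) (fin (add (start D1983) (orK (nat_lit 208) (fin (add (add (start D3597) (orK (nat_lit 249) (fin (add (add (start D4215) (orK (nat_lit 268) (fin (add (start (orK (nat_lit 267) (fin (add (start D358) D4078)))) (orK (nat_lit 288) (fin (add (start (win (nat_lit 1) (nat_lit 8) (nat_lit 10) (nat_lit 0))) (orK (nat_lit 308) (fin (add (start (win (nat_lit 3) (nat_lit 8) (nat_lit 11) (nat_lit 3))) D4218)))))))))) (orK (nat_lit 188) (fin (add (start D412) (win (nat_lit 7) (nat_lit 8) (nat_lit 9) (nat_lit 3))))))))) (orK (nat_lit 231) (fin (add (start D215) (orK (nat_lit 248) (fin (add (start D2132) D4231)))))))))))))))) (orK (nat_lit 209) (fin (add (add (start D4131) (orK (nat_lit 228) (fin (add (add (start D2647) (orK (nat_lit 270) (fin (add (start D2860) (orK (nat_lit 268) (fin (add (add (start D4175)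 (orK (nat_lit 251) (fin (add (start D272) D2128)))) (orK (nat_lit 267) (fin (add (start D359) (orK (nat_lit 248) (fin (add (start D2818) (orK (nat_lit 287) (fin (add (start D3892) D278)))))))))))))))) D4046)))) (orK (nat_lit 189) (fin (add (start D2643) (orK (nat_lit 227) (fin (add (add (start D4256) (orK (nat_lit 249) (fin (add (add (start (orK (nat_lit 208) (fin (add (start (orK (nat_lit 207) (fin (add (start D2640) D2659)))) (orK (nat_lit 188) (fin (add (start D3273) (win (nat_lit 7) (nat_lit 8) (nat_lit 9) (nat_lit 0))))))))) (orK (nat_lit 248) (fin (add (start D3374) (orK (nat_lit 247) (fin (add (start D561) D407))))))) (orK (nat_lit 269) D4142))))) (orK (nat_lit 228) (fin (add (start D404) D4044))))))))))))) (orK (nat_lit 209) (fin (add (add (start D4131) D4141) (orK (nat_lit 227) (fin (add (add (start D4256) (orK (nat_lit 207) (fin (add (add (start (orK (nat_lit 208) D2641)) (orK (nat_lit 187) (fin (add (add (add (start D4317) (orK (nat_lit 189) (fin (add (start D2643) (orK (nat_lit 186) (fin (add (start D4318) (orK (nat_lit 247) (fin (add (start D4319) (orK (nat_lit 266) (fin (add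 (start D4320) (orK (nat_lit 267) (fin (add (start D4321) D4322)))))))))))))))) D4340) (orK (nat_lit 189) (fin (add (start D2643) D4348))))))) D4354)))) (orK (nat_lit 228) (fin (add (start D404) (orK (nat_lit 207) (fin (add (start D431) (orK (nat_lit 208) (fin (add (start D1955) D4358)))))))))))))))) (orK (nat_lit 209) (fin (add (add (start D4131) (orK (nat_lit 270) D4072)) (orK (nat_lit 189) (fin (add (start D2643) (orK (nat_lit 208) (fin (add (add (start D2642) D2656) (orK (nat_lit 207) (fin (add (start D2640) (orK (nat_lit 187) (fin (add (start D2660) (orK (nat_lit 227) (fin (add (start D2659) (orK (nat_lit 228) (fin (add (start D404) D4371)))))))))))))))))))))) (orK (nat_lit 209) (fin (add (add (start D4131) (orK (nat_lit 270) (fin (add (start D2860) D4411)))) D4145)))) (orK (nat_lit 209) (fin (add (start D4131) D4430))))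
noncomputable def D2897 : OP := win (nat_lit 5) (nat_lit 8) (nat_lit 11) (nat_lit 3)
noncomputable def D2913 : OP := orK (nat_lit 232) (fin (add (start D2897) D544))
noncomputable def D2915 : OP := orK (nat_lit 231) (fin (add (start D142) D2913))
noncomputable def D4077 : OP := orK (nat_lit 270) (fin (add (start D104) (orK (nat_lit 209) (fin (add (start D260) (orK (nat_lit 229) D4072))))))
noncomputable def D1995 : OP := orK (nat_lit 228) (fin (add (start D141) D140))
noncomputable def D2905 : OP := orK (nat_lit 271) (fin (add (start D741) (orK (nat_lit 231) (fin (add (start D143) D1834)))))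
noncomputable def D2911 : OP := orK (nat_lit 251) (fin (add (add (start D2905) (orK (nat_lit 272) (fin (add (start D699) (orK (nat_lit 252) (fin (add (start D698) D1995))))))) D576))
noncomputable def D2918 : AP := fin (add (start D408) D554)
noncomputable def D3177 : OP := orK (nat_lit 247) D2918
noncomputable def D3296 : OP := orK (nat_lit 247) (fin (add (add (start D554) D560) (orK (nat_lit 227) (fin (add (start D561) (orK (nat_lit 228) (fin (add (start D3236) (orK (nat_lit 267) (fin (add (start D421) D2931)))))))))))
noncomputable def D3278 : OP := orK (nat_lit 189) (fin (add (start D2643) D3276))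
noncomputable def D1989 : OP := win (nat_lit 2) (nat_lit 9) (nat_lit 11) (nat_lit 5)
noncomputable def D3187 : OP := orK (nat_lit 272) (fin (add (start D699) (orK (nat_lit 252) (fin (add (start D698) (orK (nat_lit 253) (fin (add (start D1989) D135))))))))
noncomputable def D3288 : OP := orK (nat_lit 227) (fin (add (add (start (orK (nat_lit 251) (fin (add (start D562) D3187)))) (orK (nat_lit 247) (fin (add (start D561) (orK (nat_lit 229) (fin (add (start D407) (orK (nat_lit 269) (fin (add (start D23) (orK (nat_lit 209) (fin (add (add (start (orK (nat_lit 268) (fin (add (start D3126) D3127)))) (orK (nat_lit 207) (fin (add (start (orK (nat_lit 208) (fin (add (start D2640) D3155)))) (orK (nat_lit 268) (fin (add (start D3127) D2945))))))) D3278))))))))))))) D3240))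
noncomputable def D3591 : OP := orK (nat_lit 227) (fin (add (add (start D3576) (orK (nat_lit 209) (fin (add (start D2645) (orK (nat_lit 189) (fin (add (start D2816) (orK (nat_lit 268) (fin (add (start D3577) D2818)))))))))) (orK (nat_lit 207) (fin (add (start D431) (orK (nat_lit 208) (fin (add (start D2693) (orK (nat_lit 187) (fin (add (start D3041) D2983)))))))))))
noncomputable def D2974 : OP := orK (nat_lit 246) (fin (add (start D2971) (win (nat_lit 5) (nat_lit 6) (nat_lit 11) (nat_lit 3))))
noncomputable def D2975 : AP := fin (add (start D2970) D2974)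
noncomputable def D3778 : OP := orK (nat_lit 247) D2975
noncomputable def D3602 : AP := fin (add (start D404) D3576)
noncomputable def D3603 : OP := orK (nat_lit 227) D3602
noncomputable def D3467 : OP := orK (nat_lit 167) (fin (add (start D1666) (orK (nat_lit 168) (fin (add (start D1665) (orK (nat_lit 149) (fin (add (start D3457) (orK (nat_lit 148) (fin (add (start D3458) (win (nat_lit 6) (nat_lit 8) (nat_lit 7) (nat_lit 4)))))))))))))
noncomputable def D2993 : OP := win (nat_lit 1) (nat_lit 7) (nat_lit 10) (nat_lit 4)
noncomputable def D2995 : OP := win (nat_lit 6) (nat_lit 8) (nat_lit 10) (nat_lit 4)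
noncomputable def D2998 : OP := orK (nat_lit 289) (fin (add (start D2995) D2996))
noncomputable def D3002 : OP := orK (nat_lit 287) (fin (add (start D2993) (orK (nat_lit 288) (fin (add (start D2994) D2998)))))
noncomputable def D3407 : AP := fin (add (start D1491) D2818)
noncomputable def D3408 : OP := orK (nat_lit 209) D3407
noncomputable def D3475 : OP := orK (nat_lit 268) (fin (add (add (start D3408) D3002) (orK (nat_lit 289) (fin (add (start D2995) (orK (nat_lit 287) (fin (add (start D2993) (orK (nat_lit 188) (fin (add (add (add (start D1488) (orK (nat_lit 209) (fin (add (start D1491) (orK (nat_lit 168) (fin (add (start D3387) D1668))))))) D3467) D1672)))))))))))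
noncomputable def D3601 : OP := orK (nat_lit 208) (fin (add (add (start D3597) D3475) D3599))
noncomputable def D3604 : AP := fin (add (add (start D2784) D3601) D3603)
noncomputable def D3776 : AP := fin (add (start D404) D2801)
noncomputable def D3937 : OP := orK (nat_lit 187) D3936
noncomputable def D3942 : AP := fin (add (start D404) (orK (nat_lit 207) (fin (add (start D431) (orK (nat_lit 247) (fin (add (start D217) D3937)))))))
noncomputable def D3996 : AP := fin (add (start D218) D3009)
noncomputable def D3997 : OP := orK (nat_lit 247) D3996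
noncomputable def D3660 : OP := win (nat_lit 7) (nat_lit 7) (nat_lit 9) (nat_lit 3)
noncomputable def D3034 : OP := win (nat_lit 7) (nat_lit 7) (nat_lit 10) (nat_lit 0)
noncomputable def D2745 : OP := win (nat_lit 6) (nat_lit 8) (nat_lit 12) (nat_lit 5)
noncomputable def D2743 : OP := win (nat_lit 6) (nat_lit 8) (nat_lit 11) (nat_lit 4)
noncomputable def D3490 : OP := orK (nat_lit 309) (fin (add (start D2743) D2745))
noncomputable def D3800 : OP := win (nat_lit 7) (nat_lit 7) (nat_lit 11) (nat_lit 4)
noncomputable def D3981 : OP := orK (nat_lit 287) (fin (add (start D2993) D2994))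
noncomputable def D3849 : OP := win (nat_lit 6) (nat_lit 7) (nat_lit 9) (nat_lit 3)
noncomputable def D3852 : AP := fin (add (start D3034) (orK (nat_lit 187) (fin (add (start D3041) D3849))))
noncomputable def D3791 : OP := orK (nat_lit 267) (fin (add (start D2735) (orK (nat_lit 188) (fin (add (start D3705) D608)))))
noncomputable def D3787 : OP := orK (nat_lit 267) (fin (add (start D2735) (orK (nat_lit 188) (fin (add (start D3705) D1488)))))
noncomputable def D3823 : OP := win (nat_lit 2) (nat_lit 5) (nat_lit 13) (nat_lit 5)
noncomputable def D3822 : OP := win (nat_lit 2) (nat_lit 6) (nat_lit 13) (nat_lit 4)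
noncomputable def D2156 : OP := win (nat_lit 0) (nat_lit 8) (nat_lit 14) (nat_lit 5)
noncomputable def D2157 : OP := win (nat_lit 0) (nat_lit 7) (nat_lit 14) (nat_lit 4)
noncomputable def D3838 : OP := orK (nat_lit 287) (fin (add (start D2994) (orK (nat_lit 290) (fin (add (start (orK (nat_lit 311) (fin (add (start D2157) (orK (nat_lit 291) (fin (add (start D2156) (orK (nat_lit 271) (fin (add (start (win (nat_lit 4) (nat_lit 8) (nat_lit 13) (nat_lit 5))) (win (nat_lit 7) (nat_lit 10) (nat_lit 11) (nat_lit 3)))))))))))) (orK (nat_lit 266) (fin (add (start D3822) (orK (nat_lit 286) (fin (add (start D3823) (orK (nat_lit 285) (fin (add (start (win (nat_lit 4) (nat_lit 5) (nat_lit 13) (nat_lit 5))) (orK (nat_lit 305) (fin (add (start (win (nat_lit 5) (nat_lit 4) (nat_lit 14) (nat_lit 5))) (win (nat_lit 5) (nat_lit 5) (nat_lit 14) (nat_lit 4)))))))))))))))))))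
noncomputable def D3867 : OP := orK (nat_lit 269) D3866
noncomputable def D3798 : OP := orK (nat_lit 307) (fin (add (start D3794) (orK (nat_lit 308) (fin (add (start D2824) D3490)))))
noncomputable def D3934 : OP := orK (nat_lit 231) (fin (add (start D2132) (orK (nat_lit 208) (fin (add (start D215) D2734)))))
noncomputable def D3926 : OP := orK (nat_lit 252) (fin (add (start D2705) (orK (nat_lit 232) (fin (add (start D2706) (orK (nat_lit 233) (fin (add (start D919) D209))))))))
noncomputable def D3928 : OP := orK (nat_lit 231) (fin (add (start D2132) D3926))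
noncomputable def D3783 : OP := orK (nat_lit 209) (fin (add (start D1491) (orK (nat_lit 207) D1956)))
noncomputable def D3799 : OP := win (nat_lit 7) (nat_lit 7) (nat_lit 10) (nat_lit 5)
noncomputable def D3870 : OP := win (nat_lit 5) (nat_lit 7) (nat_lit 14) (nat_lit 1)
noncomputable def D3846 : OP := orK (nat_lit 209) (fin (add (start D1955) D1491))
noncomputable def D3802 : OP := orK (nat_lit 227) (fin (add (start D3799) D3800))
noncomputable def D200 : OP := win (nat_lit 2) (nat_lit 8) (nat_lit 10) (nat_lit 5)
noncomputable def D202 : AP := fin (add (start D200) D201)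
noncomputable def D203 : OP := orK (nat_lit 209) D202
noncomputable def D4049 : AP := fin (add (add (add (add (add (add (add (start (orK (nat_lit 229) (fin (add (add (add (start (orK (nat_lit 231) (fin (add (start D2132) (orK (nat_lit 252) (fin (add (start D2705) (orK (nat_lit 232) (fin (add (start D2706) D203)))))))))) (orK (nat_lit 227) D3776)) D2784) D3778)))) (orK (nat_lit 268) (fin (add (add (add (add (start (orK (nat_lit 208) (fin (add (add (start D3783) D3787) D3791)))) (orK (nat_lit 288) (fin (add (add (add (start D3798) (orK (nat_lit 307) (fin (add (start D3794) (orK (nat_lit 308) (fin (add (start D2824) D3802))))))) (orK (nat_lit 309) (fin (add (start D2743) (orK (nat_lit 308) (fin (add (start D2745) D3802))))))) (orK (nat_lit 289) (fin (add (start D2996) (orK (nat_lit 207) (fin (add (start D1954) D3838)))))))))) (orK (nat_lit 207) (fin (add (add (start (orK (nat_lit 208) (fin (add (start D591) D3846)))) (orK (nat_lit 227) D3852)) (orK (nat_lit 288) (fin (add (start D1954) (orK (nat_lit 289) (fin (add (start D2996) (orK (nat_lit 208) (fin (add (start D2995) D3846)))))))))))))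 (orK (nat_lit 289) (fin (add (add (add (start D3867) (orK (nat_lit 208) (fin (add (start D2995) D3787)))) (orK (nat_lit 288) (fin (add (start D2996) (orK (nat_lit 307) (fin (add (start D3794) (orK (nat_lit 308) (fin (add (start D2824) (orK (nat_lit 291) (fin (add (start D3870) (orK (nat_lit 247) (fin (add (start (win (nat_lit 7) (nat_lit 7) (nat_lit 11) (nat_lit 5))) (orK (nat_lit 328) (fin (add (start (win (nat_lit 7) (nat_lit 7) (nat_lit 12) (nat_lit 4))) (orK (nat_lit 348) (fin (add (start (win (nat_lit 3) (nat_lit 8) (nat_lit 13) (nat_lit 5))) (orK (nat_lit 349) (fin (add (start (win (nat_lit 6) (nat_lit 8) (nat_lit 13) (nat_lit 4))) (win (nat_lit 6) (nat_lit 8) (nat_lit 14) (nat_lit 5))))))))))))))))))))))))))) D3902)))) (orK (nat_lit 289) (fin (add (add (add (start D3867) (orK (nat_lit 208) (fin (add (start D2995) D3783)))) (orK (nat_lit 288) (fin (add (start D2996) (orK (nat_lit 227) (fin (add (start D3799) D3838))))))) (orK (nat_lit 288) (fin (add (start D2996) (orK (nat_lit 287) (fin (add (start D2994) (orK (nat_lit 208) (fin (add (start D2993) D3783)))))))))))))))) (orK (nat_lit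 229) (fin (add (add (start D3603) D3928) D3778)))) (orK (nat_lit 229) (fin (add (add (add (start D3934) (orK (nat_lit 227) D3942)) D2784) D3778)))) (orK (nat_lit 229) (fin (add (add (add (start D3928) D3601) D3934) (orK (nat_lit 268) (fin (add (add (add (start D3635) (orK (nat_lit 288) (fin (add (start D3476) D3798)))) (orK (nat_lit 289) (fin (add (add (add (start D3867) (orK (nat_lit 208) (fin (add (start D2995) (orK (nat_lit 267) (fin (add (start D2735) (orK (nat_lit 188) (fin (add (start D3705) (orK (nat_lit 169) (fin (add (start D596) D608))))))))))))) (orK (nat_lit 288) (fin (add (start D2996) D3838)))) D3902)))) (orK (nat_lit 208) (fin (add (add (start (orK (nat_lit 209) (fin (add (start D1491) (orK (nat_lit 207) (fin (add (start D2640) D591))))))) D3787) D3791)))))))))) (orK (nat_lit 227) (fin (add (add (add (start (orK (nat_lit 229) D3602)) (orK (nat_lit 268) (fin (add (add (add (start (orK (nat_lit 207) D3852)) (orK (nat_lit 288) (fin (add (add (start (orK (nat_lit 208) (fin (add (start D3981) D2998)))) (orK (nat_lit 308) (fin (add (start D3800) (orK (nat_lit 307) (fin (add (start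 D3794) D2824))))))) (orK (nat_lit 308) (fin (add (start D3800) D3490))))))) (orK (nat_lit 207) (fin (add (start D3034) (orK (nat_lit 187) (fin (add (start D3041) D3660))))))) (orK (nat_lit 208) (fin (add (add (start (orK (nat_lit 188) (fin (add (start D3997) D1488)))) (orK (nat_lit 207) (fin (add (start D591) (orK (nat_lit 209) (fin (add (start D1491) D2659))))))) (orK (nat_lit 188) (fin (add (start D3997) D608)))))))))) (orK (nat_lit 229) D3942)) (orK (nat_lit 229) D3776))))) (orK (nat_lit 229) D3604)) (orK (nat_lit 229) (fin (add (add (add (start D3778) (orK (nat_lit 231) (fin (add (start D2132) (orK (nat_lit 208) (fin (add (start D215) (orK (nat_lit 209) (fin (add (start D2644) (orK (nat_lit 189) (fin (add (start D2816) D2650))))))))))))) D4046) D3591))))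
noncomputable def D3645 : OP := orK (nat_lit 188) (fin (add (start D1485) D608))
noncomputable def D3532 : AP := fin (add (start D358) D624)
noncomputable def D3625 : OP := orK (nat_lit 251) (fin (add (start D420) D577))
noncomputable def D3566 : OP := orK (nat_lit 251) (fin (add (add (start (orK (nat_lit 231) (fin (add (start D143) (orK (nat_lit 271) (fin (add (start D741) D1834))))))) (orK (nat_lit 252) (fin (add (start D127) D3340)))) (orK (nat_lit 232) (fin (add (start D569) (orK (nat_lit 252) (fin (add (start D127) D570))))))))
noncomputable def D3496 : OP := orK (nat_lit 287) (fin (add (start D2993) (orK (nat_lit 288) (fin (add (start D2994) (orK (nat_lit 308) (fin (add (start D2744) D3490))))))))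
noncomputable def D3431 : OP := orK (nat_lit 249) D414
noncomputable def D3508 : OP := orK (nat_lit 188) (fin (add (add (start D3431) D1672) (orK (nat_lit 167) (fin (add (start D1666) (orK (nat_lit 268) (fin (add (add (add (start (orK (nat_lit 269) (fin (add (start D3386) D3385)))) D3002) D3496) (orK (nat_lit 287) (fin (add (start D2993) (orK (nat_lit 288) (fin (add (start D2994) (orK (nat_lit 249) (fin (add (start D3133) D413)))))))))))))))))
noncomputable def D3364 : OP := win (nat_lit 2) (nat_lit 6) (nat_lit 10) (nat_lit 3)
noncomputable def D3365 : AP := fin (add (start D3092) D3364)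
noncomputable def D3367 : AP := fin (add (start D2693) (orK (nat_lit 206) D3365))
noncomputable def D3525 : OP := orK (nat_lit 207) D3367
noncomputable def D3520 : OP := orK (nat_lit 249) (fin (add (start D411) D3319))
noncomputable def D2843 : OP := orK (nat_lit 188) (fin (add (start D1485) (orK (nat_lit 168) (fin (add (start D2839) D1668)))))
noncomputable def D2808 : OP := orK (nat_lit 208) (fin (add (start D215) D214))
noncomputable def D3331 : OP := orK (nat_lit 228) (fin (add (start D2705) D2808))
noncomputable def D3333 : OP := orK (nat_lit 252) (fin (add (start D2706) D3331))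
noncomputable def D3317 : OP := orK (nat_lit 207) (fin (add (start D432) (orK (nat_lit 227) (fin (add (start D431) D2789)))))
noncomputable def D3671 : AP := fin (add (add (add (add (add (add (start (orK (nat_lit 231) (fin (add (add (add (start (orK (nat_lit 232) (fin (add (start D2707) D203)))) (orK (nat_lit 232) (fin (add (start D2707) D3311)))) (orK (nat_lit 228) (fin (add (add (start D2649) D3317) (orK (nat_lit 251) (fin (add (start D2101) (orK (nat_lit 208) (fin (add (start D215) (orK (nat_lit 271) (fin (add (start D1834) (orK (nat_lit 249) (fin (add (start D741) D3319)))))))))))))))) (orK (nat_lit 232) (fin (add (add (start D203) D213) D3333))))))) (orK (nat_lit 208) (fin (add (add (add (add (start (orK (nat_lit 207) (fin (add (add (add (start (orK (nat_lit 209) D2641)) (orK (nat_lit 231) (fin (add (start D1496) (win (nat_lit 2) (nat_lit 7) (nat_lit 10) (nat_lit 3)))))) (orK (nat_lit 228) D3367)) (orK (nat_lit 206) (fin (add (start D3093) (orK (nat_lit 228) D3365)))))))) (orK (nat_lit 209) (fin (add (start D2642) (orK (nat_lit 189) (fin (add (start D2643) (orK (nat_lit 249) (fin (add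 (start D3374) D3376)))))))))) (orK (nat_lit 228) (fin (add (add (add (add (add (start (orK (nat_lit 268) (fin (add (add (start D3408) D3002) (orK (nat_lit 209) (fin (add (start D1491) (orK (nat_lit 226) (fin (add (start D2863) (orK (nat_lit 269) (fin (add (start D3385) (orK (nat_lit 267) (fin (add (start D2735) (orK (nat_lit 266) (fin (add (start D1893) (orK (nat_lit 245) (fin (add (start (win (nat_lit 2) (nat_lit 5) (nat_lit 12) (nat_lit 4))) (orK (nat_lit 265) (fin (add (start (win (nat_lit 2) (nat_lit 4) (nat_lit 12) (nat_lit 5))) (orK (nat_lit 285) (fin (add (start (win (nat_lit 5) (nat_lit 4) (nat_lit 13) (nat_lit 5))) (win (nat_lit 5) (nat_lit 5) (nat_lit 13) (nat_lit 4)))))))))))))))))))))))))))))) (orK (nat_lit 188) (fin (add (add (start D3431) D1672) (orK (nat_lit 189) (fin (add (start D1485) (orK (nat_lit 249) (fin (add (start D413) (orK (nat_lit 226) (fin (add (start (win (nat_lit 0) (nat_lit 6) (nat_lit 11) (nat_lit 1))) (orK (nat_lit 187) (fin (add (start D605) (orK (nat_lit 186) (fin (add (start D3069) D3442))))))))))))))))))) D3475) (orK (nat_lit 188) (fin (add (add (start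 D3431) D3467) (orK (nat_lit 269) (fin (add (start D3386) (orK (nat_lit 268) (fin (add (start D3385) (orK (nat_lit 287) (fin (add (start D2993) (orK (nat_lit 288) (fin (add (start D2994) D3476)))))))))))))))) D3508) (orK (nat_lit 268) (fin (add (add (start D3408) D3496) (orK (nat_lit 189) (fin (add (start D1486) D2843)))))))))) (orK (nat_lit 228) (fin (add (add (start (orK (nat_lit 231) (fin (add (start D215) (orK (nat_lit 232) (fin (add (start D214) D2707))))))) D3475) (orK (nat_lit 231) (fin (add (start D215) D3520))))))) (orK (nat_lit 228) (fin (add (start D3525) D3508))))))) (orK (nat_lit 249) (fin (add (add (add (start (orK (nat_lit 209) (fin (add (add (start D3531) (orK (nat_lit 269) (fin (add (start D23) (orK (nat_lit 268) (fin (add (start D3127) (orK (nat_lit 267) D3532)))))))) (orK (nat_lit 269) (fin (add (start D23) D3278))))))) (orK (nat_lit 231) (fin (add (start D411) (orK (nat_lit 269) (fin (add (start D23) (orK (nat_lit 209) (fin (add (start (orK (nat_lit 189) (fin (add (start D2643) D3544)))) (orK (nat_lit 208) (fin (add (start D3155) D2642))))))))))))) (orK (nat_lit 269)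 (fin (add (start D23) D3566)))) (orK (nat_lit 209) (fin (add (start D3531) D3566))))))) (orK (nat_lit 228) (fin (add (add (add (start D2791) D2679) D3591) (orK (nat_lit 251) (fin (add (add (start D2128) D2782) (orK (nat_lit 249) (fin (add (start (orK (nat_lit 271) (fin (add (start D741) D740)))) D3353)))))))))) (orK (nat_lit 228) D3604)) (orK (nat_lit 251) (fin (add (add (start (orK (nat_lit 252) (fin (add (start D127) (orK (nat_lit 249) (fin (add (start D3340) D3342))))))) D3347) (orK (nat_lit 228) (fin (add (start D1983) (orK (nat_lit 271) (fin (add (start D740) (orK (nat_lit 249) (fin (add (start D741) (orK (nat_lit 289) (fin (add (start D3132) (orK (nat_lit 268) (fin (add (start D577) (orK (nat_lit 288) (fin (add (start D3133) D2996)))))))))))))))))))))) (orK (nat_lit 228) (fin (add (add (add (start D2780) (orK (nat_lit 268) (fin (add (add (start (orK (nat_lit 249) (fin (add (start D3625) (orK (nat_lit 288) (fin (add (start D3133) (orK (nat_lit 289) (fin (add (start D3132) D2996)))))))))) D3635) (orK (nat_lit 189) (fin (add (add (add (start (orK (nat_lit 209) (fin (add (start D2816)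 D2817)))) (orK (nat_lit 209) (fin (add (start D2817) D3577)))) (orK (nat_lit 269) (fin (add (add (start (orK (nat_lit 249) (fin (add (start D23) D3625)))) (orK (nat_lit 208) (fin (add (start D3385) D3645)))) (orK (nat_lit 267) (fin (add (start (orK (nat_lit 249) D3532)) (orK (nat_lit 208) (fin (add (start D2735) D3645)))))))))) (orK (nat_lit 209) D3632)))))))) D3603) (orK (nat_lit 227) (fin (add (start D2789) (orK (nat_lit 207) (fin (add (start D431) (orK (nat_lit 187) (fin (add (start D3041) (orK (nat_lit 268) (fin (add (start D3660) D3034))))))))))))))))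
noncomputable def D2936 : OP := win (nat_lit 7) (nat_lit 6) (nat_lit 9) (nat_lit 5)
noncomputable def D2938 : OP := orK (nat_lit 206) (fin (add (start (win (nat_lit 2) (nat_lit 6) (nat_lit 10) (nat_lit 1))) D2936))
noncomputable def D2949 : OP := win (nat_lit 7) (nat_lit 7) (nat_lit 11) (nat_lit 0)
noncomputable def D2965 : OP := orK (nat_lit 227) (fin (add (start D561) (orK (nat_lit 267) (fin (add (start D421) (orK (nat_lit 228) (fin (add (add (start D2931) (orK (nat_lit 287) (fin (add (start D2932) (orK (nat_lit 288) (fin (add (start D2933) (orK (nat_lit 207) (fin (add (start D2934) D2938)))))))))) (orK (nat_lit 268) (fin (add (add (start D2948) (orK (nat_lit 208) (fin (add (start D2928) (orK (nat_lit 209) (fin (add (start D1491) (orK (nat_lit 288) (fin (add (start D1953) D2949)))))))))) (orK (nat_lit 207) (fin (add (start D2945) D2938))))))))))))))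
noncomputable def D2966 : AP := fin (add (add (add (start D554) D560) D2925) D2965)
noncomputable def D2001 : OP := orK (nat_lit 267) (fin (add (start D422) (orK (nat_lit 247) (fin (add (start D421) D554)))))
noncomputable def D3121 : OP := orK (nat_lit 272) (fin (add (start D699) (orK (nat_lit 252) (fin (add (start D698) D580)))))
noncomputable def D3196 : OP := orK (nat_lit 251) (fin (add (add (add (start D3121) (orK (nat_lit 271) (fin (add (start D741) D2001)))) D3187) (orK (nat_lit 268) (fin (add (start D577) (orK (nat_lit 269) (fin (add (start D779) D3190))))))))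
noncomputable def D2579 : OP := win (nat_lit 0) (nat_lit 6) (nat_lit 14) (nat_lit 0)
noncomputable def D3134 : OP := win (nat_lit 6) (nat_lit 8) (nat_lit 11) (nat_lit 0)
noncomputable def D3174 : OP := orK (nat_lit 251) (fin (add (add (add (start (orK (nat_lit 272) (fin (add (start D699) (orK (nat_lit 252) (fin (add (start D698) D129))))))) D3121) (orK (nat_lit 268) (fin (add (start D577) (orK (nat_lit 252) (fin (add (start D578) D129))))))) (orK (nat_lit 268) (fin (add (start D577) (orK (nat_lit 271) (fin (add (start D741) (orK (nat_lit 229) (fin (add (add (add (start (orK (nat_lit 209) (fin (add (start D3126) D3129)))) (orK (nat_lit 289) (fin (add (start D3132) (orK (nat_lit 288) (fin (add (start D3133) (orK (nat_lit 309) (fin (add (start D3134) (orK (nat_lit 311) (fin (add (start (win (nat_lit 7) (nat_lit 10) (nat_lit 11) (nat_lit 1))) (orK (nat_lit 310) (fin (add (start (win (nat_lit 2) (nat_lit 8) (nat_lit 14) (nat_lit 0))) (orK (nat_lit 287) (fin (add (start D2579) (win (nat_lit 0) (nat_lit 7) (nat_lit 14) (nat_lit 3))))))))))))))))))))) (orK (nat_lit 209) (fin (add (start D3126)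 (orK (nat_lit 288) (fin (add (start D3150) D3133))))))) (orK (nat_lit 209) (fin (add (start D3126) (orK (nat_lit 269) (fin (add (start D23) (orK (nat_lit 208) (fin (add (start D3155) (orK (nat_lit 207) (fin (add (start D2640) (orK (nat_lit 187) (fin (add (start D2660) (win (nat_lit 7) (nat_lit 7) (nat_lit 9) (nat_lit 2))))))))))))))))))))))))))))
noncomputable def D3179 : OP := orK (nat_lit 251) (fin (add (add (start D2905) D3121) D584))
noncomputable def D2977 : OP := win (nat_lit 1) (nat_lit 7) (nat_lit 10) (nat_lit 3)
noncomputable def D2979 : OP := orK (nat_lit 287) (fin (add (start D2977) D2932))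
noncomputable def D2981 : OP := orK (nat_lit 267) (fin (add (start D2928) D2979))
noncomputable def D3057 : OP := orK (nat_lit 287) (fin (add (start (win (nat_lit 3) (nat_lit 7) (nat_lit 10) (nat_lit 3))) D2932))
noncomputable def D3062 : OP := win (nat_lit 1) (nat_lit 7) (nat_lit 8) (nat_lit 4)
noncomputable def D3046 : AP := fin (add (start D1955) (orK (nat_lit 187) (fin (add (start D2660) (orK (nat_lit 227) (fin (add (start D2659) D3041)))))))
noncomputable def D2982 : OP := win (nat_lit 5) (nat_lit 7) (nat_lit 11) (nat_lit 2)
noncomputable def D2920 : AP := fin (add (start D408) D560)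
noncomputable def D4055 : AP := fin (add (add (add (add (add (add (add (add (start (orK (nat_lit 247) (fin (add (add (add (add (add (start (orK (nat_lit 249) D2918)) (orK (nat_lit 249) D2920)) (orK (nat_lit 249) D2926)) (orK (nat_lit 249) D2966)) (orK (nat_lit 249) (fin (add (start D408) D2965)))) (orK (nat_lit 228) (fin (add (add (add (start (orK (nat_lit 229) D2975)) (orK (nat_lit 208) (fin (add (add (add (start D2981) (orK (nat_lit 231) (fin (add (start D2982) (orK (nat_lit 207) (fin (add (start D1496) D2988))))))) (orK (nat_lit 231) (fin (add (start D2982) (orK (nat_lit 207) (fin (add (start D1496) (orK (nat_lit 268) (fin (add (start D591) D3002)))))))))) (orK (nat_lit 188) (fin (add (start D3009) (orK (nat_lit 169) (fin (add (start D596) (orK (nat_lit 168) (fin (add (start D597) (orK (nat_lit 231) (fin (add (start D2982) D1668)))))))))))))))) (orK (nat_lit 208) (fin (add (add (add (start (orK (nat_lit 207) (fin (add (add (add (start (orK (nat_lit 209) (fin (add (start D1955) (orK (nat_lit 187) (fin (add (start D2660) D2983))))))) (orK (nat_lit 187) (fin (add (start D2983) (orK (nat_lit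 167) (fin (add (start D3029) D2984))))))) (orK (nat_lit 209) (fin (add (start D1955) (orK (nat_lit 268) (fin (add (start D1491) (orK (nat_lit 227) (fin (add (start D2659) D3034)))))))))) (orK (nat_lit 209) D3046))))) (orK (nat_lit 209) (fin (add (start (orK (nat_lit 268) (fin (add (start D1491) D3002)))) (orK (nat_lit 207) D3046))))) D2981) (orK (nat_lit 267) (fin (add (start D2928) D3057))))))) (orK (nat_lit 208) (fin (add (add (start (orK (nat_lit 188) (fin (add (add (add (start (orK (nat_lit 168) (fin (add (start D3062) (orK (nat_lit 169) (fin (add (start D597) D596))))))) (orK (nat_lit 168) (fin (add (start D3062) D1668)))) (orK (nat_lit 187) (fin (add (start D605) (orK (nat_lit 189) (fin (add (start D1485) (orK (nat_lit 186) (fin (add (start D3069) (orK (nat_lit 166) (fin (add (start D3070) (orK (nat_lit 206) (fin (add (start D3071) (orK (nat_lit 227) (fin (add (start (win (nat_lit 6) (nat_lit 6) (nat_lit 8) (nat_lit 3))) (win (nat_lit 7) (nat_lit 6) (nat_lit 8) (nat_lit 2))))))))))))))))))))) D1672)))) (orK (nat_lit 267) (fin (add (add (start D2979) D3057) (orK (nat_lit 207) (fin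 (add (add (start (orK (nat_lit 187) (fin (add (start D2983) (orK (nat_lit 167) (fin (add (start D2661) D3029))))))) (orK (nat_lit 229) (fin (add (start D3095) D2974)))) (orK (nat_lit 268) (fin (add (start D591) (orK (nat_lit 209) (fin (add (start D1491) (orK (nat_lit 229) (fin (add (start D2640) D2818)))))))))))))))) D2981)))))))))) (orK (nat_lit 249) (fin (add (add (start D3174) D548) D2915)))) (orK (nat_lit 249) (fin (add (add (start D3177) D3179) D3196)))) (orK (nat_lit 249) (fin (add (add (add (start D548) D3253) D3179) D3254)))) (orK (nat_lit 249) (fin (add (add (add (add (add (start D3174) D3196) D3253) (orK (nat_lit 247) D2966)) D3288) D3296)))) (orK (nat_lit 229) D3671)) (orK (nat_lit 228) D4049)) (orK (nat_lit 249) (fin (add (add (add (start D3177) D548) D3288) D2911)))) (orK (nat_lit 249) (fin (add (add (add (start D3296) D548) D3177) D2911))))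
noncomputable def D2192 : OP := win (nat_lit 4) (nat_lit 7) (nat_lit 14) (nat_lit 3)
noncomputable def D2711 : OP := orK (nat_lit 232) (fin (add (start D2706) D2709))
noncomputable def D2810 : OP := orK (nat_lit 232) (fin (add (start D2706) D2808))
noncomputable def D2373 : OP := win (nat_lit 4) (nat_lit 7) (nat_lit 14) (nat_lit 0)
noncomputable def D2746 : AP := fin (add (start D2744) D2745)
noncomputable def D2636 : OP := orK (nat_lit 309) (fin (add (start D378) (orK (nat_lit 310) (fin (add (start D379) D381)))))
noncomputable def D2602 : OP := win (nat_lit 5) (nat_lit 7) (nat_lit 14) (nat_lit 4)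
noncomputable def D2601 : OP := win (nat_lit 5) (nat_lit 6) (nat_lit 14) (nat_lit 5)
noncomputable def D2604 : OP := orK (nat_lit 307) (fin (add (start D2601) D2602))
noncomputable def D2158 : OP := win (nat_lit 2) (nat_lit 6) (nat_lit 13) (nat_lit 5)
noncomputable def D2159 : OP := win (nat_lit 2) (nat_lit 7) (nat_lit 13) (nat_lit 4)
noncomputable def D2608 : OP := orK (nat_lit 267) (fin (add (start D2159) (orK (nat_lit 287) (fin (add (start D2158) D2604)))))
noncomputable def D2590 : OP := win (nat_lit 5) (nat_lit 6) (nat_lit 14) (nat_lit 4)
noncomputable def D2589 : OP := win (nat_lit 5) (nat_lit 5) (nat_lit 14) (nat_lit 5)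
noncomputable def D2592 : OP := orK (nat_lit 306) (fin (add (start D2589) D2590))
noncomputable def D2578 : OP := win (nat_lit 0) (nat_lit 7) (nat_lit 14) (nat_lit 5)
noncomputable def D2197 : OP := win (nat_lit 5) (nat_lit 8) (nat_lit 14) (nat_lit 4)
noncomputable def D2211 : OP := win (nat_lit 5) (nat_lit 7) (nat_lit 14) (nat_lit 5)
noncomputable def D2229 : OP := orK (nat_lit 308) (fin (add (start D2211) D2197))
noncomputable def D2610 : OP := orK (nat_lit 288) (fin (add (add (add (start D2229) (orK (nat_lit 267) (fin (add (start D2159) (orK (nat_lit 287) (fin (add (start D2158) (orK (nat_lit 310) (fin (add (start D2578) (orK (nat_lit 309) (fin (add (start D2579) D1519))))))))))))) (orK (nat_lit 267) (fin (add (start D2159) (orK (nat_lit 287) (fin (add (start D2158) (orK (nat_lit 310) (fin (add (start D2578) (orK (nat_lit 286) (fin (add (start (win (nat_lit 0) (nat_lit 6) (nat_lit 14) (nat_lit 4))) D2592))))))))))))) D2608))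
noncomputable def D2317 : OP := win (nat_lit 5) (nat_lit 10) (nat_lit 14) (nat_lit 4)
noncomputable def D2316 : OP := win (nat_lit 5) (nat_lit 9) (nat_lit 14) (nat_lit 5)
noncomputable def D2506 : OP := orK (nat_lit 310) (fin (add (start D2316) D2317))
noncomputable def D2199 : OP := win (nat_lit 0) (nat_lit 11) (nat_lit 14) (nat_lit 5)
noncomputable def D2198 : OP := win (nat_lit 0) (nat_lit 10) (nat_lit 14) (nat_lit 4)
noncomputable def D2510 : OP := orK (nat_lit 314) (fin (add (start D2198) (orK (nat_lit 294) (fin (add (start D2199) D2506)))))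
noncomputable def D2248 : OP := win (nat_lit 4) (nat_lit 9) (nat_lit 13) (nat_lit 0)
noncomputable def D2307 : OP := orK (nat_lit 272) (fin (add (start D2248) (orK (nat_lit 274) (fin (add (start (win (nat_lit 4) (nat_lit 10) (nat_lit 13) (nat_lit 3))) (win (nat_lit 5) (nat_lit 11) (nat_lit 13) (nat_lit 0)))))))
noncomputable def D2498 : OP := win (nat_lit 4) (nat_lit 11) (nat_lit 13) (nat_lit 5)
noncomputable def D2497 : OP := win (nat_lit 4) (nat_lit 10) (nat_lit 13) (nat_lit 4)
noncomputable def D2504 : OP := orK (nat_lit 314) (fin (add (start D2198) (orK (nat_lit 294) (fin (add (start D2199) (orK (nat_lit 274) (fin (add (start D2497) D2498))))))))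
noncomputable def D2175 : OP := orK (nat_lit 309) (fin (add (start D1519) D1520))
noncomputable def D2173 : OP := win (nat_lit 0) (nat_lit 9) (nat_lit 14) (nat_lit 4)
noncomputable def D2033 : OP := win (nat_lit 0) (nat_lit 10) (nat_lit 14) (nat_lit 5)
noncomputable def D2315 : OP := orK (nat_lit 313) (fin (add (start D2033) (orK (nat_lit 289) (fin (add (start D2173) D2175)))))
noncomputable def D2166 : OP := win (nat_lit 4) (nat_lit 9) (nat_lit 13) (nat_lit 5)
noncomputable def D2461 : OP := win (nat_lit 6) (nat_lit 12) (nat_lit 12) (nat_lit 0)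
noncomputable def D2032 : OP := win (nat_lit 0) (nat_lit 9) (nat_lit 14) (nat_lit 0)
noncomputable def D2561 : OP := orK (nat_lit 313) (fin (add (start D2032) (orK (nat_lit 333) (fin (add (start D2461) (orK (nat_lit 353) (fin (add (start (win (nat_lit 6) (nat_lit 12) (nat_lit 13) (nat_lit 3))) (win (nat_lit 7) (nat_lit 12) (nat_lit 14) (nat_lit 0))))))))))
noncomputable def D2452 : OP := orK (nat_lit 353) (fin (add (start (win (nat_lit 6) (nat_lit 12) (nat_lit 13) (nat_lit 4))) (win (nat_lit 6) (nat_lit 12) (nat_lit 14) (nat_lit 5))))
noncomputable def D2446 : OP := win (nat_lit 1) (nat_lit 11) (nat_lit 14) (nat_lit 5)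
noncomputable def D2447 : OP := win (nat_lit 1) (nat_lit 11) (nat_lit 13) (nat_lit 4)
noncomputable def D2420 : OP := win (nat_lit 3) (nat_lit 12) (nat_lit 11) (nat_lit 5)
noncomputable def D2423 : AP := fin (add (start D2420) (orK (nat_lit 251) (fin (add (start D1989) D311))))
noncomputable def D2026 : OP := win (nat_lit 1) (nat_lit 11) (nat_lit 11) (nat_lit 0)
noncomputable def D2167 : AP := fin (add (start D2026) D2027)
noncomputable def D2381 : OP := orK (nat_lit 311) D2167
noncomputable def D2258 : AP := fin (add (start (win (nat_lit 2) (nat_lit 10) (nat_lit 14) (nat_lit 3))) (win (nat_lit 2) (nat_lit 11) (nat_lit 14) (nat_lit 0)))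
noncomputable def D2263 : AP := fin (add (start D2032) (orK (nat_lit 314) D2258))
noncomputable def D2410 : AP := fin (add (start D1733) D922)
noncomputable def D2429 : OP := orK (nat_lit 232) (fin (add (start D1043) (orK (nat_lit 233) D2410)))
noncomputable def D2412 : OP := win (nat_lit 3) (nat_lit 12) (nat_lit 11) (nat_lit 0)
noncomputable def D2045 : OP := orK (nat_lit 331) (fin (add (start (win (nat_lit 1) (nat_lit 11) (nat_lit 12) (nat_lit 3))) (win (nat_lit 3) (nat_lit 11) (nat_lit 13) (nat_lit 0))))
noncomputable def D2047 : OP := orK (nat_lit 311) (fin (add (start D2026) D2045))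
noncomputable def D2300 : AP := fin (add (start D1592) (orK (nat_lit 333) (fin (add (add (start (orK (nat_lit 272) (fin (add (start (win (nat_lit 7) (nat_lit 12) (nat_lit 12) (nat_lit 5))) D2275)))) (orK (nat_lit 352) (fin (add (start (win (nat_lit 1) (nat_lit 12) (nat_lit 13) (nat_lit 4))) (orK (nat_lit 353) (fin (add (start (win (nat_lit 1) (nat_lit 12) (nat_lit 14) (nat_lit 5))) (orK (nat_lit 354) (fin (add (start (win (nat_lit 6) (nat_lit 13) (nat_lit 13) (nat_lit 4))) (win (nat_lit 6) (nat_lit 13) (nat_lit 14) (nat_lit 5)))))))))))) (orK (nat_lit 332) (fin (add (start (win (nat_lit 1) (nat_lit 12) (nat_lit 13) (nat_lit 5))) (orK (nat_lit 253) (fin (add (start (win (nat_lit 1) (nat_lit 12) (nat_lit 12) (nat_lit 4))) (orK (nat_lit 252) (fin (add (start (win (nat_lit 7) (nat_lit 12) (nat_lit 11) (nat_lit 5))) (win (nat_lit 7) (nat_lit 12) (nat_lit 12) (nat_lit 4)))))))))))))))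
noncomputable def D2402 : OP := win (nat_lit 5) (nat_lit 9) (nat_lit 14) (nat_lit 0)
noncomputable def D2439 : OP := orK (nat_lit 308) (fin (add (start (win (nat_lit 5) (nat_lit 8) (nat_lit 14) (nat_lit 3))) (orK (nat_lit 310) (fin (add (start D2373) D2402)))))
noncomputable def D2168 : OP := orK (nat_lit 252) D2167
noncomputable def D2149 : OP := win (nat_lit 0) (nat_lit 8) (nat_lit 14) (nat_lit 0)
noncomputable def D2405 : OP := orK (nat_lit 310) (fin (add (start D2402) (orK (nat_lit 308) (fin (add (start D2373) (win (nat_lit 4) (nat_lit 8) (nat_lit 14) (nat_lit 3)))))))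
noncomputable def D2442 : OP := win (nat_lit 1) (nat_lit 12) (nat_lit 12) (nat_lit 0)
noncomputable def D2391 : OP := win (nat_lit 3) (nat_lit 12) (nat_lit 13) (nat_lit 0)
noncomputable def D2406 : AP := fin (add (start D2149) D2027)
noncomputable def D2200 : OP := win (nat_lit 5) (nat_lit 10) (nat_lit 14) (nat_lit 5)
noncomputable def D2336 : OP := win (nat_lit 5) (nat_lit 11) (nat_lit 14) (nat_lit 5)
noncomputable def D2321 : OP := win (nat_lit 4) (nat_lit 12) (nat_lit 13) (nat_lit 5)
noncomputable def D2320 : OP := win (nat_lit 4) (nat_lit 11) (nat_lit 13) (nat_lit 4)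
noncomputable def D2327 : OP := orK (nat_lit 315) (fin (add (start (win (nat_lit 0) (nat_lit 11) (nat_lit 14) (nat_lit 4))) (orK (nat_lit 295) (fin (add (start (win (nat_lit 0) (nat_lit 12) (nat_lit 14) (nat_lit 5))) (orK (nat_lit 275) (fin (add (start D2320) D2321))))))))
noncomputable def D2631 : AP := fin (add (add (add (add (add (add (add (start (orK (nat_lit 313) (fin (add (add (add (start (orK (nat_lit 293) (fin (add (start D2033) (orK (nat_lit 273) (fin (add (start D1592) (orK (nat_lit 272) (fin (add (start D2248) (orK (nat_lit 252) (fin (add (start D1722) D856))))))))))))) (orK (nat_lit 314) (fin (add (start (win (nat_lit 0) (nat_lit 10) (nat_lit 14) (nat_lit 3))) (orK (nat_lit 312) D2258))))) (orK (nat_lit 312) D2263)) (orK (nat_lit 273) (fin (add (add (add (start (orK (nat_lit 289) (fin (add (start D2173) D1589)))) (orK (nat_lit 293) (fin (add (start D1592) (orK (nat_lit 312) (fin (add (start D2032) (orK (nat_lit 253) (fin (add (start (win (nat_lit 1) (nat_lit 12) (nat_lit 11) (nat_lit 0))) D853)))))))))) (orK (nat_lit 293) D2300)) D2307))))))) (orK (nat_lit 293) (fin (add (add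 (add (start D2315) (orK (nat_lit 310) (fin (add (start D2316) (orK (nat_lit 294) (fin (add (start D2317) D2327))))))) (orK (nat_lit 294) (fin (add (add (add (start (orK (nat_lit 314) (fin (add (start D2198) D2199)))) D2327) (orK (nat_lit 275) (fin (add (start D2320) (orK (nat_lit 295) (fin (add (start D2321) (orK (nat_lit 316) (fin (add (start (win (nat_lit 0) (nat_lit 12) (nat_lit 14) (nat_lit 4))) (orK (nat_lit 296) (fin (add (start (win (nat_lit 0) (nat_lit 13) (nat_lit 14) (nat_lit 5))) (orK (nat_lit 312) (fin (add (start D2336) (win (nat_lit 5) (nat_lit 12) (nat_lit 14) (nat_lit 4)))))))))))))))))) (orK (nat_lit 313) (fin (add (start D2033) (orK (nat_lit 312) (fin (add (start D2032) (orK (nat_lit 295) (fin (add (start D2336) (win (nat_lit 5) (nat_lit 12) (nat_lit 14) (nat_lit 0))))))))))))))) (orK (nat_lit 289) (fin (add (add (start D2175) (orK (nat_lit 312) (fin (add (start D1590) (orK (nat_lit 311) (fin (add (start D2149) (orK (nat_lit 294) (fin (add (start D2200) (win (nat_lit 5) (nat_lit 11) (nat_lit 14) (nat_lit 0)))))))))))) (orK (nat_lit 312) (fin (add (start D1590) (orK (nat_lit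 288) (fin (add (start (win (nat_lit 0) (nat_lit 8) (nat_lit 14) (nat_lit 4))) D2229))))))))))))) (orK (nat_lit 309) (fin (add (add (add (start (orK (nat_lit 293) (fin (add (start D1520) (orK (nat_lit 273) (fin (add (start D1592) (orK (nat_lit 272) (fin (add (start D2248) (orK (nat_lit 312) (fin (add (start (orK (nat_lit 252) (fin (add (start (orK (nat_lit 251) (fin (add (start D1064) D311)))) D2381)))) (orK (nat_lit 332) (fin (add (start (win (nat_lit 3) (nat_lit 12) (nat_lit 12) (nat_lit 5))) D2391)))))))))))))))) D2405) (orK (nat_lit 289) (fin (add (start D1519) (orK (nat_lit 272) (fin (add (start D2166) (orK (nat_lit 252) (fin (add (add (add (start (orK (nat_lit 311) (fin (add (start D2026) (orK (nat_lit 312) D2406))))) (orK (nat_lit 233) (fin (add (start (orK (nat_lit 232) D2410)) (orK (nat_lit 253) (fin (add (start D2412) (orK (nat_lit 251) (fin (add (start D1989) D133)))))))))) (orK (nat_lit 312) (fin (add (start (orK (nat_lit 311) D2406)) (orK (nat_lit 253) D2423))))) D2429)))))))))) D2439)))) (orK (nat_lit 309) (fin (add (add (add (start (orK (nat_lit 293) (fin (add (start D1520)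 (orK (nat_lit 313) (fin (add (start D2033) (orK (nat_lit 312) (fin (add (start D2032) (orK (nat_lit 332) (fin (add (add (start (orK (nat_lit 273) (fin (add (start D2442) D2391)))) (orK (nat_lit 352) (fin (add (start (win (nat_lit 3) (nat_lit 12) (nat_lit 14) (nat_lit 0))) (orK (nat_lit 351) (fin (add (start D2446) (orK (nat_lit 272) (fin (add (start D2447) (orK (nat_lit 232) (fin (add (start (win (nat_lit 6) (nat_lit 12) (nat_lit 11) (nat_lit 1))) D2452))))))))))))) (orK (nat_lit 333) (fin (add (start (orK (nat_lit 272) (fin (add (start D2461) D318)))) (orK (nat_lit 334) (fin (add (start (orK (nat_lit 273) (fin (add (start D2442) (win (nat_lit 6) (nat_lit 13) (nat_lit 13) (nat_lit 5)))))) (orK (nat_lit 335) (fin (add (start (win (nat_lit 2) (nat_lit 11) (nat_lit 15) (nat_lit 5))) (win (nat_lit 2) (nat_lit 12) (nat_lit 15) (nat_lit 0)))))))))))))))))))))))) D2405) (orK (nat_lit 289) (fin (add (start D1519) (orK (nat_lit 312) (fin (add (start D1590) (orK (nat_lit 272) (fin (add (start D2166) (orK (nat_lit 311) (fin (add (start D2149) D2168))))))))))))) D2439)))) (orK (nat_lit 293) (fin (add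 (add (add (start D2504) D2510) (orK (nat_lit 274) (fin (add (start D2497) (orK (nat_lit 294) (fin (add (start D2498) D2506))))))) (orK (nat_lit 309) (fin (add (start D1520) (orK (nat_lit 313) (fin (add (start D2033) (orK (nat_lit 273) D2300))))))))))) (orK (nat_lit 272) (fin (add (add (add (start (orK (nat_lit 252) (fin (add (add (start D2047) (orK (nat_lit 253) (fin (add (add (start (orK (nat_lit 251) (fin (add (start D1989) (orK (nat_lit 273) (fin (add (start D1064) D131))))))) (orK (nat_lit 233) (fin (add (start D2412) (orK (nat_lit 213) (fin (add (start D2534) (win (nat_lit 1) (nat_lit 12) (nat_lit 10) (nat_lit 3))))))))) (orK (nat_lit 251) (fin (add (start D1989) (orK (nat_lit 231) (fin (add (start D1511) D1518)))))))))) D2429)))) (orK (nat_lit 312) (fin (add (add (start (orK (nat_lit 313) D2263)) (orK (nat_lit 252) (fin (add (start D2381) (orK (nat_lit 251) (fin (add (start D311) (orK (nat_lit 253) (fin (add (start D1989) D2420)))))))))) D2561)))) (orK (nat_lit 312) (fin (add (add (start (orK (nat_lit 289) (fin (add (start D1590) D2166)))) (orK (nat_lit 253) (fin (add (start (orK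 (nat_lit 252) D2423)) (orK (nat_lit 332) (fin (add (start (win (nat_lit 3) (nat_lit 12) (nat_lit 12) (nat_lit 4))) (orK (nat_lit 351) (fin (add (start D2447) (orK (nat_lit 352) (fin (add (start D2446) D2452))))))))))))) D2561)))) (orK (nat_lit 289) (fin (add (start D2166) D2610))))))) (orK (nat_lit 293) (fin (add (add (start D2315) (orK (nat_lit 273) (fin (add (start D1592) (orK (nat_lit 289) (fin (add (start D1589) D2175))))))) D2504)))) (orK (nat_lit 273) (fin (add (add (start D2307) (orK (nat_lit 293) (fin (add (start D1592) D2510)))) (orK (nat_lit 289) (fin (add (start D1589) D2610)))))))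
noncomputable def D2214 : OP := win (nat_lit 5) (nat_lit 8) (nat_lit 14) (nat_lit 0)
noncomputable def D2191 : OP := win (nat_lit 4) (nat_lit 6) (nat_lit 14) (nat_lit 0)
noncomputable def D2190 : OP := win (nat_lit 5) (nat_lit 7) (nat_lit 14) (nat_lit 3)
noncomputable def D2163 : OP := orK (nat_lit 287) (fin (add (start D2157) (orK (nat_lit 267) (fin (add (start D2158) D2159)))))
noncomputable def D2048 : OP := win (nat_lit 2) (nat_lit 10) (nat_lit 14) (nat_lit 0)
noncomputable def D2150 : OP := win (nat_lit 0) (nat_lit 9) (nat_lit 14) (nat_lit 3)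
noncomputable def D2164 : AP := fin (add (start D2156) D2163)
noncomputable def D2148 : OP := win (nat_lit 6) (nat_lit 10) (nat_lit 11) (nat_lit 2)
noncomputable def D2858 : AP := fin (add (add (add (start (orK (nat_lit 270) D264)) (orK (nat_lit 311) (fin (add (start D2148) (orK (nat_lit 289) (fin (add (add (add (start (orK (nat_lit 288) D2164)) (orK (nat_lit 292) (fin (add (add (start (orK (nat_lit 312) (fin (add (start D1590) (orK (nat_lit 272) (fin (add (start D2166) D2168))))))) (orK (nat_lit 313) (fin (add (start D2173) (orK (nat_lit 293) (fin (add (start D2033) D2175))))))) (orK (nat_lit 273) (fin (add (start D1589) (orK (nat_lit 293) (fin (add (start D1592) D2175)))))))))) (orK (nat_lit 312) (fin (add (start D2149) (orK (nat_lit 313) (fin (add (start D2150) D2048))))))) (orK (nat_lit 308) (fin (add (add (start (orK (nat_lit 292) (fin (add (start D2197) (orK (nat_lit 273) (fin (add (start D1589) (orK (nat_lit 293) (fin (add (start D1592) (orK (nat_lit 314) (fin (add (start D2198) (orK (nat_lit 294) (fin (add (start D2199) D2200)))))))))))))))) (orK (nat_lit 288) (fin (add (start D2211)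 D2163)))) (orK (nat_lit 307) (fin (add (start D2190) (orK (nat_lit 309) (fin (add (start D2191) D2214)))))))))))))))) (orK (nat_lit 292) D2631)) (orK (nat_lit 229) (fin (add (add (add (start (orK (nat_lit 270) (fin (add (start D380) D2636)))) (orK (nat_lit 209) (fin (add (start (win (nat_lit 7) (nat_lit 9) (nat_lit 10) (nat_lit 1))) D2674)))) (orK (nat_lit 228) (fin (add (add (add (start D2704) (orK (nat_lit 231) (fin (add (add (add (start D2734) (orK (nat_lit 248) (fin (add (start D2132) (orK (nat_lit 251) (fin (add (start D2101) (orK (nat_lit 268) (fin (add (add (start (orK (nat_lit 208) (fin (add (start D215) D2738)))) (orK (nat_lit 309) (fin (add (add (start (orK (nat_lit 270) (fin (add (start D378) D643)))) (orK (nat_lit 288) (fin (add (start D2743) (orK (nat_lit 308) D2746))))) (orK (nat_lit 308) (fin (add (start (orK (nat_lit 288) D2746)) (orK (nat_lit 310) (fin (add (start D1533) D2373)))))))))) (orK (nat_lit 208) (fin (add (start D215) (orK (nat_lit 267) (fin (add (start D2735) (orK (nat_lit 289) (fin (add (start (win (nat_lit 2) (nat_lit 7) (nat_lit 13) (nat_lit 3))) D1517)))))))))))))))))))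 (orK (nat_lit 248) (fin (add (start D2132) (orK (nat_lit 232) (fin (add (start D2707) D213))))))) (orK (nat_lit 248) (fin (add (start D2132) (orK (nat_lit 232) (fin (add (start D2707) D2726)))))))))) D2780) D2784)))) (orK (nat_lit 228) (fin (add (add (add (start D2791) D2679) D2803) (orK (nat_lit 252) (fin (add (add (add (start (orK (nat_lit 251) D2022)) (orK (nat_lit 251) D2127)) (orK (nat_lit 251) D2781)) (orK (nat_lit 231) (fin (add (add (start D2810) D2711) (orK (nat_lit 248) (fin (add (start D2132) (orK (nat_lit 189) (fin (add (add (add (start (orK (nat_lit 169) (fin (add (start (win (nat_lit 1) (nat_lit 8) (nat_lit 8) (nat_lit 2))) (orK (nat_lit 208) (fin (add (start D215) D1651))))))) (orK (nat_lit 209) D2821)) (orK (nat_lit 208) (fin (add (start D215) (orK (nat_lit 268) (fin (add (start D1486) (orK (nat_lit 267) (fin (add (start D2735) (orK (nat_lit 288) (fin (add (start (win (nat_lit 2) (nat_lit 7) (nat_lit 13) (nat_lit 2))) (orK (nat_lit 308) (fin (add (start D2744) (orK (nat_lit 307) (fin (add (start D2824) (orK (nat_lit 309) (fin (add (start D2192) D2745))))))))))))))))))))))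 (orK (nat_lit 208) (fin (add (start D215) D2843))))))))))))))))))))))
noncomputable def D2102 : OP := win (nat_lit 7) (nat_lit 10) (nat_lit 10) (nat_lit 1)
noncomputable def D1985 : AP := fin (add (start D1983) D1984)
noncomputable def D2088 : AP := fin (add (start D408) D424)
noncomputable def D2017 : AP := fin (add (start D1983) D2016)
noncomputable def D1986 : OP := orK (nat_lit 228) D1985
noncomputable def D1988 : OP := orK (nat_lit 229) (fin (add (start D127) D1986))
noncomputable def D2018 : OP := orK (nat_lit 228) D2017
noncomputable def D2020 : OP := orK (nat_lit 229) (fin (add (start D127) D2018))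
noncomputable def D2007 : OP := orK (nat_lit 232) (fin (add (start D1039) D570))
noncomputable def D1993 : OP := orK (nat_lit 272) D1992
noncomputable def D2011 : OP := orK (nat_lit 249) (fin (add (add (start D1993) (orK (nat_lit 233) (fin (add (start D132) (orK (nat_lit 248) (fin (add (add (add (start D1995) (orK (nat_lit 229) (fin (add (start D126) D426)))) D2001) D1299))))))) (orK (nat_lit 272) (fin (add (start D698) D2007)))))
noncomputable def D1991 : OP := orK (nat_lit 253) (fin (add (start D1989) D1126))
noncomputable def D1982 : OP := orK (nat_lit 271) D739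
noncomputable def D1980 : OP := orK (nat_lit 271) D1979
noncomputable def D2896 : OP := orK (nat_lit 291) (fin (add (add (add (add (start D1980) (orK (nat_lit 270) D266)) (orK (nat_lit 251) (fin (add (add (add (start D1982) (orK (nat_lit 252) (fin (add (add (add (start D1988) D1122) D1991) (orK (nat_lit 271) (fin (add (start D736) D2011))))))) (orK (nat_lit 252) (fin (add (add (add (start D2020) D1030) D1988) (orK (nat_lit 228) (fin (add (add (add (start (orK (nat_lit 229) D2017)) (orK (nat_lit 229) D2022)) (orK (nat_lit 272) (fin (add (add (start (orK (nat_lit 292) (fin (add (add (add (start (orK (nat_lit 312) (fin (add (start D311) (orK (nat_lit 313) (fin (add (start D1045) (orK (nat_lit 290) (fin (add (start D2032) (orK (nat_lit 293) (fin (add (start D2033) D1722))))))))))))) D2047) (orK (nat_lit 312) (fin (add (start D311) (orK (nat_lit 311) (fin (add (start D2027) (orK (nat_lit 313) (fin (add (start D1045) (orK (nat_lit 290) (fin (add (start D2032) D2048))))))))))))) (orK (nat_lit 232) (fin (add (start D1043) (orK (nat_lit 233) (fin (add (start D1733) D951)))))))))) (orK (nat_lit 232)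 (fin (add (add (add (start (orK (nat_lit 249) (fin (add (start D698) D570)))) (orK (nat_lit 273) (fin (add (start D1064) (orK (nat_lit 292) (fin (add (start D1043) (orK (nat_lit 293) (fin (add (start D1921) D1521)))))))))) (orK (nat_lit 292) (fin (add (start D1043) (orK (nat_lit 233) (fin (add (start D1733) (orK (nat_lit 293) (fin (add (start D1521) (orK (nat_lit 273) (fin (add (start D1921) (orK (nat_lit 274) (fin (add (start D1080) (win (nat_lit 4) (nat_lit 10) (nat_lit 13) (nat_lit 0)))))))))))))))))) (orK (nat_lit 292) (fin (add (start D1043) D2083))))))) (orK (nat_lit 249) (fin (add (start D698) (orK (nat_lit 248) (fin (add (start D141) (orK (nat_lit 247) D2088))))))))))) (orK (nat_lit 229) D1985)))))))) (orK (nat_lit 229) (fin (add (add (add (start (orK (nat_lit 228) (fin (add (start D1983) (orK (nat_lit 231) (fin (add (start D2101) D2102))))))) (orK (nat_lit 252) (fin (add (start D127) (orK (nat_lit 232) (fin (add (add (start (orK (nat_lit 271) (fin (add (start D733) D1242)))) (orK (nat_lit 249) (fin (add (start D570) (orK (nat_lit 272) (fin (add (start D698) (orK (nat_lit 271) (fin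 (add (start D747) D1039)))))))))) (orK (nat_lit 233) (fin (add (start D886) D951)))))))))) D2130) (orK (nat_lit 231) (fin (add (start D2102) (orK (nat_lit 228) (fin (add (start D1983) (orK (nat_lit 208) (fin (add (start D215) (orK (nat_lit 232) (fin (add (start D214) (orK (nat_lit 248) (fin (add (start D2131) D2132)))))))))))))))))))))) (orK (nat_lit 290) D2858)) (orK (nat_lit 270) (fin (add (start D252) D2892)))))
noncomputable def D1924 : AP := fin (add (start D201) (orK (nat_lit 208) (fin (add (start D326) D327))))
noncomputable def D484 : OP := orK (nat_lit 251) D483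
noncomputable def D518 : OP := orK (nat_lit 249) (fin (add (start D504) (win (nat_lit 7) (nat_lit 9) (nat_lit 12) (nat_lit 0))))
noncomputable def D693 : OP := orK (nat_lit 329) (fin (add (start D502) (orK (nat_lit 330) (fin (add (start D503) D458)))))
noncomputable def D488 : OP := orK (nat_lit 309) (fin (add (start D378) (orK (nat_lit 310) (fin (add (start D379) D484)))))
noncomputable def D501 : OP := orK (nat_lit 289) (fin (add (start D250) D251))
noncomputable def D515 : OP := orK (nat_lit 311) (fin (add (start D392) (orK (nat_lit 310) (fin (add (start D393) (orK (nat_lit 329) (fin (add (start D502) (orK (nat_lit 330) (fin (add (start D503) (orK (nat_lit 249) (fin (add (start D504) D505))))))))))))))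
noncomputable def D499 : OP := orK (nat_lit 290) (fin (add (add (add (start D255) D480) D488) (orK (nat_lit 309) (fin (add (start D378) (orK (nat_lit 310) (fin (add (start D379) (orK (nat_lit 251) (fin (add (start D452) D491)))))))))))
noncomputable def D383 : OP := orK (nat_lit 229) (fin (add (start D380) D381))
noncomputable def D397 : OP := orK (nat_lit 311) (fin (add (start D392) (orK (nat_lit 310) (fin (add (start D393) D383)))))
noncomputable def D401 : OP := orK (nat_lit 289) (fin (add (start D250) (orK (nat_lit 290) (fin (add (start D251) D397)))))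
noncomputable def D387 : OP := orK (nat_lit 309) (fin (add (start D378) (orK (nat_lit 310) (fin (add (start D379) D383)))))
noncomputable def D391 : OP := orK (nat_lit 291) (fin (add (start D252) (orK (nat_lit 290) (fin (add (start D253) D387)))))
noncomputable def D474 : OP := orK (nat_lit 270) (fin (add (add (add (add (add (start D259) D301) D391) D401) D451) (orK (nat_lit 289) (fin (add (start D250) (orK (nat_lit 290) (fin (add (start D251) (orK (nat_lit 229) (fin (add (start D380) (orK (nat_lit 310) (fin (add (start D381) (orK (nat_lit 251) (fin (add (start D452) (orK (nat_lit 330) (fin (add (start D453) (orK (nat_lit 349) (fin (add (start D454) D458)))))))))))))))))))))))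
noncomputable def D363 : OP := orK (nat_lit 268) (fin (add (start (orK (nat_lit 288) (fin (add (start (win (nat_lit 1) (nat_lit 8) (nat_lit 10) (nat_lit 1))) D355)))) D361))
noncomputable def D5120 : AP := fin (add (add (add (add (add (add (add (add (add (add (add (add (add (add (add (add (start (orK (nat_lit 270) (fin (add (add (add (start D259) D271) D267) (orK (nat_lit 269) (fin (add (start D104) (orK (nat_lit 271) (fin (add (start D106) (orK (nat_lit 209) (fin (add (start D260) (orK (nat_lit 272) (fin (add (start D309) D339)))))))))))))))) (orK (nat_lit 270) (fin (add (add (add (start D259) D271) D267) (orK (nat_lit 269) (fin (add (start D104) (orK (nat_lit 271) (fin (add (start D106) (orK (nat_lit 209) (fin (add (start D260) (orK (nat_lit 249) (fin (add (add (start D353) (orK (nat_lit 272) (fin (add (start D307) D363)))) (orK (nat_lit 248) (fin (add (start D350) D363))))))))))))))))))) D474) (orK (nat_lit 270) (fin (add (add (add (add (add (start D259) D301) D499) (orK (nat_lit 290) (fin (add (add (add (start D501) D480) D515) (orK (nat_lit 311) (fin (add (start D392) (orK (nat_lit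 310) (fin (add (start D393) (orK (nat_lit 269) (fin (add (start D104) (orK (nat_lit 251) (fin (add (start D452) D518)))))))))))))))) D683) (orK (nat_lit 290) (fin (add (add (add (start D501) D488) (orK (nat_lit 310) (fin (add (add (add (start (orK (nat_lit 329) (fin (add (start D502) (orK (nat_lit 330) (fin (add (start D503) (orK (nat_lit 251) (fin (add (start D452) D453)))))))))) D693) D484) (orK (nat_lit 249) (fin (add (start D504) (orK (nat_lit 309) (fin (add (start D379) (orK (nat_lit 311) (fin (add (start D393) (orK (nat_lit 251) (fin (add (start D452) (orK (nat_lit 252) (fin (add (add (start (orK (nat_lit 269) (fin (add (start D694) D695)))) D139) D703))))))))))))))))))) (orK (nat_lit 269) (fin (add (start D104) (orK (nat_lit 310) (fin (add (add (start D518) D484) (orK (nat_lit 251) (fin (add (start D452) D721)))))))))))))))) D1890) (orK (nat_lit 270) (fin (add (add (add (start D259) D267) D271) (orK (nat_lit 209) (fin (add (start D260) (orK (nat_lit 271) (fin (add (start D106) (orK (nat_lit 269) (fin (add (start D104) D1912))))))))))))) (orK (nat_lit 270) (fin (add (add (add (start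 D259) D267) D271) (orK (nat_lit 269) (fin (add (start D104) (orK (nat_lit 271) (fin (add (start D106) (orK (nat_lit 209) (fin (add (start D260) (orK (nat_lit 268) (fin (add (start D285) (orK (nat_lit 252) (fin (add (start D288) (orK (nat_lit 272) (fin (add (start D289) (orK (nat_lit 293) (fin (add (start D1436) (orK (nat_lit 273) (fin (add (start D824) (orK (nat_lit 232) (fin (add (start D1921) (orK (nat_lit 231) D1924)))))))))))))))))))))))))))))))) (orK (nat_lit 270) (fin (add (add (add (start D259) D267) D271) (orK (nat_lit 269) (fin (add (start D104) (orK (nat_lit 271) (fin (add (start D106) (orK (nat_lit 209) (fin (add (start D260) (orK (nat_lit 272) (fin (add (start D1952) D1967)))))))))))))))) D2896) (orK (nat_lit 248) D4055)) (orK (nat_lit 269) (fin (add (add (add (add (start D4059) D4077) D4117) (orK (nat_lit 249) (fin (add (add (start D3190) (orK (nat_lit 248) (fin (add (add (add (start D568) D548) (orK (nat_lit 231) (fin (add (add (start D546) (orK (nat_lit 251) (fin (add (start D781) (orK (nat_lit 228) (fin (add (start D141) (orK (nat_lit 208) (fin (add (start D1646) (orK (nat_lit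 207) (fin (add (start D1496) D590))))))))))))) D2913)))) D2915)))) D4115)))) (orK (nat_lit 229) D4433))))) (orK (nat_lit 270) (fin (add (add (add (start D259) D267) D271) (orK (nat_lit 269) (fin (add (start D104) (orK (nat_lit 209) (fin (add (start D260) (orK (nat_lit 271) (fin (add (start D106) (orK (nat_lit 268) (fin (add (start D275) (orK (nat_lit 248) (fin (add (start D286) (orK (nat_lit 288) (fin (add (start D355) (orK (nat_lit 229) (fin (add (start D4172) D3150))))))))))))))))))))))))) D4586) (orK (nat_lit 209) (fin (add (add (add (start (orK (nat_lit 189) D4591)) (orK (nat_lit 208) D4795)) (orK (nat_lit 270) (fin (add (start D260) D301)))) (orK (nat_lit 229) (fin (add (add (add (add (add (add (start D4811) D2888) D4202) (orK (nat_lit 231) (fin (add (add (start D2862) (orK (nat_lit 232) (fin (add (start D201) D3311)))) (orK (nat_lit 207) (fin (add (start D2880) (orK (nat_lit 189) (fin (add (start D2643) (orK (nat_lit 227) (fin (add (add (start (orK (nat_lit 228) D4814)) (orK (nat_lit 187) (fin (add (add (add (start (orK (nat_lit 186) (fin (add (start D4318) (orK (nat_lit 166) (fin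 (add (start D4816) (orK (nat_lit 146) (fin (add (start D4817) D4818)))))))))) D4317) D4340) D4348)))) D4256))))))))))))) (orK (nat_lit 228) (fin (add (start D2647) (orK (nat_lit 189) (fin (add (start D2643) (orK (nat_lit 249) (fin (add (add (start (orK (nat_lit 268) (fin (add (start D3542) D3129)))) (orK (nat_lit 269) (fin (add (start D23) D3276)))) (orK (nat_lit 248) (fin (add (start D3374) (orK (nat_lit 247) (fin (add (start D407) (orK (nat_lit 267) (fin (add (start D421) (orK (nat_lit 188) (fin (add (start (win (nat_lit 1) (nat_lit 7) (nat_lit 9) (nat_lit 1))) D3273)))))))))))))))))))))) (orK (nat_lit 208) (fin (add (start D2642) (orK (nat_lit 189) (fin (add (start D2643) (orK (nat_lit 228) (fin (add (start D2647) (orK (nat_lit 248) (fin (add (start D2650) (orK (nat_lit 188) (fin (add (start D3398) D3400)))))))))))))))) D2674))))))) (orK (nat_lit 229) D5114)) (orK (nat_lit 270) (fin (add (add (start D267) D301) D2892)))) (orK (nat_lit 270) (fin (add (add (start D271) D301) D2892))))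
noncomputable def D5121 : OP := orK (nat_lit 250) D5120
noncomputable def D5201 : OP := orK (nat_lit 248) (fin (add (add (add (start D568) D548) D2911) D2915))
noncomputable def D5261 : OP := orK (nat_lit 171) (fin (add (start D9) D8))
noncomputable def D5264 : AP := fin (add (start D7) (orK (nat_lit 170) (fin (add (start D31) D5261))))
noncomputable def D6529 : OP := orK (nat_lit 249) (fin (add (add (start (orK (nat_lit 190) D5264)) D5201) (orK (nat_lit 190) D21)))
noncomputable def D6023 : OP := orK (nat_lit 247) (fin (add (start D4307) D4780))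
noncomputable def D6027 : OP := orK (nat_lit 227) (fin (add (start D6023) D4315))
noncomputable def D6021 : OP := orK (nat_lit 166) (fin (add (start (win (nat_lit 2) (nat_lit 6) (nat_lit 8) (nat_lit 2))) (orK (nat_lit 146) (fin (add (start D6013) (orK (nat_lit 126) (fin (add (start D6014) (win (nat_lit 6) (nat_lit 6) (nat_lit 6) (nat_lit 3))))))))))
noncomputable def D6028 : AP := fin (add (add (add (start (orK (nat_lit 188) D5563)) (orK (nat_lit 168) (fin (add (start D6002) D6009)))) D6021) D6027)
noncomputable def D6199 : OP := orK (nat_lit 167) D6028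
noncomputable def D6190 : OP := orK (nat_lit 226) (fin (add (start D4289) (orK (nat_lit 147) (fin (add (start D4288) D4295)))))
noncomputable def D6501 : OP := orK (nat_lit 148) (fin (add (start D4293) (orK (nat_lit 147) (fin (add (start D4292) D4301)))))
noncomputable def D6487 : OP := win (nat_lit 7) (nat_lit 6) (nat_lit 10) (nat_lit 4)
noncomputable def D6489 : OP := orK (nat_lit 206) (fin (add (start D2936) D6487))
noncomputable def D6511 : OP := orK (nat_lit 227) (fin (add (add (add (start (orK (nat_lit 186) (fin (add (start D4319) (orK (nat_lit 267) (fin (add (start D4322) (orK (nat_lit 286) (fin (add (start D4024) (orK (nat_lit 287) (fin (add (start D4025) D4029))))))))))))) (orK (nat_lit 266) (fin (add (start D4320) (orK (nat_lit 267) (fin (add (start D4321) (orK (nat_lit 288) (fin (add (start D2934) (orK (nat_lit 287) (fin (add (start D2933) D6489))))))))))))) (orK (nat_lit 246) (fin (add (start D4305) (orK (nat_lit 167) (fin (add (start D4304) D6501))))))) (orK (nat_lit 166) (fin (add (start D4334) (orK (nat_lit 167) (fin (add (start D4333) D6190))))))))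
noncomputable def D6473 : OP := orK (nat_lit 248) (fin (add (start D408) (orK (nat_lit 227) (fin (add (start D561) D3935)))))
noncomputable def D6038 : OP := win (nat_lit 1) (nat_lit 6) (nat_lit 8) (nat_lit 3)
noncomputable def D6037 : OP := win (nat_lit 1) (nat_lit 6) (nat_lit 7) (nat_lit 0)
noncomputable def D6036 : OP := win (nat_lit 5) (nat_lit 6) (nat_lit 9) (nat_lit 2)
noncomputable def D5727 : AP := fin (add (start D5386) D5387)
noncomputable def D6141 : OP := orK (nat_lit 188) D5727
noncomputable def D6146 : OP := orK (nat_lit 167) (fin (add (add (add (start D6141) (orK (nat_lit 206) (fin (add (start D6036) (orK (nat_lit 226) (fin (add (start D6037) (orK (nat_lit 246) (fin (add (start D6038) D6039)))))))))) D6144) D6021))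
noncomputable def D6442 : OP := orK (nat_lit 249) (fin (add (start D7) (orK (nat_lit 248) (fin (add (start D408) (orK (nat_lit 270) (fin (add (start D4939) D560))))))))
noncomputable def D5500 : OP := win (nat_lit 6) (nat_lit 7) (nat_lit 9) (nat_lit 4)
noncomputable def D5506 : OP := orK (nat_lit 266) (fin (add (start D4320) (orK (nat_lit 267) (fin (add (start D4321) (orK (nat_lit 268) (fin (add (start D5500) D2946))))))))
noncomputable def D5507 : AP := fin (add (start D4032) D5506)
noncomputable def D5508 : OP := orK (nat_lit 227) D5507
noncomputable def D5495 : OP := orK (nat_lit 248) D1127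
noncomputable def D5499 : OP := orK (nat_lit 249) (fin (add (start D7) (orK (nat_lit 227) (fin (add (start D4032) D5495)))))
noncomputable def D6457 : OP := orK (nat_lit 247) (fin (add (add (add (start D5499) D5508) D6442) (orK (nat_lit 227) (fin (add (start D4032) (orK (nat_lit 266) (fin (add (start D4320) (orK (nat_lit 267) (fin (add (start D4321) (orK (nat_lit 269) (fin (add (start D103) (orK (nat_lit 289) (fin (add (start D759) (orK (nat_lit 268) (fin (add (start (win (nat_lit 0) (nat_lit 6) (nat_lit 13) (nat_lit 5))) D2946))))))))))))))))))))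
noncomputable def D6033 : OP := orK (nat_lit 188) (fin (add (start D5387) D5564))
noncomputable def D5536 : OP := win (nat_lit 7) (nat_lit 6) (nat_lit 8) (nat_lit 1)
noncomputable def D5416 : OP := win (nat_lit 2) (nat_lit 6) (nat_lit 8) (nat_lit 4)
noncomputable def D6225 : OP := win (nat_lit 5) (nat_lit 8) (nat_lit 11) (nat_lit 5)
noncomputable def D6224 : OP := orK (nat_lit 228) (fin (add (start D432) (orK (nat_lit 227) (fin (add (start D403) D431)))))
noncomputable def D6235 : OP := orK (nat_lit 249) (fin (add (start D7) (orK (nat_lit 291) (fin (add (start D252) (orK (nat_lit 229) (fin (add (start (orK (nat_lit 290) (fin (add (start D253) D402)))) (orK (nat_lit 231) (fin (add (start D6224) (orK (nat_lit 232) (fin (add (start D6225) D544))))))))))))))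
noncomputable def D5736 : AP := fin (add (start D432) (orK (nat_lit 227) (fin (add (start D431) D2797))))
noncomputable def D5737 : OP := orK (nat_lit 228) D5736
noncomputable def D6211 : OP := orK (nat_lit 269) (fin (add (start D103) D104))
noncomputable def D5915 : OP := orK (nat_lit 153) (fin (add (start D5778) D5846))
noncomputable def D5847 : AP := fin (add (start D5782) D5846)
noncomputable def D6260 : OP := orK (nat_lit 153) D5847
noncomputable def D5328 : OP := orK (nat_lit 194) D962
noncomputable def D4483 : OP := win (nat_lit 2) (nat_lit 9) (nat_lit 13) (nat_lit 0)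
noncomputable def D5305 : OP := win (nat_lit 4) (nat_lit 11) (nat_lit 8) (nat_lit 5)
noncomputable def D5598 : OP := win (nat_lit 3) (nat_lit 13) (nat_lit 8) (nat_lit 0)
noncomputable def D5304 : OP := win (nat_lit 4) (nat_lit 10) (nat_lit 8) (nat_lit 4)
noncomputable def D6259 : OP := orK (nat_lit 192) (fin (add (start D5278) (orK (nat_lit 174) (fin (add (start D5304) (orK (nat_lit 194) (fin (add (start D5598) D5305))))))))
noncomputable def D5800 : OP := win (nat_lit 4) (nat_lit 10) (nat_lit 8) (nat_lit 2)
noncomputable def D6288 : OP := orK (nat_lit 174) (fin (add (start D5788) D5800))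
noncomputable def D6331 : OP := orK (nat_lit 172) (fin (add (start D5857) D6238))
noncomputable def D5288 : OP := win (nat_lit 4) (nat_lit 9) (nat_lit 8) (nat_lit 5)
noncomputable def D6324 : OP := orK (nat_lit 270) (fin (add (add (add (start D6211) D259) (orK (nat_lit 291) (fin (add (start D252) (orK (nat_lit 290) (fin (add (start D253) (orK (nat_lit 309) (fin (add (start D378) (orK (nat_lit 310) (fin (add (start D379) (orK (nat_lit 229) (fin (add (start D381) D5737)))))))))))))))) (orK (nat_lit 249) (fin (add (start D7) (orK (nat_lit 247) (fin (add (start D433) (orK (nat_lit 291) (fin (add (start D252) (orK (nat_lit 290) (fin (add (start D253) (orK (nat_lit 229) (fin (add (start D402) D6224)))))))))))))))))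
noncomputable def D5765 : OP := win (nat_lit 0) (nat_lit 10) (nat_lit 9) (nat_lit 2)
noncomputable def D5784 : OP := orK (nat_lit 153) D5783
noncomputable def D5739 : OP := orK (nat_lit 233) (fin (add (start D205) D207))
noncomputable def D5743 : OP := orK (nat_lit 232) (fin (add (start D206) (orK (nat_lit 253) (fin (add (start D204) D5739)))))
noncomputable def D5744 : AP := fin (add (start D5737) D5743)
noncomputable def D5733 : OP := orK (nat_lit 192) D5285
noncomputable def D6435 : AP := fin (add (add (add (start D5733) (orK (nat_lit 270) (fin (add (add (add (start D6211) D259) (orK (nat_lit 229) (fin (add (start (orK (nat_lit 291) (fin (add (start D252) (orK (nat_lit 290) (fin (add (start D253) D2636))))))) (orK (nat_lit 231) D5744))))) D6235)))) (orK (nat_lit 233) (fin (add (add (add (add (start (orK (nat_lit 193) (fin (add (add (add (add (start (orK (nat_lit 192) (fin (add (start D5278) (orK (nat_lit 253) (fin (add (start D834) D6249))))))) D6259) (orK (nat_lit 173) (fin (add (add (start D5913) D6260) D5915)))) (orK (nat_lit 253) (fin (add (start D6271) (orK (nat_lit 173) (fin (add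 (start D5791) (orK (nat_lit 172) (fin (add (start D6238) D6272)))))))))) (orK (nat_lit 173) (fin (add (add (start (orK (nat_lit 153) (fin (add (start (orK (nat_lit 214) (fin (add (start D5765) D5838)))) D5846)))) D5784) (orK (nat_lit 152) (fin (add (start D5844) D6288)))))))))) (orK (nat_lit 231) (fin (add (add (start (orK (nat_lit 249) (fin (add (start D7) D1578)))) (orK (nat_lit 232) (fin (add (start D207) (orK (nat_lit 253) (fin (add (start D205) (orK (nat_lit 229) (fin (add (start D204) D5737)))))))))) D6324)))) (orK (nat_lit 231) (fin (add (start (orK (nat_lit 193) (fin (add (add (start (orK (nat_lit 214) (fin (add (start D5765) (win (nat_lit 4) (nat_lit 10) (nat_lit 10) (nat_lit 2)))))) (orK (nat_lit 173) (fin (add (add (start D6288) D6331) D5915)))) (orK (nat_lit 232) (fin (add (start D207) (orK (nat_lit 173) (fin (add (start D6334) D5876)))))))))) D6324)))) (orK (nat_lit 193) (fin (add (add (start (orK (nat_lit 249) (fin (add (start D7) (orK (nat_lit 232) (fin (add (start (win (nat_lit 5) (nat_lit 9) (nat_lit 11) (nat_lit 2))) (orK (nat_lit 173) (fin (add (start D6334) D6288))))))))))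 (orK (nat_lit 270) (fin (add (add (start D6211) (orK (nat_lit 272) (fin (add (add (start (orK (nat_lit 271) (fin (add (start D106) (orK (nat_lit 273) (fin (add (start D1902) (orK (nat_lit 294) (fin (add (start D1344) (orK (nat_lit 274) (fin (add (start D1345) (orK (nat_lit 254) (fin (add (start D1352) (win (nat_lit 7) (nat_lit 13) (nat_lit 10) (nat_lit 3)))))))))))))))))) (orK (nat_lit 252) (fin (add (start (win (nat_lit 1) (nat_lit 12) (nat_lit 9) (nat_lit 3))) (orK (nat_lit 291) (fin (add (start D252) (orK (nat_lit 292) (fin (add (start (win (nat_lit 3) (nat_lit 12) (nat_lit 10) (nat_lit 3))) (orK (nat_lit 311) (fin (add (start D1313) D2045))))))))))))) (orK (nat_lit 253) D6248))))) D259)))) (orK (nat_lit 173) (fin (add (start D5913) D6331))))))) (orK (nat_lit 269) (fin (add (start D103) (orK (nat_lit 193) (fin (add (add (add (add (start (orK (nat_lit 192) (fin (add (start D5278) (orK (nat_lit 172) (fin (add (start D5288) D6239))))))) (orK (nat_lit 173) (fin (add (add (start D6331) D6288) D5915)))) D6259) (orK (nat_lit 270) (fin (add (start D104) (orK (nat_lit 192) (fin (add (start D5278)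 (orK (nat_lit 291) (fin (add (start D252) (orK (nat_lit 290) (fin (add (start D253) (orK (nat_lit 253) (fin (add (start D834) (orK (nat_lit 292) (fin (add (start D4483) (orK (nat_lit 273) (fin (add (start D1859) D5328)))))))))))))))))))))) (orK (nat_lit 173) (fin (add (add (start D6260) D5913) D5915))))))))))))) (orK (nat_lit 212) (fin (add (start (win (nat_lit 0) (nat_lit 9) (nat_lit 9) (nat_lit 3))) (orK (nat_lit 270) (fin (add (add (add (start D6211) D259) (orK (nat_lit 291) (fin (add (start D252) (orK (nat_lit 290) (fin (add (start D253) (orK (nat_lit 309) (fin (add (start D378) (orK (nat_lit 310) (fin (add (start D379) (orK (nat_lit 229) (fin (add (start D381) (orK (nat_lit 231) (fin (add (start (win (nat_lit 4) (nat_lit 9) (nat_lit 10) (nat_lit 3))) D5737))))))))))))))))))) D6235)))))))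
noncomputable def D5732 : OP := orK (nat_lit 188) (fin (add (start D5388) (orK (nat_lit 167) (fin (add (start D5385) (orK (nat_lit 187) D5727))))))
noncomputable def D6523 : OP := orK (nat_lit 191) (fin (add (start D125) (orK (nat_lit 189) (fin (add (start D113) (orK (nat_lit 207) (fin (add (add (add (start D5732) (orK (nat_lit 213) D6435)) (orK (nat_lit 188) (fin (add (start D5388) (orK (nat_lit 187) (fin (add (add (start D5564) D6457) (orK (nat_lit 166) (fin (add (start D5416) (orK (nat_lit 186) (fin (add (start D3070) (orK (nat_lit 247) (fin (add (start D5536) D6442)))))))))))))))) (orK (nat_lit 187) (fin (add (add (add (add (start D6033) (orK (nat_lit 188) (fin (add (start D5387) D6457)))) D6146) (orK (nat_lit 249) (fin (add (start D7) (orK (nat_lit 247) (fin (add (add (start D6473) (orK (nat_lit 248) D2920)) D6511))))))) D6199)))))))))))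
noncomputable def D5482 : OP := orK (nat_lit 249) (fin (add (start D7) (orK (nat_lit 170) (fin (add (start D31) D14)))))
noncomputable def D5265 : OP := orK (nat_lit 249) D5264
noncomputable def D6147 : OP := win (nat_lit 0) (nat_lit 7) (nat_lit 11) (nat_lit 2)
noncomputable def D6178 : OP := orK (nat_lit 248) (fin (add (start D3935) (orK (nat_lit 245) (fin (add (start (win (nat_lit 4) (nat_lit 4) (nat_lit 11) (nat_lit 0))) (orK (nat_lit 225) (fin (add (start (win (nat_lit 2) (nat_lit 4) (nat_lit 11) (nat_lit 5))) (orK (nat_lit 265) (fin (add (start (win (nat_lit 5) (nat_lit 4) (nat_lit 12) (nat_lit 5))) (orK (nat_lit 206) (fin (add (start (win (nat_lit 1) (nat_lit 5) (nat_lit 9) (nat_lit 2))) (win (nat_lit 3) (nat_lit 5) (nat_lit 9) (nat_lit 3))))))))))))))))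
noncomputable def D6159 : OP := orK (nat_lit 268) (fin (add (start D5500) (orK (nat_lit 267) (fin (add (start D2946) D6155)))))
noncomputable def D6196 : OP := orK (nat_lit 227) (fin (add (add (add (start (orK (nat_lit 228) (fin (add (start D6147) (orK (nat_lit 248) (fin (add (start D3041) (orK (nat_lit 268) (fin (add (start D3849) D3034)))))))))) D4340) (orK (nat_lit 247) (fin (add (add (add (start D5506) D6159) D6163) (orK (nat_lit 186) (fin (add (start D4319) (orK (nat_lit 228) (fin (add (start D6147) (orK (nat_lit 246) (fin (add (start D4305) D6178))))))))))))) (orK (nat_lit 228) (fin (add (start D6147) (orK (nat_lit 167) (fin (add (start D2662) D6190))))))))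
noncomputable def D6103 : OP := win (nat_lit 1) (nat_lit 9) (nat_lit 11) (nat_lit 3)
noncomputable def D5308 : OP := orK (nat_lit 252) (fin (add (start D1989) D1018))
noncomputable def D5376 : OP := win (nat_lit 7) (nat_lit 12) (nat_lit 8) (nat_lit 1)
noncomputable def D5336 : OP := orK (nat_lit 251) (fin (add (start D48) D5308))
noncomputable def D5334 : OP := orK (nat_lit 233) (fin (add (start D834) (orK (nat_lit 272) (fin (add (start D833) (orK (nat_lit 273) (fin (add (start D5327) D5328))))))))
noncomputable def D5324 : OP := orK (nat_lit 252) (fin (add (start D1989) (orK (nat_lit 233) (fin (add (start D1199) D133)))))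
noncomputable def D5326 : OP := orK (nat_lit 251) (fin (add (start D48) D5324))
noncomputable def D5828 : OP := orK (nat_lit 253) (fin (add (add (add (start D5326) D5334) D5336) (orK (nat_lit 233) (fin (add (start D834) (orK (nat_lit 194) (fin (add (start D957) (orK (nat_lit 271) (fin (add (start D105) (orK (nat_lit 274) (fin (add (start D958) (orK (nat_lit 273) (fin (add (start D959) (orK (nat_lit 272) (fin (add (start D5327) (orK (nat_lit 291) (fin (add (start (win (nat_lit 5) (nat_lit 10) (nat_lit 13) (nat_lit 5))) D732)))))))))))))))))))))))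
noncomputable def D5312 : OP := orK (nat_lit 194) (fin (add (start D5305) (orK (nat_lit 253) (fin (add (start (win (nat_lit 3) (nat_lit 13) (nat_lit 8) (nat_lit 1))) D5308)))))
noncomputable def D5935 : OP := orK (nat_lit 192) (fin (add (start D5277) (orK (nat_lit 193) (fin (add (add (add (start D5282) (orK (nat_lit 174) (fin (add (start D5304) (orK (nat_lit 251) (fin (add (start D48) D5312))))))) D5828) (orK (nat_lit 172) (fin (add (start D5288) (orK (nat_lit 251) (fin (add (start D48) (orK (nat_lit 253) (fin (add (start D5376) D5308))))))))))))))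
noncomputable def D5866 : OP := orK (nat_lit 172) (fin (add (start D5857) D5864))
noncomputable def D5802 : OP := win (nat_lit 1) (nat_lit 13) (nat_lit 5) (nat_lit 0)
noncomputable def D5809 : OP := orK (nat_lit 174) (fin (add (start D5800) (orK (nat_lit 154) (fin (add (start (win (nat_lit 3) (nat_lit 13) (nat_lit 7) (nat_lit 0))) (orK (nat_lit 134) (fin (add (start D5802) (win (nat_lit 1) (nat_lit 13) (nat_lit 6) (nat_lit 3))))))))))
noncomputable def D5774 : OP := orK (nat_lit 214) (fin (add (start D5765) (orK (nat_lit 234) (fin (add (start (win (nat_lit 6) (nat_lit 13) (nat_lit 7) (nat_lit 0))) (orK (nat_lit 254) (fin (add (start (win (nat_lit 6) (nat_lit 13) (nat_lit 8) (nat_lit 3))) D5768))))))))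
noncomputable def D5921 : OP := orK (nat_lit 193) (fin (add (add (add (add (add (start (orK (nat_lit 192) D5283)) (orK (nat_lit 173) (fin (add (add (add (start (orK (nat_lit 192) (fin (add (start D5278) D5280)))) D5774) (orK (nat_lit 233) (fin (add (add (start D5784) (orK (nat_lit 253) (fin (add (start D5787) D5791)))) D5797)))) D5809)))) (orK (nat_lit 192) (fin (add (start D5278) D5828)))) (orK (nat_lit 173) (fin (add (add (add (start (orK (nat_lit 192) (fin (add (start D5278) D5279)))) D5774) (orK (nat_lit 153) (fin (add (add (start (orK (nat_lit 133) (fin (add (start D5836) D5840)))) (orK (nat_lit 233) D5847)) D5854)))) D5866)))) (orK (nat_lit 251) (fin (add (start D48) (orK (nat_lit 253) (fin (add (add (start D5324) D5308) (orK (nat_lit 233) (fin (add (add (add (start (orK (nat_lit 254) (fin (add (start D5622) (orK (nat_lit 173) (fin (add (start D5621) D5876))))))) (orK (nat_lit 274) (fin (add (start D958) (orK (nat_lit 273) (fin (add (start D959) (orK (nat_lit 292) (fin (add (start D1859) (orK (nat_lit 293) (fin (add (start D826) D898))))))))))))) (orK (nat_lit 194) (fin (add (start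 D957) (orK (nat_lit 273) (fin (add (start D956) (orK (nat_lit 292) (fin (add (start D1859) (orK (nat_lit 293) (fin (add (start D826) D902))))))))))))) (orK (nat_lit 174) (fin (add (start D5789) (orK (nat_lit 173) (fin (add (start D5788) D5900)))))))))))))))) (orK (nat_lit 173) (fin (add (add (add (start (orK (nat_lit 192) D5281)) D5809) D5866) (orK (nat_lit 233) (fin (add (start D5797) D5915))))))))
noncomputable def D5357 : OP := win (nat_lit 2) (nat_lit 9) (nat_lit 11) (nat_lit 1)
noncomputable def D5747 : OP := orK (nat_lit 310) (fin (add (start D665) D476))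
noncomputable def D6202 : AP := fin (add (add (add (start D5732) (orK (nat_lit 213) (fin (add (add (add (start D5733) (orK (nat_lit 231) (fin (add (start (orK (nat_lit 229) D5744)) (orK (nat_lit 270) (fin (add (add (add (start D108) D259) (orK (nat_lit 289) (fin (add (start D250) (orK (nat_lit 290) (fin (add (start D251) D5747))))))) (orK (nat_lit 289) (fin (add (start D250) (orK (nat_lit 290) (fin (add (start D251) (orK (nat_lit 251) (fin (add (start D643) D48)))))))))))))))) D5921) D5935)))) (orK (nat_lit 167) (fin (add (add (start (orK (nat_lit 188) (fin (add (start D5385) D5388)))) (orK (nat_lit 213) (fin (add (add (add (start D5733) (orK (nat_lit 228) (fin (add (add (start (orK (nat_lit 187) (fin (add (add (start (orK (nat_lit 208) D5948)) (orK (nat_lit 227) (fin (add (start D2662) D5953)))) (orK (nat_lit 147) (fin (add (start D5956) (orK (nat_lit 128) (fin (add (start D5957) (orK (nat_lit 127) (fin (add (start D5958) D5962))))))))))))) (orK (nat_lit 251) (fin (add (start D48) (orK (nat_lit 229) D2783))))) (orK (nat_lit 270) (fin (add (add (add (start D108) D259) (orK (nat_lit 289)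 (fin (add (start D250) (orK (nat_lit 290) (fin (add (start D251) (orK (nat_lit 311) (fin (add (start D392) (orK (nat_lit 310) (fin (add (start D393) (orK (nat_lit 231) (fin (add (start D665) (orK (nat_lit 229) (fin (add (start D432) D5743))))))))))))))))))) (orK (nat_lit 251) (fin (add (start D48) (orK (nat_lit 289) (fin (add (start D250) (orK (nat_lit 290) (fin (add (start D251) (orK (nat_lit 231) (fin (add (start D643) (orK (nat_lit 229) (fin (add (start D2101) D432)))))))))))))))))))))) D5921) D5935)))) (orK (nat_lit 187) D6028))))) (orK (nat_lit 187) (fin (add (add (add (add (start D6033) (orK (nat_lit 227) (fin (add (add (start (orK (nat_lit 188) (fin (add (start D5387) (orK (nat_lit 247) D5507))))) (orK (nat_lit 229) (fin (add (start (orK (nat_lit 213) (fin (add (add (add (start D5733) (orK (nat_lit 270) (fin (add (add (add (start D108) D259) (orK (nat_lit 289) (fin (add (start D250) (orK (nat_lit 290) (fin (add (start D251) (orK (nat_lit 311) (fin (add (start D392) (orK (nat_lit 310) (fin (add (start D393) (orK (nat_lit 231) (fin (add (start D665) D5743)))))))))))))))) (orK (nat_lit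 289) (fin (add (start D250) (orK (nat_lit 251) (fin (add (start D48) (orK (nat_lit 290) (fin (add (start D251) (orK (nat_lit 231) (fin (add (start D643) (orK (nat_lit 253) (fin (add (start D5357) (orK (nat_lit 232) (fin (add (start D206) D5739)))))))))))))))))))))) D5921) D5935)))) (orK (nat_lit 206) (fin (add (start (win (nat_lit 2) (nat_lit 6) (nat_lit 10) (nat_lit 2))) D6036))))))) (orK (nat_lit 270) (fin (add (add (start D108) (orK (nat_lit 268) (fin (add (add (start (orK (nat_lit 289) (fin (add (start D250) (orK (nat_lit 248) (fin (add (start D3849) (orK (nat_lit 309) (fin (add (start D6103) (orK (nat_lit 288) (fin (add (start D3134) (orK (nat_lit 329) (fin (add (start (win (nat_lit 6) (nat_lit 8) (nat_lit 12) (nat_lit 3))) (win (nat_lit 7) (nat_lit 8) (nat_lit 13) (nat_lit 0)))))))))))))))))) (orK (nat_lit 269) (fin (add (start D104) (orK (nat_lit 267) (fin (add (start D359) (orK (nat_lit 286) (fin (add (start (win (nat_lit 5) (nat_lit 6) (nat_lit 13) (nat_lit 4))) (orK (nat_lit 266) (fin (add (start (win (nat_lit 5) (nat_lit 5) (nat_lit 13) (nat_lit 5))) (orK (nat_lit 246) (fin (add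 (start D1892) (win (nat_lit 3) (nat_lit 6) (nat_lit 10) (nat_lit 3)))))))))))))))))) (orK (nat_lit 247) (fin (add (start D5500) (orK (nat_lit 266) (fin (add (start D4320) (orK (nat_lit 267) (fin (add (start D4321) D2946))))))))))))) D259))))))) D6146) (orK (nat_lit 251) (fin (add (start D48) D6196)))) D6199))))
noncomputable def D6207 : OP := orK (nat_lit 191) (fin (add (start D125) (orK (nat_lit 189) (fin (add (start D113) (orK (nat_lit 207) D6202))))))
noncomputable def D6208 : AP := fin (add (add (add (start D54) D78) D92) D6207)
noncomputable def D5724 : OP := orK (nat_lit 269) (fin (add (start D5243) D3190))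
noncomputable def D5670 : OP := orK (nat_lit 269) D5669
noncomputable def D5200 : OP := orK (nat_lit 269) D3189
noncomputable def D5703 : AP := fin (add (start D350) D741)
noncomputable def D5702 : OP := orK (nat_lit 228) (fin (add (start D1983) D420))
noncomputable def D5236 : OP := orK (nat_lit 271) (fin (add (start D106) (orK (nat_lit 248) (fin (add (start D350) (orK (nat_lit 272) (fin (add (start D4557) D307))))))))
noncomputable def D5230 : OP := orK (nat_lit 269) (fin (add (start D759) D3188))
noncomputable def D5690 : OP := orK (nat_lit 267) (fin (add (start D422) (orK (nat_lit 247) (fin (add (start D421) (orK (nat_lit 229) (fin (add (start D407) (orK (nat_lit 252) D128)))))))))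
noncomputable def D5692 : OP := orK (nat_lit 248) (fin (add (add (add (start D1299) (orK (nat_lit 228) (fin (add (start D141) (orK (nat_lit 252) (fin (add (start D140) D139))))))) D5690) D2001))
noncomputable def D5673 : AP := fin (add (start D5249) D738)
noncomputable def D5674 : OP := orK (nat_lit 271) D5673
noncomputable def D5726 : OP := orK (nat_lit 249) (fin (add (add (add (start (orK (nat_lit 251) (fin (add (start D5674) D5692)))) (orK (nat_lit 289) (fin (add (add (add (start D5230) D1510) (orK (nat_lit 270) (fin (add (add (start D5236) (orK (nat_lit 290) (fin (add (start D251) (orK (nat_lit 311) (fin (add (start D392) (orK (nat_lit 310) (fin (add (start D393) D504)))))))))) (orK (nat_lit 290) (fin (add (start D251) (orK (nat_lit 229) (fin (add (start D402) (orK (nat_lit 251) (fin (add (start D5702) (orK (nat_lit 248) (fin (add (add (start (orK (nat_lit 271) D5703)) (orK (nat_lit 288) (fin (add (start (orK (nat_lit 271) (fin (add (start D741) (win (nat_lit 4) (nat_lit 7) (nat_lit 13) (nat_lit 0)))))) (orK (nat_lit 268) D5088))))) D426)))))))))))))))) D5200)))) D5670) D5724))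
noncomputable def D5623 : OP := win (nat_lit 2) (nat_lit 10) (nat_lit 11) (nat_lit 3)
noncomputable def D5640 : AP := fin (add (start D5623) (win (nat_lit 2) (nat_lit 11) (nat_lit 11) (nat_lit 0)))
noncomputable def D5638 : OP := win (nat_lit 0) (nat_lit 9) (nat_lit 11) (nat_lit 0)
noncomputable def D5642 : AP := fin (add (start D5638) (orK (nat_lit 254) D5640))
noncomputable def D5643 : OP := orK (nat_lit 253) D5642
noncomputable def D5453 : OP := win (nat_lit 3) (nat_lit 12) (nat_lit 8) (nat_lit 2)
noncomputable def D5591 : OP := win (nat_lit 1) (nat_lit 11) (nat_lit 8) (nat_lit 5)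
noncomputable def D5287 : OP := win (nat_lit 0) (nat_lit 9) (nat_lit 9) (nat_lit 5)
noncomputable def D5395 : OP := win (nat_lit 2) (nat_lit 7) (nat_lit 8) (nat_lit 5)
noncomputable def D2898 : AP := fin (add (start D543) D2897)
noncomputable def D5427 : OP := win (nat_lit 7) (nat_lit 7) (nat_lit 8) (nat_lit 2)
noncomputable def D5515 : OP := orK (nat_lit 248) (fin (add (start D408) (orK (nat_lit 246) (fin (add (start D538) (orK (nat_lit 225) (fin (add (start (win (nat_lit 2) (nat_lit 5) (nat_lit 11) (nat_lit 4))) D558))))))))
noncomputable def D5660 : AP := fin (add (add (add (add (add (start D5394) (orK (nat_lit 249) (fin (add (start D7) (orK (nat_lit 168) (fin (add (start D5395) (orK (nat_lit 208) (fin (add (start D5396) (orK (nat_lit 228) (fin (add (start D598) (orK (nat_lit 247) (fin (add (start D3062) (orK (nat_lit 248) (fin (add (start D3009) D408))))))))))))))))))) (orK (nat_lit 207) (fin (add (start D5388) (orK (nat_lit 187) (fin (add (start D5387) (orK (nat_lit 247) (fin (add (add (add (start D5499) D5508) (orK (nat_lit 249) (fin (add (start D7) D5515)))) (orK (nat_lit 227) (fin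 (add (start D4032) (orK (nat_lit 266) (fin (add (start D4320) (orK (nat_lit 267) (fin (add (start D4321) (orK (nat_lit 269) (fin (add (start D103) (orK (nat_lit 270) (fin (add (start D104) (orK (nat_lit 268) (fin (add (start D359) D2946)))))))))))))))))))))))))))) (orK (nat_lit 207) (fin (add (start D5388) (orK (nat_lit 249) (fin (add (start D7) (orK (nat_lit 187) (fin (add (start D5387) (orK (nat_lit 166) (fin (add (start D5416) (orK (nat_lit 186) (fin (add (start D3070) (orK (nat_lit 247) (fin (add (start D5536) D5515))))))))))))))))))) (orK (nat_lit 249) (fin (add (start D7) (orK (nat_lit 248) (fin (add (add (start (orK (nat_lit 167) (fin (add (start D5385) (orK (nat_lit 187) (fin (add (start D5386) (orK (nat_lit 228) (fin (add (start D5427) (orK (nat_lit 227) (fin (add (start D3236) (orK (nat_lit 226) (fin (add (start D3235) (win (nat_lit 0) (nat_lit 6) (nat_lit 11) (nat_lit 3)))))))))))))))))) D548) D2915))))))) (orK (nat_lit 249) (fin (add (start D7) (orK (nat_lit 231) (fin (add (add (start (orK (nat_lit 248) (fin (add (start D142) (orK (nat_lit 232) D2898))))) (orK (nat_lit 247)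 (fin (add (start D433) (orK (nat_lit 187) (fin (add (add (start D5564) (orK (nat_lit 206) (fin (add (start D5565) (orK (nat_lit 186) (fin (add (start D3071) (orK (nat_lit 166) (fin (add (start D3070) (orK (nat_lit 226) (fin (add (start (win (nat_lit 6) (nat_lit 6) (nat_lit 8) (nat_lit 4))) (orK (nat_lit 245) (fin (add (start (win (nat_lit 1) (nat_lit 5) (nat_lit 8) (nat_lit 4))) (orK (nat_lit 246) (fin (add (start (win (nat_lit 1) (nat_lit 5) (nat_lit 9) (nat_lit 5))) (win (nat_lit 6) (nat_lit 6) (nat_lit 9) (nat_lit 5))))))))))))))))))))) (orK (nat_lit 168) (fin (add (start D5395) (orK (nat_lit 207) (fin (add (start (win (nat_lit 3) (nat_lit 7) (nat_lit 8) (nat_lit 1))) D5387))))))))))))) (orK (nat_lit 168) (fin (add (start D5395) (orK (nat_lit 192) (fin (add (add (add (add (add (start D5286) (orK (nat_lit 232) (fin (add (start D544) (orK (nat_lit 212) (fin (add (start D5287) (orK (nat_lit 172) (fin (add (start D5591) D5288)))))))))) (orK (nat_lit 213) (fin (add (start D5277) (orK (nat_lit 193) (fin (add (start D5278) (orK (nat_lit 174) (fin (add (start D5304) (orK (nat_lit 194) (fin (add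 (start D5305) (orK (nat_lit 233) (fin (add (start D5598) D1578)))))))))))))))) (orK (nat_lit 213) (fin (add (start D5277) (orK (nat_lit 233) (fin (add (start D1578) (orK (nat_lit 193) (fin (add (start D5278) (orK (nat_lit 253) (fin (add (start D834) (orK (nat_lit 252) (fin (add (start D1199) (orK (nat_lit 251) (fin (add (start D1989) D1511))))))))))))))))))) (orK (nat_lit 233) (fin (add (start D1578) (orK (nat_lit 173) (fin (add (start D5279) (orK (nat_lit 193) (fin (add (start D5280) (orK (nat_lit 213) (fin (add (start D5278) (orK (nat_lit 254) (fin (add (start D5621) (orK (nat_lit 253) (fin (add (start D5622) (orK (nat_lit 252) (fin (add (start D1199) D5623)))))))))))))))))))))) (orK (nat_lit 232) (fin (add (start D544) (orK (nat_lit 173) (fin (add (start D5279) (orK (nat_lit 193) (fin (add (start D5280) (orK (nat_lit 252) (fin (add (start D5453) D5643)))))))))))))))))))))))))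
noncomputable def D5665 : OP := orK (nat_lit 191) (fin (add (start D125) (orK (nat_lit 189) (fin (add (start D113) (orK (nat_lit 188) D5660))))))
noncomputable def D5666 : AP := fin (add (add (add (start D5265) D5482) D92) D5665)
noncomputable def D5406 : AP := fin (add (start D4305) (orK (nat_lit 248) (fin (add (start D4983) D3935))))
noncomputable def D5403 : OP := win (nat_lit 0) (nat_lit 7) (nat_lit 11) (nat_lit 1)
noncomputable def D5448 : OP := orK (nat_lit 188) (fin (add (add (add (add (add (start D5394) (orK (nat_lit 228) (fin (add (start D1983) (orK (nat_lit 168) (fin (add (start D5395) (orK (nat_lit 208) (fin (add (start D5396) D2839)))))))))) (orK (nat_lit 207) (fin (add (start D5388) (orK (nat_lit 227) (fin (add (start D5403) (orK (nat_lit 187) (fin (add (start D5387) (orK (nat_lit 247) (fin (add (start D4032) (orK (nat_lit 246) D5406)))))))))))))) (orK (nat_lit 207) (fin (add (start D5388) (orK (nat_lit 227) (fin (add (start D5403) (orK (nat_lit 187) (fin (add (start D5387) (orK (nat_lit 166) (fin (add (start D5416) (orK (nat_lit 186) (fin (add (start D3070) D4816))))))))))))))))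 (orK (nat_lit 228) (fin (add (start D1983) (orK (nat_lit 167) (fin (add (start D5385) (orK (nat_lit 187) (fin (add (start D5386) (orK (nat_lit 248) (fin (add (start D5427) D4987))))))))))))) (orK (nat_lit 227) (fin (add (start D5403) (orK (nat_lit 167) (fin (add (start D5385) (orK (nat_lit 187) (fin (add (start D5386) (orK (nat_lit 207) (fin (add (start D5387) (orK (nat_lit 246) (fin (add (start D4304) (orK (nat_lit 247) D5406))))))))))))))))))
noncomputable def D5359 : OP := win (nat_lit 0) (nat_lit 11) (nat_lit 9) (nat_lit 5)
noncomputable def D5358 : OP := win (nat_lit 0) (nat_lit 10) (nat_lit 9) (nat_lit 4)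
noncomputable def D5290 : OP := win (nat_lit 6) (nat_lit 12) (nat_lit 8) (nat_lit 4)
noncomputable def D5478 : OP := orK (nat_lit 190) (fin (add (add (add (start D54) D78) D92) (orK (nat_lit 189) (fin (add (start D113) (orK (nat_lit 191) (fin (add (start D125) (orK (nat_lit 192) (fin (add (add (add (add (add (start D5286) (orK (nat_lit 251) (fin (add (start D48) (orK (nat_lit 212) (fin (add (start D5287) (orK (nat_lit 172) (fin (add (start D5288) (orK (nat_lit 232) (fin (add (start (win (nat_lit 1) (nat_lit 11) (nat_lit 8) (nat_lit 4))) (orK (nat_lit 253) (fin (add (start D5290) (orK (nat_lit 252) (fin (add (start D1989) D5291))))))))))))))))))) (orK (nat_lit 251) (fin (add (start D48) (orK (nat_lit 213) (fin (add (start D5277) (orK (nat_lit 193) (fin (add (start D5278) (orK (nat_lit 174) (fin (add (start D5304) D5312))))))))))))) (orK (nat_lit 213) (fin (add (start D5277) (orK (nat_lit 193) (fin (add (start D5278) (orK (nat_lit 253) (fin (add (add (add (start D5326) D5334) D5336) (orK (nat_lit 233) (fin (add (start D834) (orK (nat_lit 271) (fin (add (start D105) (orK (nat_lit 194) (fin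 (add (start D957) (orK (nat_lit 274) (fin (add (start D958) (orK (nat_lit 273) (fin (add (start D959) (orK (nat_lit 272) (fin (add (start D5327) (orK (nat_lit 270) (fin (add (start D1902) D106))))))))))))))))))))))))))))))) (orK (nat_lit 251) (fin (add (start D48) (orK (nat_lit 229) (fin (add (start (orK (nat_lit 253) (fin (add (start D5357) (orK (nat_lit 193) (fin (add (add (start D5282) (orK (nat_lit 214) (fin (add (start D5358) (orK (nat_lit 194) (fin (add (start D5359) (orK (nat_lit 174) (fin (add (start D5305) (orK (nat_lit 234) (fin (add (start (win (nat_lit 1) (nat_lit 13) (nat_lit 8) (nat_lit 4))) (orK (nat_lit 254) (fin (add (start (win (nat_lit 1) (nat_lit 13) (nat_lit 9) (nat_lit 5))) (orK (nat_lit 255) (fin (add (start (win (nat_lit 6) (nat_lit 14) (nat_lit 8) (nat_lit 4))) (win (nat_lit 6) (nat_lit 14) (nat_lit 9) (nat_lit 5))))))))))))))))))))) (orK (nat_lit 213) (fin (add (start D5278) (orK (nat_lit 172) (fin (add (start D5288) D5376))))))))))))) D5448))))))) (orK (nat_lit 251) (fin (add (start D48) (orK (nat_lit 229) (fin (add (add (add (start (orK (nat_lit 252) (fin (add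 (start D127) (orK (nat_lit 173) (fin (add (start D5279) (orK (nat_lit 193) (fin (add (start D5280) (orK (nat_lit 232) (fin (add (start D5453) (orK (nat_lit 233) (fin (add (start D886) (orK (nat_lit 234) (fin (add (start (win (nat_lit 5) (nat_lit 10) (nat_lit 11) (nat_lit 3))) D1114))))))))))))))))))) D2130) D3347) D5448)))))))))))))))))
noncomputable def D5267 : OP := orK (nat_lit 190) (fin (add (start D105) D5265))
noncomputable def D5276 : OP := orK (nat_lit 271) (fin (add (add (start D5267) D5268) D5274))
noncomputable def D5257 : OP := orK (nat_lit 269) (fin (add (add (start (orK (nat_lit 190) (fin (add (start D103) D54)))) D4059) (orK (nat_lit 270) (fin (add (start D104) (orK (nat_lit 271) (fin (add (start D106) (orK (nat_lit 251) (fin (add (start D5249) D1334)))))))))))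
noncomputable def D5140 : OP := orK (nat_lit 272) (fin (add (start (orK (nat_lit 273) (fin (add (start D754) (orK (nat_lit 290) (fin (add (start (win (nat_lit 4) (nat_lit 8) (nat_lit 13) (nat_lit 0))) D1580))))))) (orK (nat_lit 249) (fin (add (start D747) (orK (nat_lit 252) (fin (add (start D2007) D129))))))))
noncomputable def D5170 : AP := fin (add (start D733) D5140)
noncomputable def D2193 : AP := fin (add (start D2191) D2192)
noncomputable def D6530 : AP := fin (add (add (add (add (add (add (add (add (add (start (orK (nat_lit 289) (fin (add (add (add (add (start (orK (nat_lit 269) D4058)) (orK (nat_lit 270) D258)) (orK (nat_lit 291) (fin (add (add (add (start D1980) (orK (nat_lit 251) (fin (add (add (add (start D1982) (orK (nat_lit 271) (fin (add (start D736) D5140)))) (orK (nat_lit 252) (fin (add (add (add (start D2020) D1030) D1988) (orK (nat_lit 249) (fin (add (add (start D149) (orK (nat_lit 232) (fin (add (start D570) (orK (nat_lit 272) (fin (add (start D698) (orK (nat_lit 292) (fin (add (start D1043) (orK (nat_lit 313) (fin (add (start D1044) (orK (nat_lit 312) (fin (add (start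 (win (nat_lit 0) (nat_lit 9) (nat_lit 14) (nat_lit 1))) D1045)))))))))))))))) (orK (nat_lit 228) (fin (add (start D140) (orK (nat_lit 248) (fin (add (start D141) (orK (nat_lit 268) (fin (add (start D577) (orK (nat_lit 288) (fin (add (start D2996) (orK (nat_lit 307) (fin (add (start D3794) (orK (nat_lit 308) (fin (add (start D2824) D3870))))))))))))))))))))))))) (orK (nat_lit 271) D5170))))) (orK (nat_lit 290) (fin (add (add (add (start (orK (nat_lit 270) (fin (add (start D251) D253)))) (orK (nat_lit 308) (fin (add (add (start (orK (nat_lit 307) (fin (add (start D2190) (orK (nat_lit 309) D2193))))) (orK (nat_lit 292) (fin (add (start D2197) (orK (nat_lit 313) (fin (add (start D2173) (orK (nat_lit 293) (fin (add (start D2033) (orK (nat_lit 273) (fin (add (start D1589) D1592))))))))))))) (orK (nat_lit 288) (fin (add (start D2211) (orK (nat_lit 311) D2164)))))))) (orK (nat_lit 311) (fin (add (start D2148) (orK (nat_lit 312) (fin (add (start D2149) (orK (nat_lit 313) (fin (add (start D2150) (win (nat_lit 2) (nat_lit 9) (nat_lit 14) (nat_lit 3)))))))))))) (orK (nat_lit 309) (fin (add (start D1547)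 (orK (nat_lit 308) (fin (add (start D2214) (orK (nat_lit 307) D2193))))))))))) (orK (nat_lit 271) (fin (add (start D732) (orK (nat_lit 251) D5170)))))))) (orK (nat_lit 249) (fin (add (add (start D5200) D5201) (orK (nat_lit 248) (fin (add (add (add (start D548) (orK (nat_lit 269) (fin (add (start D760) (orK (nat_lit 267) (fin (add (add (add (start (orK (nat_lit 266) (fin (add (start (win (nat_lit 4) (nat_lit 6) (nat_lit 12) (nat_lit 2))) D633)))) (orK (nat_lit 268) D3532)) (orK (nat_lit 228) (fin (add (start (orK (nat_lit 208) D4634)) (orK (nat_lit 227) (fin (add (start D3236) (orK (nat_lit 226) (fin (add (start D3235) D3234)))))))))) D3251))))))) (orK (nat_lit 269) (fin (add (start D760) (orK (nat_lit 251) (fin (add (start D781) D2905))))))) (orK (nat_lit 309) (fin (add (start D1564) D3254)))))))))) (orK (nat_lit 249) (fin (add (add (start D5230) D5201) (orK (nat_lit 270) (fin (add (start D250) D5236)))))))))) D5257) D5276) D5478) (orK (nat_lit 190) D5666)) (orK (nat_lit 251) (fin (add (add (add (start (orK (nat_lit 249) (fin (add (start D5670) D1696)))) (orK (nat_lit 271) (fin (add (add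 (start D738) D740) D787)))) D5674) (orK (nat_lit 271) D5675))))) D5726) (orK (nat_lit 190) D6208)) (orK (nat_lit 190) (fin (add (add (add (start D5265) D5482) D92) D6523)))) D6529)
noncomputable def D6531 : OP := orK (nat_lit 250) D6530
noncomputable def D9086 : OP := orK (nat_lit 190) (fin (add (add (add (add (add (add (start (orK (nat_lit 250) (fin (add (start D7728) D155)))) D68) D74) D88) D102) D187) D247))
noncomputable def D6643 : OP := orK (nat_lit 171) (fin (add (start D8) (orK (nat_lit 170) (fin (add (start D9) D199)))))
noncomputable def D8899 : OP := orK (nat_lit 270) D4866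
noncomputable def D6633 : OP := win (nat_lit 1) (nat_lit 9) (nat_lit 7) (nat_lit 0)
noncomputable def D8901 : OP := orK (nat_lit 209) (fin (add (start D6633) D8899))
noncomputable def D8903 : OP := orK (nat_lit 229) (fin (add (start D188) D8901))
noncomputable def D8905 : OP := orK (nat_lit 170) (fin (add (add (start D14) D8903) D199))
noncomputable def D9948 : OP := orK (nat_lit 190) (fin (add (add (add (add (start D92) D7728) D8905) (orK (nat_lit 171) (fin (add (start D8) (orK (nat_lit 170) (fin (add (start D9) D8903))))))) D6643))
noncomputable def D7106 : OP := orK (nat_lit 190) (fin (add (start D0) D7))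
noncomputable def D7642 : OP := orK (nat_lit 251) (fin (add (add (start (orK (nat_lit 252) (fin (add (add (add (start D2020) D1030) D1988) (orK (nat_lit 229) (fin (add (add (start D2018) (orK (nat_lit 249) (fin (add (add (start D7106) D1038) (orK (nat_lit 170) (fin (add (start (win (nat_lit 1) (nat_lit 9) (nat_lit 8) (nat_lit 1))) (orK (nat_lit 232) (fin (add (start D570) (orK (nat_lit 248) (fin (add (start D569) D426))))))))))))) D1986))))))) (orK (nat_lit 270) D4553)) D5674))
noncomputable def D9942 : OP := orK (nat_lit 190) (fin (add (add (start D54) D120) D92))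
noncomputable def D10595 : OP := orK (nat_lit 250) (fin (add (add (add (add (start D9942) D7642) D9948) D4586) D6529))
noncomputable def D6609 : OP := orK (nat_lit 169) (fin (add (start D6592) (orK (nat_lit 209) (fin (add (start D4587) D1649)))))
noncomputable def D6579 : OP := orK (nat_lit 190) (fin (add (start D113) D5265))
noncomputable def D6676 : OP := orK (nat_lit 308) (fin (add (start (win (nat_lit 3) (nat_lit 8) (nat_lit 11) (nat_lit 5))) D4218))
noncomputable def D6653 : OP := orK (nat_lit 229) (fin (add (start D126) D3342))
noncomputable def D6634 : AP := fin (add (start D6633) D188)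
noncomputable def D6635 : OP := orK (nat_lit 170) D6634
noncomputable def D6561 : OP := orK (nat_lit 251) D5673
noncomputable def D6703 : AP := fin (add (add (add (add (add (add (add (start (orK (nat_lit 270) (fin (add (add (start D259) (orK (nat_lit 269) (fin (add (start D104) (orK (nat_lit 190) (fin (add (start D103) D116))))))) (orK (nat_lit 271) (fin (add (start D106) (orK (nat_lit 190) (fin (add (start D105) D116)))))))))) D5726) (orK (nat_lit 271) (fin (add (add (add (start D6561) D5267) (orK (nat_lit 291) (fin (add (start D732) (orK (nat_lit 251) (fin (add (start D736) (orK (nat_lit 252) (fin (add (add (add (start D1988) (orK (nat_lit 232) (fin (add (start (orK (nat_lit 212) (fin (add (start D887) (orK (nat_lit 272) (fin (add (start D1106) (orK (nat_lit 273) (fin (add (start D754) D1090)))))))))) D1118)))) D1991) D2011)))))))))) (orK (nat_lit 270) (fin (add (start D106) (orK (nat_lit 189) (fin (add (start D114) D6579)))))))))) (orK (nat_lit 270) (fin (add (add (start D267) D271) (orK (nat_lit 271) (fin (add (start D106) (orK (nat_lit 269) (fin (add (start D104) D4617)))))))))) (orK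 (nat_lit 189) (fin (add (add (start (orK (nat_lit 270) (fin (add (start D114) (orK (nat_lit 290) (fin (add (add (add (start D501) D480) D515) (orK (nat_lit 311) (fin (add (start D392) (orK (nat_lit 310) (fin (add (start D393) (orK (nat_lit 269) (fin (add (start D104) D518)))))))))))))))) D6579) D6609)))) (orK (nat_lit 271) (fin (add (add (add (start D6561) (orK (nat_lit 190) (fin (add (start D105) (orK (nat_lit 171) (fin (add (start D8) (orK (nat_lit 170) (fin (add (start D9) (orK (nat_lit 229) (fin (add (start D188) D14))))))))))))) (orK (nat_lit 270) (fin (add (start D106) (orK (nat_lit 209) (fin (add (start D260) (orK (nat_lit 290) (fin (add (start D261) (orK (nat_lit 309) (fin (add (start D378) (orK (nat_lit 310) (fin (add (start D379) (orK (nat_lit 330) (fin (add (start (win (nat_lit 3) (nat_lit 10) (nat_lit 12) (nat_lit 5))) D458))))))))))))))))))) (orK (nat_lit 270) (fin (add (start D106) (orK (nat_lit 190) (fin (add (add (add (start D116) (orK (nat_lit 209) (fin (add (start D260) (orK (nat_lit 229) (fin (add (start D2860) D6635))))))) D6643) D92)))))))))) (orK (nat_lit 251) (fin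 (add (add (start (orK (nat_lit 252) (fin (add (add (add (start D1988) D1122) D1991) (orK (nat_lit 249) (fin (add (add (start D6653) D703) (orK (nat_lit 272) (fin (add (start D698) (orK (nat_lit 248) (fin (add (start D699) D1995))))))))))))) (orK (nat_lit 190) (fin (add (start D48) D92)))) (orK (nat_lit 249) (fin (add (add (start D5724) D5692) (orK (nat_lit 269) (fin (add (start D5243) D1472)))))))))) (orK (nat_lit 189) (fin (add (add (add (start (orK (nat_lit 270) (fin (add (start D114) (orK (nat_lit 269) (fin (add (start D104) (orK (nat_lit 249) (fin (add (start D5243) (orK (nat_lit 248) (fin (add (add (start (orK (nat_lit 247) (fin (add (start D1283) D4939)))) (orK (nat_lit 271) (fin (add (start D351) (orK (nat_lit 268) (fin (add (start D275) (orK (nat_lit 288) (fin (add (start D355) D6676)))))))))) (orK (nat_lit 247) (fin (add (start D1283) (orK (nat_lit 227) (fin (add (start D561) (orK (nat_lit 251) (fin (add (start D562) (orK (nat_lit 267) (fin (add (start (win (nat_lit 4) (nat_lit 7) (nat_lit 12) (nat_lit 1))) D421))))))))))))))))))))))))) (orK (nat_lit 209) D4591)) D6579) D6609))))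
noncomputable def D6704 : OP := orK (nat_lit 250) D6703
noncomputable def D6918 : OP := win (nat_lit 6) (nat_lit 10) (nat_lit 8) (nat_lit 0)
noncomputable def D7311 : OP := orK (nat_lit 207) D5736
noncomputable def D7530 : OP := orK (nat_lit 247) (fin (add (start D216) (orK (nat_lit 227) (fin (add (start D217) D3576)))))
noncomputable def D7532 : OP := orK (nat_lit 228) (fin (add (add (add (start D2808) (orK (nat_lit 209) (fin (add (start D200) D4067)))) D7530) D7311))
noncomputable def D9439 : OP := orK (nat_lit 232) (fin (add (start D213) D7532))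
noncomputable def D9448 : OP := orK (nat_lit 231) (fin (add (add (start (orK (nat_lit 170) (fin (add (start D10) D193)))) D9439) (orK (nat_lit 251) (fin (add (start D6918) (orK (nat_lit 252) (fin (add (start D3301) (orK (nat_lit 253) (fin (add (start (win (nat_lit 0) (nat_lit 9) (nat_lit 11) (nat_lit 3))) D1511)))))))))))
noncomputable def D9704 : OP := orK (nat_lit 269) (fin (add (start D23) (orK (nat_lit 208) (fin (add (start D3525) D4215)))))
noncomputable def D6917 : OP := orK (nat_lit 252) (fin (add (start D2705) D2810))
noncomputable def D9483 : OP := orK (nat_lit 245) (fin (add (start D9480) (win (nat_lit 5) (nat_lit 5) (nat_lit 11) (nat_lit 4))))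
noncomputable def D9479 : OP := win (nat_lit 0) (nat_lit 5) (nat_lit 11) (nat_lit 4)
noncomputable def D9487 : OP := orK (nat_lit 226) (fin (add (start D2787) (orK (nat_lit 225) (fin (add (start D9479) D9483)))))
noncomputable def D9452 : OP := orK (nat_lit 206) (fin (add (start D3364) (orK (nat_lit 208) (fin (add (start D3092) D2693)))))
noncomputable def D9473 : AP := fin (add (start D2132) D411)
noncomputable def D7943 : OP := win (nat_lit 4) (nat_lit 7) (nat_lit 9) (nat_lit 5)
noncomputable def D2713 : OP := orK (nat_lit 252) (fin (add (start D2705) D2711))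
noncomputable def D6803 : OP := orK (nat_lit 206) (fin (add (start D2682) (orK (nat_lit 226) (fin (add (start D2681) D2690)))))
noncomputable def D9577 : OP := win (nat_lit 2) (nat_lit 5) (nat_lit 10) (nat_lit 4)
noncomputable def D9542 : OP := win (nat_lit 4) (nat_lit 5) (nat_lit 13) (nat_lit 0)
noncomputable def D9474 : OP := orK (nat_lit 248) D9473
noncomputable def D9472 : OP := orK (nat_lit 207) (fin (add (add (add (start D9452) (orK (nat_lit 231) (fin (add (start D432) (orK (nat_lit 252) (fin (add (start D2705) (orK (nat_lit 232) (fin (add (start D2706) (orK (nat_lit 213) (fin (add (start D206) D2709))))))))))))) (orK (nat_lit 227) (fin (add (start D431) (orK (nat_lit 247) (fin (add (start D217) (orK (nat_lit 248) (fin (add (start D2970) D3937)))))))))) (orK (nat_lit 227) (fin (add (start D431) (orK (nat_lit 247) (fin (add (start D217) D4040))))))))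
noncomputable def D9713 : AP := fin (add (add (add (add (add (add (add (add (start D9472) (orK (nat_lit 249) (fin (add (add (start D28) (orK (nat_lit 231) (fin (add (add (start D9474) D6917) (orK (nat_lit 207) (fin (add (start D432) (orK (nat_lit 252) (fin (add (start D2705) (orK (nat_lit 227) (fin (add (add (add (start D2797) (orK (nat_lit 226) (fin (add (start D2787) (orK (nat_lit 248) (fin (add (start D3235) D2132))))))) D9487) D2801))))))))))))) (orK (nat_lit 248) (fin (add (add (start (orK (nat_lit 247) (fin (add (start D407) D2970)))) (orK (nat_lit 269) (fin (add (start D23) (orK (nat_lit 231) (fin (add (start D411) (orK (nat_lit 208) (fin (add (start D215) D1646)))))))))) (orK (nat_lit 269) (fin (add (start D23) (orK (nat_lit 246) (fin (add (start (win (nat_lit 4) (nat_lit 6) (nat_lit 11) (nat_lit 1))) (orK (nat_lit 268) (fin (add (add (start (orK (nat_lit 227) (fin (add (start (orK (nat_lit 226) (fin (add (start D3235) D2687)))) (orK (nat_lit 288) (fin (add (start D3133) D3799))))))) (orK (nat_lit 267) (fin (add (start (orK (nat_lit 208) (fin (add (start D2735) D1646)))) (orK (nat_lit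 266) (fin (add (start D1892) D634))))))) (orK (nat_lit 207) (fin (add (start (orK (nat_lit 288) (fin (add (start D3133) D1954)))) (orK (nat_lit 208) (fin (add (start D1646) D591)))))))))))))))))))))) (orK (nat_lit 269) (fin (add (add (add (start (orK (nat_lit 249) D24)) (orK (nat_lit 289) (fin (add (start D3639) (orK (nat_lit 248) (fin (add (start D3778) D4989))))))) (orK (nat_lit 227) (fin (add (add (start (orK (nat_lit 247) (fin (add (start D217) (orK (nat_lit 248) (fin (add (start D2970) (orK (nat_lit 268) (fin (add (add (start (orK (nat_lit 208) (fin (add (start D3385) (orK (nat_lit 188) D3996))))) (orK (nat_lit 288) (fin (add (start D2949) (orK (nat_lit 287) (fin (add (start D2994) (orK (nat_lit 270) (fin (add (start (win (nat_lit 2) (nat_lit 7) (nat_lit 12) (nat_lit 0))) (orK (nat_lit 286) (fin (add (start D9542) (win (nat_lit 4) (nat_lit 6) (nat_lit 13) (nat_lit 3))))))))))))))) (orK (nat_lit 288) (fin (add (start D2949) (orK (nat_lit 287) (fin (add (start D2994) (orK (nat_lit 267) (fin (add (start D3892) (orK (nat_lit 286) (fin (add (start D4025) D9542)))))))))))))))))))))) (orK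 (nat_lit 209) (fin (add (start D2645) (orK (nat_lit 231) (fin (add (start (orK (nat_lit 248) (fin (add (start D2132) (orK (nat_lit 268) (fin (add (start D2818) (orK (nat_lit 208) (fin (add (start D1491) D3385)))))))))) D4187))))))) (orK (nat_lit 226) (fin (add (start D2787) (orK (nat_lit 205) (fin (add (start D9577) (orK (nat_lit 225) (fin (add (start D9578) D9483))))))))))))) (orK (nat_lit 209) (fin (add (start (win (nat_lit 3) (nat_lit 9) (nat_lit 9) (nat_lit 1))) (orK (nat_lit 227) (fin (add (start D2645) (orK (nat_lit 247) (fin (add (start D217) (orK (nat_lit 231) (fin (add (start D216) (orK (nat_lit 232) D202))))))))))))))))) (orK (nat_lit 227) (fin (add (add (start D3576) (orK (nat_lit 247) (fin (add (start D217) (orK (nat_lit 231) (fin (add (start D216) D3926))))))) D6803)))) (orK (nat_lit 208) (fin (add (add (add (start D3597) (orK (nat_lit 231) (fin (add (add (start (orK (nat_lit 252) (fin (add (start D2705) (orK (nat_lit 232) (fin (add (start D2706) D214))))))) (orK (nat_lit 248) (fin (add (start D2132) (orK (nat_lit 269) (fin (add (add (start (orK (nat_lit 268) (fin (add (start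 D3385) D3408)))) (orK (nat_lit 249) D3318)) (orK (nat_lit 188) (fin (add (start D3386) (orK (nat_lit 167) (fin (add (start D1666) (orK (nat_lit 168) (fin (add (start D1665) (orK (nat_lit 209) (fin (add (start D3387) (orK (nat_lit 268) D3407)))))))))))))))))))) D2713)))) (orK (nat_lit 231) (fin (add (start D215) (orK (nat_lit 251) (fin (add (start D2101) (orK (nat_lit 248) (fin (add (start D2132) D3520)))))))))) (orK (nat_lit 209) (fin (add (start (orK (nat_lit 207) (fin (add (start D2640) D7943)))) (orK (nat_lit 188) (fin (add (add (start D3400) (orK (nat_lit 248) (fin (add (add (start (orK (nat_lit 249) (fin (add (start D413) (orK (nat_lit 247) (fin (add (start D3009) D407))))))) (orK (nat_lit 269) (fin (add (start D3386) (orK (nat_lit 268) (fin (add (start D2818) D3385))))))) (orK (nat_lit 268) (fin (add (start D2818) (orK (nat_lit 267) (fin (add (start D3705) D2735)))))))))) (orK (nat_lit 168) (fin (add (start D3387) (orK (nat_lit 167) (fin (add (start D1665) (orK (nat_lit 248) (fin (add (start D1666) (orK (nat_lit 267) (fin (add (start D3705) (orK (nat_lit 268) (fin (add (start D2735)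 D2818))))))))))))))))))))))))) D4046) (orK (nat_lit 207) (fin (add (add (add (start (orK (nat_lit 206) (fin (add (start D3364) (orK (nat_lit 208) D3094))))) (orK (nat_lit 231) (fin (add (start D432) (orK (nat_lit 251) (fin (add (start D2101) (orK (nat_lit 248) (fin (add (start D2132) (orK (nat_lit 249) (fin (add (start D411) D28))))))))))))) (orK (nat_lit 227) (fin (add (start D431) (orK (nat_lit 209) (fin (add (start D2645) (orK (nat_lit 249) (fin (add (start (win (nat_lit 3) (nat_lit 9) (nat_lit 9) (nat_lit 0))) (orK (nat_lit 248) (fin (add (start (orK (nat_lit 268) D3350)) (orK (nat_lit 231) D9473)))))))))))))) D9452)))) (orK (nat_lit 249) (fin (add (add (start D28) (orK (nat_lit 231) (fin (add (add (start (orK (nat_lit 252) (fin (add (start D2705) (orK (nat_lit 232) (fin (add (start D2706) D6225))))))) (orK (nat_lit 207) (fin (add (start D432) (orK (nat_lit 227) (fin (add (start D431) D9487))))))) D6917)))) D9704)))) (orK (nat_lit 227) (fin (add (add (start D3576) D2801) (orK (nat_lit 207) (fin (add (start D431) (orK (nat_lit 208) (fin (add (start D2693) D4358))))))))))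
noncomputable def D9714 : OP := orK (nat_lit 228) D9713
noncomputable def D10416 : OP := win (nat_lit 5) (nat_lit 9) (nat_lit 8) (nat_lit 5)
noncomputable def D10536 : OP := orK (nat_lit 172) (fin (add (start D10416) (orK (nat_lit 154) (fin (add (start D8339) (orK (nat_lit 174) (fin (add (start D8222) D7673))))))))
noncomputable def D8651 : OP := win (nat_lit 5) (nat_lit 8) (nat_lit 8) (nat_lit 3)
noncomputable def D8306 : OP := win (nat_lit 2) (nat_lit 11) (nat_lit 8) (nat_lit 0)
noncomputable def D8093 : OP := orK (nat_lit 226) (fin (add (start (win (nat_lit 1) (nat_lit 6) (nat_lit 8) (nat_lit 0))) D2687))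
noncomputable def D8489 : OP := win (nat_lit 4) (nat_lit 7) (nat_lit 8) (nat_lit 1)
noncomputable def D8655 : OP := win (nat_lit 0) (nat_lit 6) (nat_lit 8) (nat_lit 3)
noncomputable def D8642 : OP := win (nat_lit 2) (nat_lit 7) (nat_lit 8) (nat_lit 0)
noncomputable def D8659 : OP := orK (nat_lit 167) (fin (add (start D8642) (orK (nat_lit 166) (fin (add (start D8654) D8655)))))
noncomputable def D8281 : OP := orK (nat_lit 194) (fin (add (start (win (nat_lit 7) (nat_lit 13) (nat_lit 8) (nat_lit 4))) (orK (nat_lit 175) (fin (add (start (win (nat_lit 3) (nat_lit 14) (nat_lit 8) (nat_lit 4))) (orK (nat_lit 174) (fin (add (start (win (nat_lit 3) (nat_lit 14) (nat_lit 7) (nat_lit 5))) (win (nat_lit 7) (nat_lit 13) (nat_lit 7) (nat_lit 5))))))))))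
noncomputable def D9099 : OP := orK (nat_lit 253) (fin (add (start D204) D205))
noncomputable def D7553 : OP := win (nat_lit 3) (nat_lit 12) (nat_lit 7) (nat_lit 5)
noncomputable def D7554 : OP := win (nat_lit 3) (nat_lit 12) (nat_lit 8) (nat_lit 4)
noncomputable def D7542 : OP := win (nat_lit 7) (nat_lit 11) (nat_lit 8) (nat_lit 4)
noncomputable def D10584 : AP := fin (add (add (add (add (add (start D213) (orK (nat_lit 171) (fin (add (start D9) (orK (nat_lit 212) (fin (add (start D3302) (orK (nat_lit 252) (fin (add (start D2706) (orK (nat_lit 192) (fin (add (start D7542) (orK (nat_lit 173) (fin (add (start D7554) (orK (nat_lit 172) (fin (add (start D7553) D10416))))))))))))))))))) (orK (nat_lit 171) (fin (add (start D9) (orK (nat_lit 189) (fin (add (add (start (orK (nat_lit 188) (fin (add (start D219) (orK (nat_lit 172) (fin (add (start D220) D8651))))))) (orK (nat_lit 173) (fin (add (start (win (nat_lit 5) (nat_lit 9) (nat_lit 8) (nat_lit 1))) (orK (nat_lit 233) (fin (add (add (start D9099) (orK (nat_lit 214) (fin (add (start D8137) (orK (nat_lit 234) (fin (add (start D8138) (orK (nat_lit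 254) (fin (add (start D2717) D8281)))))))))) (orK (nat_lit 252) (fin (add (start D2706) (orK (nat_lit 213) (fin (add (start (win (nat_lit 1) (nat_lit 12) (nat_lit 8) (nat_lit 1))) D207))))))))))))) (orK (nat_lit 252) (fin (add (start D2706) (orK (nat_lit 228) (fin (add (add (add (add (add (start D7311) (orK (nat_lit 188) (fin (add (start D219) (orK (nat_lit 208) (fin (add (start D215) (orK (nat_lit 248) (fin (add (start D1485) D2132)))))))))) (orK (nat_lit 188) (fin (add (start D219) (orK (nat_lit 247) (fin (add (start D216) (orK (nat_lit 227) (fin (add (start D217) (orK (nat_lit 168) (fin (add (start (win (nat_lit 1) (nat_lit 7) (nat_lit 8) (nat_lit 2))) D8659))))))))))))) (orK (nat_lit 187) (fin (add (start D8489) (orK (nat_lit 247) (fin (add (start D216) (orK (nat_lit 227) (fin (add (start D217) (orK (nat_lit 207) (fin (add (start D431) (orK (nat_lit 166) (fin (add (start D4334) (orK (nat_lit 167) (fin (add (start D4333) (orK (nat_lit 168) (fin (add (start D8655) D4308)))))))))))))))))))))) (orK (nat_lit 207) (fin (add (start D432) (orK (nat_lit 187) (fin (add (start D8489) (orK (nat_lit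 227) (fin (add (start D431) (orK (nat_lit 167) (fin (add (start D2662) (orK (nat_lit 226) (fin (add (start D4289) (orK (nat_lit 168) (fin (add (start D4308) (orK (nat_lit 166) (fin (add (start D8655) D4333)))))))))))))))))))))) (orK (nat_lit 207) (fin (add (start D432) (orK (nat_lit 227) (fin (add (start D431) (orK (nat_lit 246) (fin (add (start D2688) (orK (nat_lit 187) (fin (add (start D8489) D8093))))))))))))))))))))))))) (orK (nat_lit 171) (fin (add (start D9) (orK (nat_lit 172) (fin (add (add (start (orK (nat_lit 189) (fin (add (start D221) (orK (nat_lit 188) (fin (add (start D219) D220))))))) (orK (nat_lit 253) (fin (add (start D204) (orK (nat_lit 233) (fin (add (start D205) (orK (nat_lit 192) (fin (add (start D8294) (orK (nat_lit 193) (fin (add (start (win (nat_lit 0) (nat_lit 9) (nat_lit 8) (nat_lit 0))) (orK (nat_lit 194) (fin (add (start (win (nat_lit 2) (nat_lit 10) (nat_lit 8) (nat_lit 3))) D8306)))))))))))))))) (orK (nat_lit 189) (fin (add (start D221) (orK (nat_lit 188) (fin (add (start D219) D8651))))))))))))) (orK (nat_lit 171) (fin (add (start D9) (orK (nat_lit 213) (fin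 (add (start D206) (orK (nat_lit 233) (fin (add (start D207) (orK (nat_lit 254) (fin (add (start D2716) (orK (nat_lit 234) (fin (add (start D2717) (orK (nat_lit 173) (fin (add (start (win (nat_lit 6) (nat_lit 13) (nat_lit 8) (nat_lit 1))) D10536))))))))))))))))))) (orK (nat_lit 213) (fin (add (start D206) (orK (nat_lit 233) (fin (add (start D207) (orK (nat_lit 173) (fin (add (add (add (start (orK (nat_lit 193) (fin (add (start D6334) (orK (nat_lit 171) (fin (add (start D9) (orK (nat_lit 172) (fin (add (start D7646) D10416)))))))))) (orK (nat_lit 193) (fin (add (start D6334) (orK (nat_lit 154) (fin (add (start D5776) (orK (nat_lit 153) (fin (add (start D5775) (orK (nat_lit 234) (fin (add (start D5780) D5846))))))))))))) (orK (nat_lit 171) (fin (add (start D9) D10536)))) (orK (nat_lit 193) (fin (add (start D6334) (orK (nat_lit 151) (fin (add (start D166) (orK (nat_lit 154) (fin (add (start D5776) (orK (nat_lit 153) (fin (add (start D5775) (orK (nat_lit 150) (fin (add (start D167) (orK (nat_lit 152) (fin (add (start (win (nat_lit 5) (nat_lit 9) (nat_lit 7) (nat_lit 5))) D5843))))))))))))))))))))))))))))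
noncomputable def D9435 : OP := orK (nat_lit 249) D29
noncomputable def D7829 : OP := win (nat_lit 1) (nat_lit 9) (nat_lit 7) (nat_lit 5)
noncomputable def D7950 : OP := win (nat_lit 1) (nat_lit 9) (nat_lit 6) (nat_lit 0)
noncomputable def D8458 : OP := orK (nat_lit 150) (fin (add (start D7950) D7829))
noncomputable def D10351 : OP := orK (nat_lit 209) (fin (add (start D1649) D8458))
noncomputable def D10357 : OP := orK (nat_lit 171) (fin (add (start D9) (orK (nat_lit 250) (fin (add (start D8) (orK (nat_lit 189) (fin (add (start D113) D10351))))))))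
noncomputable def D8146 : OP := orK (nat_lit 233) D8145
noncomputable def D9982 : OP := win (nat_lit 3) (nat_lit 12) (nat_lit 9) (nat_lit 5)
noncomputable def D7410 : OP := win (nat_lit 3) (nat_lit 12) (nat_lit 9) (nat_lit 4)
noncomputable def D7412 : OP := orK (nat_lit 193) (fin (add (start D7409) D7410))
noncomputable def D7408 : OP := win (nat_lit 6) (nat_lit 12) (nat_lit 10) (nat_lit 4)
noncomputable def D7420 : OP := orK (nat_lit 292) (fin (add (start D1518) (orK (nat_lit 293) (fin (add (start D1521) (orK (nat_lit 212) (fin (add (start D7408) (orK (nat_lit 192) (fin (add (start D3303) D7412)))))))))))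
noncomputable def D7259 : OP := orK (nat_lit 209) D1924
noncomputable def D8456 : OP := orK (nat_lit 250) (fin (add (start D48) (orK (nat_lit 189) (fin (add (start D113) (orK (nat_lit 270) (fin (add (start D114) D809))))))))
noncomputable def D8134 : OP := orK (nat_lit 271) (fin (add (start D8132) D1834))
noncomputable def D8135 : AP := fin (add (start D6918) D8134)
noncomputable def D8442 : OP := orK (nat_lit 231) D8135
noncomputable def D8369 : OP := win (nat_lit 1) (nat_lit 10) (nat_lit 6) (nat_lit 3)
noncomputable def D8439 : OP := orK (nat_lit 151) (fin (add (start D7790) (orK (nat_lit 131) (fin (add (start D8369) (orK (nat_lit 111) (fin (add (add (add (start D8379) D8387) D8391) (orK (nat_lit 172) (fin (add (start D8373) (orK (nat_lit 112) (fin (add (start D8392) (orK (nat_lit 110) (fin (add (start D8393) (orK (nat_lit 132) (fin (add (add (start (orK (nat_lit 109) (fin (add (start D8394) D8395)))) (orK (nat_lit 133) (fin (add (start D8398) (orK (nat_lit 113) (fin (add (start D8402) (orK (nat_lit 130) (fin (add (start (win (nat_lit 4) (nat_lit 9) (nat_lit 5) (nat_lit 0))) (win (nat_lit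 4) (nat_lit 10) (nat_lit 5) (nat_lit 5)))))))))))) (orK (nat_lit 109) (fin (add (start D8394) (orK (nat_lit 129) (fin (add (start D8411) (orK (nat_lit 130) (fin (add (start D8412) (orK (nat_lit 89) (fin (add (start (win (nat_lit 2) (nat_lit 8) (nat_lit 4) (nat_lit 5))) (orK (nat_lit 69) (fin (add (start (win (nat_lit 6) (nat_lit 9) (nat_lit 2) (nat_lit 0))) D8415)))))))))))))))))))))))))))))))))))
noncomputable def D8036 : OP := orK (nat_lit 228) D2648
noncomputable def D9103 : OP := orK (nat_lit 250) (fin (add (start D920) (orK (nat_lit 251) (fin (add (start D906) D8036)))))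
noncomputable def D9109 : OP := orK (nat_lit 254) (fin (add (start D2716) (orK (nat_lit 234) (fin (add (start D2717) (orK (nat_lit 250) (fin (add (start D920) D2718))))))))
noncomputable def D9136 : OP := orK (nat_lit 249) (fin (add (add (add (start (orK (nat_lit 250) (fin (add (start D7) (orK (nat_lit 251) (fin (add (start D48) (orK (nat_lit 231) (fin (add (start D6918) D1509)))))))))) D27) D30) (orK (nat_lit 229) (fin (add (start D0) (orK (nat_lit 231) (fin (add (add (add (start (orK (nat_lit 248) (fin (add (start D411) (orK (nat_lit 247) (fin (add (start D407) (win (nat_lit 4) (nat_lit 7) (nat_lit 11) (nat_lit 3))))))))) (orK (nat_lit 232) (fin (add (add (add (add (start D213) (orK (nat_lit 233) (fin (add (add (start D9099) D9103) D9109)))) D3311) (orK (nat_lit 213) (fin (add (start D206) (orK (nat_lit 233) (fin (add (start D207) D9109))))))) (orK (nat_lit 213) (fin (add (start D206) (orK (nat_lit 233) (fin (add (start D207) D9103)))))))))) (orK (nat_lit 251) (fin (add (start D8134) (orK (nat_lit 228) (fin (add (start D2101) D7311))))))) (orK (nat_lit 248) (fin (add (start D411) (orK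 (nat_lit 247) (fin (add (start D407) (win (nat_lit 5) (nat_lit 7) (nat_lit 11) (nat_lit 3))))))))))))))))
noncomputable def D8911 : OP := orK (nat_lit 249) (fin (add (start D31) (orK (nat_lit 250) (fin (add (start D7) D5261)))))
noncomputable def D8055 : OP := win (nat_lit 4) (nat_lit 6) (nat_lit 9) (nat_lit 0)
noncomputable def D8118 : OP := orK (nat_lit 208) (fin (add (start D8055) D7943))
noncomputable def D8462 : OP := orK (nat_lit 148) D8461
noncomputable def D8646 : OP := orK (nat_lit 167) (fin (add (start D5386) (orK (nat_lit 168) (fin (add (start D8642) D8462)))))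
noncomputable def D8985 : OP := orK (nat_lit 247) (fin (add (add (add (start D6473) (orK (nat_lit 248) (fin (add (start D408) (orK (nat_lit 266) (fin (add (start D556) (orK (nat_lit 246) (fin (add (start D555) (orK (nat_lit 226) (fin (add (start D550) (win (nat_lit 3) (nat_lit 6) (nat_lit 9) (nat_lit 3))))))))))))))) D6511) (orK (nat_lit 248) (fin (add (start D408) (orK (nat_lit 266) (fin (add (start D556) (orK (nat_lit 227) (fin (add (start D4320) D3935)))))))))))
noncomputable def D8647 : AP := fin (add (start D5387) D8646)
noncomputable def D7972 : AP := fin (add (start D3396) D5387)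
noncomputable def D7983 : OP := orK (nat_lit 188) D7972
noncomputable def D7945 : OP := orK (nat_lit 208) (fin (add (start D1955) D7943))
noncomputable def D8057 : OP := orK (nat_lit 208) (fin (add (start D1955) D8055))
noncomputable def D9006 : OP := orK (nat_lit 207) (fin (add (add (add (start D8057) D7945) (orK (nat_lit 187) (fin (add (add (add (start D7983) (orK (nat_lit 188) D8647)) D8985) (orK (nat_lit 188) (fin (add (start D3396) D8646))))))) D8118))
noncomputable def D9164 : OP := orK (nat_lit 250) (fin (add (start D8) D112))
noncomputable def D9172 : OP := orK (nat_lit 171) (fin (add (add (start D9164) (orK (nat_lit 170) (fin (add (start D9) (orK (nat_lit 249) (fin (add (start D31) (orK (nat_lit 250) (fin (add (start D7) D50)))))))))) D8439))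
noncomputable def D10593 : OP := orK (nat_lit 190) (fin (add (add (add (add (add (add (start D7730) D9172) (orK (nat_lit 170) (fin (add (add (add (add (start D195) (orK (nat_lit 249) (fin (add (start D31) (orK (nat_lit 250) (fin (add (start D7) (orK (nat_lit 189) (fin (add (start D113) (orK (nat_lit 209) (fin (add (start D1649) D9006))))))))))))) D8911) (orK (nat_lit 171) (fin (add (start D9) (orK (nat_lit 250) (fin (add (start D8) D124))))))) D10357)))) D9136) (orK (nat_lit 171) (fin (add (add (start (orK (nat_lit 250) (fin (add (start D8) D120)))) (orK (nat_lit 170) (fin (add (start D9) (orK (nat_lit 229) (fin (add (start D188) (orK (nat_lit 251) (fin (add (start D47) (orK (nat_lit 250) (fin (add (start D48) (orK (nat_lit 209) (fin (add (start D6633) (orK (nat_lit 227) (fin (add (start D5403) D4131))))))))))))))))))) D8439)))) (orK (nat_lit 251) (fin (add (add (add (add (start D8442) (orK (nat_lit 250) (fin (add (start D48) (orK (nat_lit 171) (fin (add (start D8) (orK (nat_lit 189) (fin (add (start D113) (orK (nat_lit 170) (fin (add (start D9) D10351))))))))))))) D8456) (orK (nat_lit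 231) (fin (add (start D6918) (orK (nat_lit 232) (fin (add (add (start D7259) (orK (nat_lit 252) (fin (add (add (start (orK (nat_lit 229) (fin (add (start D3301) D2706)))) (orK (nat_lit 254) (fin (add (start (win (nat_lit 2) (nat_lit 10) (nat_lit 11) (nat_lit 1))) (orK (nat_lit 272) (fin (add (add (start (orK (nat_lit 291) (fin (add (start D2102) (orK (nat_lit 292) (fin (add (start D1043) D1518))))))) D7420) (orK (nat_lit 271) (fin (add (start D1834) (orK (nat_lit 212) (fin (add (start D887) (orK (nat_lit 213) (fin (add (start D9982) (orK (nat_lit 273) (fin (add (start D1090) (orK (nat_lit 274) (fin (add (start D1080) D1352)))))))))))))))))))))) (orK (nat_lit 229) D3308))))) D8146))))))) (orK (nat_lit 170) (fin (add (start D47) D10357))))))) (orK (nat_lit 229) (fin (add (add (add (start D9435) (orK (nat_lit 170) (fin (add (start D188) (orK (nat_lit 231) (fin (add (start D10) (orK (nat_lit 232) D10584)))))))) D9714) D9448)))))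
noncomputable def D10219 : OP := orK (nat_lit 147) (fin (add (start D10217) D10210))
noncomputable def D10221 : OP := orK (nat_lit 131) (fin (add (start D10190) D10219))
noncomputable def D10170 : OP := orK (nat_lit 133) (fin (add (start D10167) D10168))
noncomputable def D10282 : OP := orK (nat_lit 173) (fin (add (start D10157) (orK (nat_lit 153) (fin (add (start D10158) D10170)))))
noncomputable def D10186 : OP := orK (nat_lit 129) (fin (add (start (win (nat_lit 7) (nat_lit 9) (nat_lit 6) (nat_lit 2))) (orK (nat_lit 128) D10183)))
noncomputable def D10229 : OP := win (nat_lit 4) (nat_lit 9) (nat_lit 6) (nat_lit 3)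
noncomputable def D10234 : OP := orK (nat_lit 132) (fin (add (start D10228) (orK (nat_lit 133) (fin (add (start D10229) D10230)))))
noncomputable def D10125 : AP := fin (add (start D167) D168)
noncomputable def D10164 : OP := orK (nat_lit 129) (fin (add (start D10161) D10162))
noncomputable def D10214 : OP := orK (nat_lit 127) (fin (add (start D7985) (orK (nat_lit 147) (fin (add (start D7984) D10210)))))
noncomputable def D10176 : OP := orK (nat_lit 152) (fin (add (add (start (orK (nat_lit 148) D10155)) (orK (nat_lit 153) (fin (add (start (orK (nat_lit 173) (fin (add (start D10157) D10158)))) D10170)))) (orK (nat_lit 153) (fin (add (start D10164) D10170)))))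
noncomputable def D10143 : OP := orK (nat_lit 173) (fin (add (start (win (nat_lit 0) (nat_lit 9) (nat_lit 7) (nat_lit 3))) D10141))
noncomputable def D10145 : OP := orK (nat_lit 172) (fin (add (start D10139) D10143))
noncomputable def D9391 : OP := win (nat_lit 7) (nat_lit 11) (nat_lit 7) (nat_lit 0)
noncomputable def D9872 : OP := orK (nat_lit 212) (fin (add (start D5287) D9391))
noncomputable def D10332 : AP := fin (add (add (start (orK (nat_lit 169) D43)) (orK (nat_lit 151) (fin (add (add (add (add (start (orK (nat_lit 170) (fin (add (start D166) (orK (nat_lit 150) D10125))))) (orK (nat_lit 171) (fin (add (start D7790) (orK (nat_lit 191) (fin (add (start D7789) (orK (nat_lit 172) (fin (add (start D7779) (orK (nat_lit 192) (fin (add (start D5288) D9872))))))))))))) (orK (nat_lit 150) (fin (add (add (add (start (orK (nat_lit 170) (fin (add (start D166) D168)))) (orK (nat_lit 171) (fin (add (start D7790) D10145)))) D10176) D10186)))) (orK (nat_lit 150) (fin (add (add (add (add (add (start (orK (nat_lit 148) (fin (add (start (orK (nat_lit 171) (fin (add (start D10189) (orK (nat_lit 131)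 (fin (add (start D8369) D10190))))))) D10214)))) (orK (nat_lit 148) (fin (add (add (start D10206) D10221) D10214)))) (orK (nat_lit 131) (fin (add (add (add (start (orK (nat_lit 171) (fin (add (start D8369) (orK (nat_lit 148) (fin (add (start D10189) D10190))))))) D10234) (orK (nat_lit 171) (fin (add (start D8369) D10145)))) (orK (nat_lit 171) (fin (add (start D8369) (orK (nat_lit 132) (fin (add (add (start (orK (nat_lit 133) (fin (add (start D10229) D10237)))) (orK (nat_lit 112) (fin (add (add (start D10243) (orK (nat_lit 172) (fin (add (start D10143) (orK (nat_lit 111) (fin (add (start D8373) (orK (nat_lit 90) (fin (add (start D8381) (orK (nat_lit 91) (fin (add (start D8380) (orK (nat_lit 71) (fin (add (start D10244) (win (nat_lit 6) (nat_lit 11) (nat_lit 2) (nat_lit 0)))))))))))))))))) (orK (nat_lit 92) (fin (add (start D10240) (win (nat_lit 3) (nat_lit 11) (nat_lit 4) (nat_lit 3))))))))) D10262)))))))))) D10176) (orK (nat_lit 148) (fin (add (add (start (orK (nat_lit 172) (fin (add (start D10148) (orK (nat_lit 152) (fin (add (start D10149) D10154))))))) (orK (nat_lit 171) (fin (add (start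 D10189) (orK (nat_lit 131) (fin (add (start D8369) D10219))))))) D10214)))) (orK (nat_lit 152) (fin (add (add (add (start (orK (nat_lit 173) (fin (add (start D10157) (orK (nat_lit 153) (fin (add (start D10158) D10164))))))) D10282) (orK (nat_lit 129) (fin (add (start D10161) (orK (nat_lit 153) (fin (add (start D10162) D10170))))))) (orK (nat_lit 172) (fin (add (start D10149) (orK (nat_lit 132) (fin (add (start D10200) (orK (nat_lit 131) (fin (add (start (orK (nat_lit 111) (fin (add (start D10287) D10288)))) (orK (nat_lit 171) (fin (add (start D8369) (orK (nat_lit 112) (fin (add (start D10291) (orK (nat_lit 129) (fin (add (start D10161) (orK (nat_lit 113) (fin (add (start D10292) (win (nat_lit 4) (nat_lit 9) (nat_lit 5) (nat_lit 1)))))))))))))))))))))))))))))) (orK (nat_lit 150) (fin (add (add (add (start (orK (nat_lit 170) D10125)) (orK (nat_lit 131) (fin (add (start (win (nat_lit 3) (nat_lit 10) (nat_lit 6) (nat_lit 2))) D10234)))) D10186) (orK (nat_lit 128) (fin (add (add (start D10319) (orK (nat_lit 152) (fin (add (start D10152) D10282)))) (orK (nat_lit 148) (fin (add (start D7951) D10221)))))))))))))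 (orK (nat_lit 169) (fin (add (start D42) D40))))
noncomputable def D9174 : OP := orK (nat_lit 171) (fin (add (start D7819) D7792))
noncomputable def D7832 : OP := win (nat_lit 7) (nat_lit 9) (nat_lit 6) (nat_lit 4)
noncomputable def D7831 : OP := win (nat_lit 7) (nat_lit 9) (nat_lit 5) (nat_lit 5)
noncomputable def D7834 : OP := orK (nat_lit 129) (fin (add (start D7831) D7832))
noncomputable def D7933 : OP := win (nat_lit 3) (nat_lit 10) (nat_lit 5) (nat_lit 5)
noncomputable def D7934 : OP := win (nat_lit 3) (nat_lit 10) (nat_lit 6) (nat_lit 4)
noncomputable def D9072 : OP := orK (nat_lit 229) (fin (add (start D188) (orK (nat_lit 150) (fin (add (start D189) (orK (nat_lit 131) (fin (add (start D7934) (orK (nat_lit 130) (fin (add (start D7933) D7834)))))))))))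
noncomputable def D7830 : OP := win (nat_lit 1) (nat_lit 9) (nat_lit 6) (nat_lit 4)
noncomputable def D7837 : AP := fin (add (start D7829) (orK (nat_lit 130) (fin (add (start D7830) D7834))))
noncomputable def D7847 : OP := orK (nat_lit 150) D7837
noncomputable def D8721 : OP := win (nat_lit 4) (nat_lit 8) (nat_lit 8) (nat_lit 4)
noncomputable def D7971 : OP := win (nat_lit 6) (nat_lit 8) (nat_lit 6) (nat_lit 0)
noncomputable def D7806 : OP := win (nat_lit 4) (nat_lit 7) (nat_lit 8) (nat_lit 5)
noncomputable def D8459 : AP := fin (add (start D3396) D7806)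
noncomputable def D8717 : OP := orK (nat_lit 186) (fin (add (start D3069) (orK (nat_lit 166) (fin (add (start D3070) D5416)))))
noncomputable def D8780 : OP := orK (nat_lit 174) (fin (add (start D5304) D5305))
noncomputable def D8786 : OP := orK (nat_lit 213) (fin (add (start D5277) (orK (nat_lit 193) (fin (add (start D5278) (orK (nat_lit 194) (fin (add (start (win (nat_lit 2) (nat_lit 10) (nat_lit 8) (nat_lit 4))) D8780))))))))
noncomputable def D8800 : OP := orK (nat_lit 192) (fin (add (add (add (start (orK (nat_lit 172) (fin (add (start D8721) D5288)))) D5286) D8786) (orK (nat_lit 213) (fin (add (start D5277) (orK (nat_lit 193) (fin (add (start D5278) (orK (nat_lit 171) (fin (add (start D7856) D7774)))))))))))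
noncomputable def D7857 : OP := win (nat_lit 5) (nat_lit 9) (nat_lit 9) (nat_lit 5)
noncomputable def D8587 : OP := win (nat_lit 6) (nat_lit 8) (nat_lit 6) (nat_lit 5)
noncomputable def D8746 : OP := win (nat_lit 3) (nat_lit 8) (nat_lit 6) (nat_lit 4)
noncomputable def D8623 : OP := orK (nat_lit 171) D224
noncomputable def D8810 : OP := orK (nat_lit 188) (fin (add (add (add (start D8623) (orK (nat_lit 187) (fin (add (add (start D8717) D7718) (orK (nat_lit 191) D7811))))) (orK (nat_lit 191) (fin (add (add (add (add (start (orK (nat_lit 208) (fin (add (start D5396) (orK (nat_lit 171) (fin (add (start D7774) (orK (nat_lit 168) (fin (add (start D5395) (orK (nat_lit 148) (fin (add (add (start (orK (nat_lit 128) (fin (add (start D8587) (orK (nat_lit 129) (fin (add (start D8745) D8746))))))) (orK (nat_lit 128) (fin (add (start D8587) D8754)))) (orK (nat_lit 149) (fin (add (start D3458) (orK (nat_lit 147) (fin (add (start D8757) D8663))))))))))))))))))) (orK (nat_lit 172) (fin (add (start D8721) (orK (nat_lit 192) (fin (add (start D5288) (orK (nat_lit 213) (fin (add (start D5277) (orK (nat_lit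 193) (fin (add (start D5278) D7857))))))))))))) D7705) (orK (nat_lit 208) (fin (add (start D5396) (orK (nat_lit 192) (fin (add (start D7701) D8786))))))) (orK (nat_lit 168) (fin (add (start D5395) (orK (nat_lit 207) (fin (add (start D5388) D8800)))))))))) (orK (nat_lit 187) (fin (add (start D7806) D8717)))))
noncomputable def D8966 : OP := orK (nat_lit 187) (fin (add (start D2660) (orK (nat_lit 188) (fin (add (start D7806) (orK (nat_lit 167) (fin (add (start D5386) (orK (nat_lit 147) (fin (add (start D4768) D4769)))))))))))
noncomputable def D8913 : OP := win (nat_lit 1) (nat_lit 9) (nat_lit 6) (nat_lit 1)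
noncomputable def D7849 : OP := win (nat_lit 5) (nat_lit 8) (nat_lit 9) (nat_lit 3)
noncomputable def D7851 : OP := orK (nat_lit 192) (fin (add (start D7849) D7537))
noncomputable def D8945 : OP := win (nat_lit 4) (nat_lit 7) (nat_lit 9) (nat_lit 0)
noncomputable def D8949 : OP := orK (nat_lit 191) (fin (add (start D125) (orK (nat_lit 208) (fin (add (start D8945) D7851)))))
noncomputable def D7776 : OP := orK (nat_lit 188) (fin (add (start D219) D7774))
noncomputable def D8723 : OP := orK (nat_lit 208) (fin (add (start D5396) D7701))
noncomputable def D8915 : OP := win (nat_lit 6) (nat_lit 12) (nat_lit 8) (nat_lit 5)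
noncomputable def D8914 : OP := win (nat_lit 7) (nat_lit 11) (nat_lit 8) (nat_lit 0)
noncomputable def D7858 : AP := fin (add (start D7856) D7857)
noncomputable def D9074 : OP := orK (nat_lit 170) (fin (add (add (add (start D8911) (orK (nat_lit 171) (fin (add (start D9) (orK (nat_lit 191) (fin (add (start D7819) (orK (nat_lit 192) (fin (add (add (start (orK (nat_lit 193) D7858)) (orK (nat_lit 189) (fin (add (add (start D7776) (orK (nat_lit 172) (fin (add (start D5288) (orK (nat_lit 212) (fin (add (start D5287) (orK (nat_lit 209) (fin (add (start D7706) (orK (nat_lit 130) (fin (add (start D8913) (orK (nat_lit 232) (fin (add (start D8914) (orK (nat_lit 233) (fin (add (start D1365) D8915))))))))))))))))))) (orK (nat_lit 188) (fin (add (start D219) D8723))))))) (orK (nat_lit 193) (fin (add (start D7856) (orK (nat_lit 213) (fin (add (start D5278) (orK (nat_lit 189) (fin (add (start D5277) D7776))))))))))))))))))) (orK (nat_lit 209) (fin (add (add (add (start (orK (nat_lit 229) D6634)) (orK (nat_lit 249) (fin (add (start D31) (orK (nat_lit 250) (fin (add (start D7) D8949))))))) (orK (nat_lit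 189) (fin (add (add (add (add (start (orK (nat_lit 130) (fin (add (start D8913) (orK (nat_lit 250) (fin (add (start D1649) (orK (nat_lit 207) (fin (add (add (add (start D8057) (orK (nat_lit 208) (fin (add (start D1955) D8966)))) (orK (nat_lit 187) (fin (add (add (start (orK (nat_lit 188) D8459)) (orK (nat_lit 249) (fin (add (start D7) D8985)))) (orK (nat_lit 188) (fin (add (start D7806) D5387))))))) (orK (nat_lit 208) (fin (add (start D8055) D8966))))))))))))) D8810) (orK (nat_lit 250) (fin (add (start D1649) (orK (nat_lit 249) (fin (add (start D7) D9006))))))) (orK (nat_lit 250) (fin (add (start D1649) (orK (nat_lit 191) (fin (add (start D125) D7708))))))) (orK (nat_lit 270) (fin (add (start (win (nat_lit 7) (nat_lit 9) (nat_lit 9) (nat_lit 1))) (orK (nat_lit 150) (fin (add (start D7950) (orK (nat_lit 149) (fin (add (start D168) (orK (nat_lit 188) (fin (add (add (start (orK (nat_lit 187) D8459)) (orK (nat_lit 148) (fin (add (add (add (start (orK (nat_lit 171) (fin (add (start D8728) (orK (nat_lit 172) (fin (add (start D8299) D220))))))) (orK (nat_lit 168) (fin (add (start D7971) (orK (nat_lit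 167) (fin (add (start D8642) (orK (nat_lit 166) (fin (add (start D8654) (win (nat_lit 5) (nat_lit 6) (nat_lit 7) (nat_lit 3)))))))))))) (orK (nat_lit 168) (fin (add (start D7971) (orK (nat_lit 191) (fin (add (start D5395) (orK (nat_lit 172) (fin (add (start D8721) (orK (nat_lit 192) (fin (add (start D5288) D7537))))))))))))) (orK (nat_lit 147) (fin (add (start D9036) D9040))))))) (orK (nat_lit 187) (fin (add (start D3396) (orK (nat_lit 167) (fin (add (start D5386) (orK (nat_lit 168) (fin (add (start D8642) (orK (nat_lit 207) (fin (add (start D5387) D8462)))))))))))))))))))))))))))) D7847)))) D9072))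
noncomputable def D8885 : AP := fin (add (start D380) D402)
noncomputable def D10051 : OP := orK (nat_lit 290) D8885
noncomputable def D7146 : OP := orK (nat_lit 228) (fin (add (start D404) D2686))
noncomputable def D7186 : AP := fin (add (start D2158) (orK (nat_lit 227) (fin (add (add (add (start (orK (nat_lit 247) (fin (add (start D2933) (orK (nat_lit 228) (fin (add (start D3210) (orK (nat_lit 229) (fin (add (start D404) D217)))))))))) (orK (nat_lit 229) (fin (add (start D380) D7146)))) (orK (nat_lit 247) (fin (add (start D2933) (orK (nat_lit 286) (fin (add (start D4025) (orK (nat_lit 206) (fin (add (start D6487) (orK (nat_lit 207) (fin (add (start D2936) (orK (nat_lit 208) (fin (add (start D3224) (orK (nat_lit 209) (fin (add (start D4757) D1955))))))))))))))))))) (orK (nat_lit 247) (fin (add (start D2933) (orK (nat_lit 286) (fin (add (start D4025) (orK (nat_lit 208) (fin (add (start D3223) (orK (nat_lit 207) (fin (add (start D3224) (orK (nat_lit 209) D4353)))))))))))))))))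
noncomputable def D6826 : OP := win (nat_lit 1) (nat_lit 7) (nat_lit 11) (nat_lit 2)
noncomputable def D7217 : OP := orK (nat_lit 290) (fin (add (add (add (start D480) D397) D387) (orK (nat_lit 291) (fin (add (start D253) (orK (nat_lit 289) (fin (add (start D251) (orK (nat_lit 288) (fin (add (add (add (add (add (start D2608) (orK (nat_lit 229) (fin (add (start D380) (orK (nat_lit 308) (fin (add (start D2211) (orK (nat_lit 268) (fin (add (start (win (nat_lit 2) (nat_lit 7) (nat_lit 13) (nat_lit 5))) (orK (nat_lit 248) (fin (add (start D2744) (orK (nat_lit 227) (fin (add (start D3800) (orK (nat_lit 228) (fin (add (start D404) D3799))))))))))))))))))) (orK (nat_lit 229) (fin (add (start D380) (orK (nat_lit 228) (fin (add (add (start (orK (nat_lit 307) (fin (add (start D2602) (orK (nat_lit 287) (fin (add (start D2601) (orK (nat_lit 248) (fin (add (start D6826) D4987)))))))))) D2780) D2784))))))) (orK (nat_lit 287) (fin (add (add (add (start D2604) (orK (nat_lit 229) (fin (add (start D380) (orK (nat_lit 267) (fin (add (start D2158) (orK (nat_lit 308) (fin (add (start D2211) (orK (nat_lit 227)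 (fin (add (start (win (nat_lit 6) (nat_lit 7) (nat_lit 11) (nat_lit 1))) D7146))))))))))))) (orK (nat_lit 267) D7186)) (orK (nat_lit 266) (fin (add (start D3822) (orK (nat_lit 286) (fin (add (start D3823) D2592)))))))))) (orK (nat_lit 267) (fin (add (start D2159) (orK (nat_lit 287) D7186))))) (orK (nat_lit 229) (fin (add (start D380) (orK (nat_lit 267) (fin (add (start D2159) (orK (nat_lit 287) (fin (add (start D2158) (orK (nat_lit 306) (fin (add (start D2590) (orK (nat_lit 286) (fin (add (start D2589) (orK (nat_lit 227) (fin (add (start (win (nat_lit 1) (nat_lit 6) (nat_lit 11) (nat_lit 1))) D7146)))))))))))))))))))))))))))))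
noncomputable def D6944 : OP := orK (nat_lit 208) (fin (add (start D215) (orK (nat_lit 232) (fin (add (start D214) D2726)))))
noncomputable def D6940 : OP := orK (nat_lit 208) (fin (add (start D215) (orK (nat_lit 232) (fin (add (start D214) D213)))))
noncomputable def D6924 : OP := orK (nat_lit 288) (fin (add (start D3476) (orK (nat_lit 289) (fin (add (start D250) D2996)))))
noncomputable def D6926 : OP := orK (nat_lit 288) (fin (add (start D3476) D3981))
noncomputable def D6785 : OP := orK (nat_lit 267) (fin (add (start D2735) (win (nat_lit 4) (nat_lit 7) (nat_lit 12) (nat_lit 2))))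
noncomputable def D6915 : OP := orK (nat_lit 290) (fin (add (start D380) (orK (nat_lit 309) (fin (add (start D378) (orK (nat_lit 310) (fin (add (start D379) (orK (nat_lit 251) D802)))))))))
noncomputable def D6857 : OP := win (nat_lit 0) (nat_lit 7) (nat_lit 14) (nat_lit 1)
noncomputable def D6828 : OP := orK (nat_lit 311) (fin (add (start D2157) D392))
noncomputable def D6821 : AP := fin (add (start D2994) (orK (nat_lit 208) (fin (add (start D2993) D215))))
noncomputable def D6908 : OP := orK (nat_lit 289) (fin (add (start D250) (orK (nat_lit 228) (fin (add (add (add (start D2784) (orK (nat_lit 227) (fin (add (start D404) (orK (nat_lit 290) (fin (add (start D251) D6803))))))) (orK (nat_lit 231) (fin (add (start D2734) (orK (nat_lit 248) (fin (add (start D2132) (orK (nat_lit 288) (fin (add (add (add (start (orK (nat_lit 309) (fin (add (start D6103) (win (nat_lit 6) (nat_lit 8) (nat_lit 11) (nat_lit 2)))))) (orK (nat_lit 290) (fin (add (start D251) (orK (nat_lit 311) (fin (add (start D392) (orK (nat_lit 310) (fin (add (start D1535) D393)))))))))) (orK (nat_lit 268) (fin (add (start D2996)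 (orK (nat_lit 287) D6821))))) (orK (nat_lit 287) (fin (add (add (add (start (orK (nat_lit 268) D6821)) (orK (nat_lit 307) (fin (add (start D6826) (orK (nat_lit 290) (fin (add (start D2601) D6828))))))) (orK (nat_lit 290) (fin (add (start D6828) (orK (nat_lit 286) (fin (add (start (orK (nat_lit 266) (fin (add (start D3823) D3822)))) D2592))))))) (orK (nat_lit 208) (fin (add (start D215) (orK (nat_lit 267) (fin (add (start D2977) (orK (nat_lit 290) (fin (add (start D2158) D6828)))))))))))))))))))))) (orK (nat_lit 290) (fin (add (start D251) (orK (nat_lit 311) (fin (add (start D392) (orK (nat_lit 227) (fin (add (add (add (start (orK (nat_lit 207) (fin (add (start D431) (orK (nat_lit 231) (fin (add (start D432) D2797))))))) (orK (nat_lit 310) (fin (add (start D393) (orK (nat_lit 287) (fin (add (start D6857) (orK (nat_lit 206) (fin (add (start D2682) (orK (nat_lit 226) (fin (add (start D2681) (orK (nat_lit 246) (fin (add (start D2687) (orK (nat_lit 266) (fin (add (start (win (nat_lit 6) (nat_lit 6) (nat_lit 10) (nat_lit 4))) (orK (nat_lit 285) (fin (add (start (win (nat_lit 1) (nat_lit 5) (nat_lit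 10) (nat_lit 4))) (orK (nat_lit 286) (fin (add (start (win (nat_lit 1) (nat_lit 5) (nat_lit 11) (nat_lit 5))) (win (nat_lit 6) (nat_lit 6) (nat_lit 11) (nat_lit 5))))))))))))))))))))))))))) (orK (nat_lit 247) (fin (add (start D217) (orK (nat_lit 310) (fin (add (start D393) (orK (nat_lit 287) (fin (add (start D6857) (orK (nat_lit 267) (fin (add (start D3210) (orK (nat_lit 248) (fin (add (start D2932) D2970)))))))))))))))) (orK (nat_lit 207) (fin (add (start D431) (orK (nat_lit 231) (fin (add (start D432) (orK (nat_lit 248) (fin (add (start D2132) (orK (nat_lit 310) (fin (add (start D393) (orK (nat_lit 288) (fin (add (start D1535) (win (nat_lit 7) (nat_lit 7) (nat_lit 10) (nat_lit 1)))))))))))))))))))))))))))))))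
noncomputable def D6799 : OP := orK (nat_lit 209) (fin (add (start D2860) (orK (nat_lit 231) (fin (add (add (start D2862) (orK (nat_lit 232) (fin (add (start D201) (orK (nat_lit 252) (fin (add (start D2706) (orK (nat_lit 228) (fin (add (start D2705) D4067)))))))))) (orK (nat_lit 208) (fin (add (start D326) (orK (nat_lit 228) (fin (add (add (start D2647) (orK (nat_lit 251) (fin (add (start D2101) (orK (nat_lit 248) (fin (add (start D2132) (orK (nat_lit 268) (fin (add (start D2818) D6785)))))))))) D4067)))))))))))
noncomputable def D6776 : OP := orK (nat_lit 289) D4933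
noncomputable def D7748 : OP := orK (nat_lit 229) (fin (add (add (add (add (start D6776) D6799) D6908) D6915) (orK (nat_lit 228) (fin (add (add (add (start D2784) D3603) (orK (nat_lit 231) (fin (add (add (add (start D2734) (orK (nat_lit 208) (fin (add (start D215) (orK (nat_lit 248) (fin (add (start D2132) (orK (nat_lit 268) (fin (add (add (start (orK (nat_lit 251) (fin (add (start D2101) D6785)))) D6926) D6924)))))))))) D6940) D6944)))) D2803)))))
noncomputable def D9936 : OP := orK (nat_lit 229) (fin (add (start D188) (orK (nat_lit 231) (fin (add (start D10) D9439)))))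
noncomputable def D7266 : OP := orK (nat_lit 170) (fin (add (start D31) D10))
noncomputable def D10337 : OP := orK (nat_lit 190) (fin (add (add (add (add (add (start D7700) (orK (nat_lit 169) (fin (add (add (start (orK (nat_lit 250) (fin (add (start D12) (orK (nat_lit 249) (fin (add (start D7) (orK (nat_lit 231) (fin (add (add (start D7266) D675) (orK (nat_lit 229) (fin (add (start D0) D669))))))))))))) D60) (orK (nat_lit 170) (fin (add (start D11) D9936))))))) (orK (nat_lit 250) (fin (add (add (add (start D124) D7728) (orK (nat_lit 270) (fin (add (add (add (start D6211) D7748) D7217) (orK (nat_lit 249) (fin (add (start D7) (orK (nat_lit 171) (fin (add (start D8) (orK (nat_lit 251) (fin (add (add (add (add (start (orK (nat_lit 229) (fin (add (start D5702) D10051)))) (orK (nat_lit 248) (fin (add (add (start D145) D5690) (orK (nat_lit 232) (fin (add (start D569) (orK (nat_lit 252) (fin (add (start D570) D129)))))))))) (orK (nat_lit 248) (fin (add (add (start D145) D2001) (orK (nat_lit 232) (fin (add (start D569) (orK (nat_lit 252) (fin (add (start D570) (orK (nat_lit 273) (fin (add (start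 D130) (orK (nat_lit 253) (fin (add (start D131) D1989)))))))))))))))) D1696) (orK (nat_lit 227) (fin (add (add (start (orK (nat_lit 247) (fin (add (add (add (start D5495) (orK (nat_lit 248) D2088)) (orK (nat_lit 248) D1296)) (orK (nat_lit 207) (fin (add (add (start (orK (nat_lit 290) (fin (add (add (start D803) (orK (nat_lit 310) (fin (add (start D504) D476)))) (orK (nat_lit 209) (fin (add (start D261) D4354))))))) (orK (nat_lit 267) (fin (add (add (start (orK (nat_lit 187) (fin (add (start (orK (nat_lit 266) (fin (add (start D4320) D4321)))) D6155)))) D4031) (orK (nat_lit 287) (fin (add (start D4029) D6489))))))) (orK (nat_lit 267) (fin (add (start D4031) (orK (nat_lit 187) (fin (add (start D4035) D6155))))))))))))) (orK (nat_lit 248) D1129)) (orK (nat_lit 229) (fin (add (start D5403) D10051))))))))))))))))))) D5665)))) D9074) (orK (nat_lit 250) D5666)) (orK (nat_lit 189) (fin (add (add (add (start (orK (nat_lit 169) D59)) (orK (nat_lit 191) (fin (add (start D9174) D7724)))) (orK (nat_lit 169) (fin (add (start D57) (orK (nat_lit 149) (fin (add (start D41) D40))))))) (orK (nat_lit 149)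 D10332))))))
noncomputable def D7235 : OP := orK (nat_lit 270) (fin (add (add (add (add (start D391) (orK (nat_lit 271) (fin (add (start D106) (orK (nat_lit 190) (fin (add (start D105) D6643))))))) D499) D7217) (orK (nat_lit 290) (fin (add (add (add (start D387) D488) (orK (nat_lit 229) (fin (add (start D380) (orK (nat_lit 310) (fin (add (start D381) D484))))))) (orK (nat_lit 229) (fin (add (start D380) (orK (nat_lit 289) (fin (add (start D251) (orK (nat_lit 251) (fin (add (add (start (orK (nat_lit 190) (fin (add (start D48) (orK (nat_lit 170) (fin (add (start D188) D47))))))) D2130) D3347))))))))))))))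
noncomputable def D6720 : OP := orK (nat_lit 190) (fin (add (start D48) (orK (nat_lit 171) (fin (add (start D8) (orK (nat_lit 170) (fin (add (start D9) D47))))))))
noncomputable def D10028 : OP := orK (nat_lit 250) (fin (add (add (add (add (add (add (start D9942) D2896) D9948) (orK (nat_lit 251) (fin (add (add (add (start (orK (nat_lit 252) (fin (add (add (add (start D2020) D1030) D1988) (orK (nat_lit 229) (fin (add (add (start D2018) (orK (nat_lit 209) (fin (add (start D8899) (orK (nat_lit 190) (fin (add (add (start D6635) (orK (nat_lit 191) (fin (add (start D125) (orK (nat_lit 208) (fin (add (start D8945) (orK (nat_lit 232) (fin (add (start D4622) (orK (nat_lit 233) (fin (add (start D886) (orK (nat_lit 193) (fin (add (start (win (nat_lit 5) (nat_lit 9) (nat_lit 9) (nat_lit 1))) (orK (nat_lit 213) D9954))))))))))))))))) (orK (nat_lit 170) (fin (add (start D6633) D47)))))))))) D1986))))))) (orK (nat_lit 229) (fin (add (add (add (start (orK (nat_lit 252) (fin (add (start D127) (orK (nat_lit 271) (fin (add (start (orK (nat_lit 249) (fin (add (add (start D1993) (orK (nat_lit 232) (fin (add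 (start D570) (orK (nat_lit 212) (fin (add (start D887) (orK (nat_lit 231) (fin (add (start D660) D3302)))))))))) (orK (nat_lit 272) (fin (add (start D698) (orK (nat_lit 232) (fin (add (start D570) (orK (nat_lit 212) (fin (add (start D887) (orK (nat_lit 213) (fin (add (start D9982) (win (nat_lit 4) (nat_lit 9) (nat_lit 10) (nat_lit 2)))))))))))))))))) D738))))))) D2130) D3347) (orK (nat_lit 270) (fin (add (add (start D4867) (orK (nat_lit 291) (fin (add (start D252) (orK (nat_lit 290) (fin (add (start D253) D4936))))))) (orK (nat_lit 271) (fin (add (start D106) (orK (nat_lit 209) (fin (add (start D260) (orK (nat_lit 248) (fin (add (add (start (orK (nat_lit 249) D5703)) (orK (nat_lit 268) (fin (add (start (orK (nat_lit 228) (fin (add (start D1983) D2818)))) (orK (nat_lit 249) (fin (add (start D741) D577))))))) (orK (nat_lit 231) (fin (add (start D2862) (orK (nat_lit 228) (fin (add (start D1983) D2132)))))))))))))))))))))) D5674) D6720)))) D7235) D5478) (orK (nat_lit 190) (fin (add (add (start D54) D7728) D78)))))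
noncomputable def D9940 : OP := orK (nat_lit 190) (fin (add (add (add (add (add (add (start (orK (nat_lit 170) (fin (add (start D9936) D175)))) D161) D68) D102) D74) D88) D187))
noncomputable def D8553 : OP := win (nat_lit 3) (nat_lit 10) (nat_lit 5) (nat_lit 4)
noncomputable def D9330 : OP := win (nat_lit 5) (nat_lit 11) (nat_lit 8) (nat_lit 0)
noncomputable def D9894 : AP := fin (add (start (win (nat_lit 5) (nat_lit 10) (nat_lit 8) (nat_lit 3))) D9330)
noncomputable def D9312 : OP := win (nat_lit 4) (nat_lit 9) (nat_lit 8) (nat_lit 0)
noncomputable def D9329 : OP := win (nat_lit 4) (nat_lit 10) (nat_lit 8) (nat_lit 3)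
noncomputable def D9317 : OP := orK (nat_lit 172) (fin (add (start D9312) (orK (nat_lit 152) (fin (add (start D9313) D5858)))))
noncomputable def D9264 : AP := fin (add (start D8207) D9263)
noncomputable def D9284 : OP := orK (nat_lit 233) (fin (add (add (start (orK (nat_lit 172) (fin (add (start D6238) D6239)))) D5797) (orK (nat_lit 153) (fin (add (start (orK (nat_lit 212) D9264)) D5846)))))
noncomputable def D9258 : OP := win (nat_lit 2) (nat_lit 11) (nat_lit 9) (nat_lit 0)
noncomputable def D9260 : OP := orK (nat_lit 214) (fin (add (start (win (nat_lit 0) (nat_lit 10) (nat_lit 9) (nat_lit 3))) D9258))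
noncomputable def D9256 : OP := win (nat_lit 0) (nat_lit 9) (nat_lit 9) (nat_lit 0)
noncomputable def D9261 : AP := fin (add (start D9256) D9260)
noncomputable def D9262 : OP := orK (nat_lit 212) D9261
noncomputable def D9323 : OP := orK (nat_lit 189) (fin (add (start D5277) D5279))
noncomputable def D9325 : OP := orK (nat_lit 212) (fin (add (start D9256) (orK (nat_lit 153) D9264)))
noncomputable def D9844 : OP := win (nat_lit 1) (nat_lit 11) (nat_lit 5) (nat_lit 0)
noncomputable def D9832 : OP := win (nat_lit 1) (nat_lit 10) (nat_lit 6) (nat_lit 1)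
noncomputable def D9408 : OP := orK (nat_lit 189) (fin (add (start D7779) D5288))
noncomputable def D9186 : OP := orK (nat_lit 193) (fin (add (start D7857) (orK (nat_lit 214) (fin (add (start D5358) (orK (nat_lit 194) (fin (add (start D5359) D8780))))))))
noncomputable def D9180 : OP := orK (nat_lit 209) (fin (add (start D7537) (orK (nat_lit 208) (fin (add (start D8945) D7849)))))
noncomputable def D9720 : OP := orK (nat_lit 251) (fin (add (start D2101) D6918))
noncomputable def D9753 : OP := orK (nat_lit 225) (fin (add (start D9479) (orK (nat_lit 205) (fin (add (start D9578) D9577)))))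
noncomputable def D9741 : OP := win (nat_lit 4) (nat_lit 4) (nat_lit 10) (nat_lit 4)
noncomputable def D9740 : OP := win (nat_lit 2) (nat_lit 3) (nat_lit 10) (nat_lit 5)
noncomputable def D9739 : OP := win (nat_lit 2) (nat_lit 4) (nat_lit 10) (nat_lit 4)
noncomputable def D9730 : OP := orK (nat_lit 244) (fin (add (start (win (nat_lit 5) (nat_lit 3) (nat_lit 11) (nat_lit 5))) (win (nat_lit 5) (nat_lit 4) (nat_lit 11) (nat_lit 4))))
noncomputable def D7973 : OP := orK (nat_lit 187) D7972
noncomputable def D7939 : AP := fin (add (start D7829) (orK (nat_lit 130) (fin (add (start D7830) (orK (nat_lit 131) (fin (add (start D7933) D7934)))))))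
noncomputable def D7902 : OP := orK (nat_lit 150) (fin (add (start D7896) (orK (nat_lit 213) (fin (add (start D6238) (orK (nat_lit 153) (fin (add (start D7648) D5782))))))))
noncomputable def D7842 : OP := orK (nat_lit 151) (fin (add (start D166) (orK (nat_lit 150) (fin (add (start D167) (orK (nat_lit 209) D7837))))))
noncomputable def D8031 : OP := orK (nat_lit 170) (fin (add (add (add (start D64) D7842) (orK (nat_lit 231) (fin (add (start D10) (orK (nat_lit 209) (fin (add (add (start D7847) D331) (orK (nat_lit 208) (fin (add (start D326) (orK (nat_lit 233) (fin (add (start (win (nat_lit 2) (nat_lit 9) (nat_lit 10) (nat_lit 1))) (orK (nat_lit 191) (fin (add (add (start D7851) (orK (nat_lit 250) (fin (add (start D125) (orK (nat_lit 270) (fin (add (start D260) D259))))))) (orK (nat_lit 171) (fin (add (start D7819) (orK (nat_lit 193) (fin (add (add (start (orK (nat_lit 192) D7858)) (orK (nat_lit 173) (fin (add (add (add (start D7861) D7895) (orK (nat_lit 172) (fin (add (start D7646) D7902)))) (orK (nat_lit 172) (fin (add (start D7682) D7902))))))) (orK (nat_lit 192) (fin (add (start D7857)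 (orK (nat_lit 213) (fin (add (start D5278) (orK (nat_lit 173) (fin (add (start D5280) (orK (nat_lit 254) (fin (add (start D5621) (orK (nat_lit 253) (fin (add (start D5622) D834))))))))))))))))))))))))))))))))))))) (orK (nat_lit 209) (fin (add (add (start (orK (nat_lit 150) D7939)) (orK (nat_lit 231) (fin (add (start D10) D331)))) (orK (nat_lit 207) (fin (add (add (start D7945) (orK (nat_lit 189) (fin (add (start (orK (nat_lit 251) (fin (add (start D47) (orK (nat_lit 250) (fin (add (start D48) D1649))))))) (orK (nat_lit 150) (fin (add (start D7950) (orK (nat_lit 149) (fin (add (start D168) (orK (nat_lit 151) (fin (add (start D167) (orK (nat_lit 148) (fin (add (add (add (add (start (orK (nat_lit 128) (fin (add (start D7951) (orK (nat_lit 168) (fin (add (start D7952) (win (nat_lit 6) (nat_lit 8) (nat_lit 6) (nat_lit 3))))))))) (orK (nat_lit 167) (fin (add (start D7958) (orK (nat_lit 147) (fin (add (start D7959) (orK (nat_lit 126) (fin (add (start D7960) (orK (nat_lit 146) D7963))))))))))) (orK (nat_lit 168) (fin (add (start D7952) (orK (nat_lit 188) (fin (add (start D7971) D7973))))))) (orK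 (nat_lit 128) (fin (add (start D7951) (orK (nat_lit 188) (fin (add (start (win (nat_lit 6) (nat_lit 8) (nat_lit 6) (nat_lit 2))) D7973))))))) (orK (nat_lit 147) (fin (add (add (start (orK (nat_lit 187) (fin (add (start D7983) D7987)))) (orK (nat_lit 187) (fin (add (start D7983) (orK (nat_lit 167) (fin (add (start D4292) D7959))))))) D8006))))))))))))))))))) (orK (nat_lit 208) (fin (add (start D7943) (orK (nat_lit 186) (fin (add (start D4594) (orK (nat_lit 206) (fin (add (start D4595) (win (nat_lit 4) (nat_lit 6) (nat_lit 9) (nat_lit 4)))))))))))))))))))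
noncomputable def D9209 : OP := orK (nat_lit 188) (fin (add (add (add (start D8723) (orK (nat_lit 167) (fin (add (start D5385) (orK (nat_lit 187) (fin (add (start D5386) (orK (nat_lit 209) (fin (add (start D3396) D7706)))))))))) D7722) D5394))
noncomputable def D9345 : OP := orK (nat_lit 167) (fin (add (start D5385) (orK (nat_lit 187) (fin (add (start D5386) (win (nat_lit 4) (nat_lit 7) (nat_lit 8) (nat_lit 4)))))))
noncomputable def D9285 : AP := fin (add (start D5280) D9284)
noncomputable def D9239 : OP := win (nat_lit 6) (nat_lit 12) (nat_lit 8) (nat_lit 3)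
noncomputable def D7475 : OP := win (nat_lit 7) (nat_lit 12) (nat_lit 9) (nat_lit 0)
noncomputable def D7513 : OP := win (nat_lit 4) (nat_lit 10) (nat_lit 10) (nat_lit 3)
noncomputable def D9227 : OP := orK (nat_lit 269) (fin (add (start D103) D1811))
noncomputable def D9221 : AP := fin (add (start D5290) D5291)
noncomputable def D9419 : AP := fin (add (add (add (start D9174) (orK (nat_lit 250) (fin (add (start D125) D112)))) (orK (nat_lit 192) (fin (add (add (add (start D9180) D9186) (orK (nat_lit 189) (fin (add (start D9209) (orK (nat_lit 212) (fin (add (start D5287) (orK (nat_lit 172) (fin (add (start D5288) (orK (nat_lit 251) (fin (add (add (start (orK (nat_lit 231) (fin (add (start (win (nat_lit 1) (nat_lit 11) (nat_lit 8) (nat_lit 3))) D6918)))) (orK (nat_lit 252) (fin (add (add (add (start (orK (nat_lit 271) (fin (add (start (win (nat_lit 1) (nat_lit 11) (nat_lit 9) (nat_lit 2))) D8132)))) (orK (nat_lit 250) (fin (add (start D48) (orK (nat_lit 269) (fin (add (start D103) (orK (nat_lit 270) (fin (add (start D104) D695)))))))))) (orK (nat_lit 232) (fin (add (start D1091) (orK (nat_lit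 253) D9221))))) (orK (nat_lit 253) (fin (add (add (add (start (orK (nat_lit 232) D9221)) (orK (nat_lit 250) (fin (add (start D9227) (orK (nat_lit 254) (fin (add (start D1150) D1026))))))) (orK (nat_lit 273) (fin (add (start (win (nat_lit 6) (nat_lit 12) (nat_lit 9) (nat_lit 2))) (orK (nat_lit 250) (fin (add (start D131) (orK (nat_lit 249) (fin (add (start D130) D7)))))))))) (orK (nat_lit 233) (fin (add (start D9239) (orK (nat_lit 250) (fin (add (start D133) D9227))))))))))))) D8442))))))))))))) (orK (nat_lit 213) (fin (add (add (add (add (start D9262) (orK (nat_lit 193) (fin (add (start D5278) (orK (nat_lit 173) D9285))))) (orK (nat_lit 212) (fin (add (start D9256) (orK (nat_lit 214) (fin (add (start D9258) (orK (nat_lit 251) (fin (add (add (start (orK (nat_lit 231) (fin (add (start D6918) (orK (nat_lit 232) (fin (add (start D3303) D7513))))))) D8442) (orK (nat_lit 250) (fin (add (start D48) (orK (nat_lit 269) (fin (add (start D103) (orK (nat_lit 270) (fin (add (start D104) (orK (nat_lit 253) (fin (add (start (win (nat_lit 5) (nat_lit 9) (nat_lit 12) (nat_lit 1))) (orK (nat_lit 233) (fin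 (add (start D7475) (orK (nat_lit 172) (fin (add (start (win (nat_lit 6) (nat_lit 12) (nat_lit 7) (nat_lit 0))) D9239)))))))))))))))))))))))))))) (orK (nat_lit 193) (fin (add (start D5278) (orK (nat_lit 173) (fin (add (start D5280) D9317))))))) (orK (nat_lit 173) (fin (add (add (add (start D9323) (orK (nat_lit 193) (fin (add (start D5280) D9325)))) (orK (nat_lit 193) D9285)) (orK (nat_lit 172) (fin (add (start D9312) (orK (nat_lit 174) (fin (add (start D9329) D9330)))))))))))))))) (orK (nat_lit 171) (fin (add (add (start D7792) (orK (nat_lit 189) (fin (add (add (start (orK (nat_lit 188) (fin (add (start D7774) D9345)))) (orK (nat_lit 192) (fin (add (add (start (orK (nat_lit 209) D7707)) D5286) (orK (nat_lit 212) (fin (add (start D5287) (orK (nat_lit 172) (fin (add (start D5288) (orK (nat_lit 209) (fin (add (start D7706) (orK (nat_lit 232) (fin (add (start D8914) (orK (nat_lit 231) (fin (add (start D5591) D201))))))))))))))))))) (orK (nat_lit 208) (fin (add (add (start (orK (nat_lit 207) (fin (add (start (win (nat_lit 4) (nat_lit 7) (nat_lit 9) (nat_lit 2))) (win (nat_lit 5) (nat_lit 7) (nat_lit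 9) (nat_lit 3)))))) (orK (nat_lit 192) (fin (add (start D7701) (orK (nat_lit 213) (fin (add (start D5277) (orK (nat_lit 193) (fin (add (start D5278) (orK (nat_lit 194) (fin (add (start (win (nat_lit 2) (nat_lit 10) (nat_lit 8) (nat_lit 5))) D8780))))))))))))) (orK (nat_lit 188) (fin (add (start D5396) D9345)))))))))) (orK (nat_lit 151) (fin (add (start D7789) (orK (nat_lit 192) (fin (add (add (add (start D9180) (orK (nat_lit 193) (fin (add (start D7857) (orK (nat_lit 214) (fin (add (start D5358) (orK (nat_lit 194) (fin (add (start D5359) (orK (nat_lit 195) (fin (add (start (win (nat_lit 2) (nat_lit 11) (nat_lit 8) (nat_lit 4))) D8780))))))))))))) (orK (nat_lit 189) (fin (add (start D9209) (orK (nat_lit 212) (fin (add (start D5287) (orK (nat_lit 172) (fin (add (start D5288) D9391)))))))))) (orK (nat_lit 212) (fin (add (add (start (orK (nat_lit 213) D9261)) (orK (nat_lit 213) (fin (add (start D9260) (orK (nat_lit 232) (fin (add (start (win (nat_lit 7) (nat_lit 11) (nat_lit 7) (nat_lit 3))) D8914))))))) (orK (nat_lit 172) (fin (add (start D9391) D9408))))))))))))))))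
noncomputable def D9931 : AP := fin (add (add (add (add (add (add (add (add (start D9136) D9074) (orK (nat_lit 250) (fin (add (add (add (add (start D112) D155) (orK (nat_lit 171) (fin (add (start D8) (orK (nat_lit 270) (fin (add (add (start D108) (orK (nat_lit 209) (fin (add (start D260) (orK (nat_lit 290) (fin (add (start D261) D480))))))) (orK (nat_lit 209) (fin (add (start D260) (orK (nat_lit 290) (fin (add (start D261) (orK (nat_lit 309) (fin (add (start D378) (orK (nat_lit 310) (fin (add (start D379) (orK (nat_lit 251) (fin (add (start D452) D48)))))))))))))))))))))) (orK (nat_lit 269) (fin (add (start D103) (orK (nat_lit 270) (fin (add (start D104) D267))))))) (orK (nat_lit 269) (fin (add (start D103) D4077))))))) D9172) (orK (nat_lit 191) D9419)) (orK (nat_lit 170) (fin (add (add (add (start (orK (nat_lit 171) (fin (add (start D9) D9164)))) (orK (nat_lit 229) (fin (add (start D188) (orK (nat_lit 209) (fin (add (start D6633) (orK (nat_lit 250) (fin (add (start D8949) (orK (nat_lit 271) (fin (add (start D105) (orK (nat_lit 270) (fin (add (start D106) D2860)))))))))))))))) D9072) D7842))))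 D8031) (orK (nat_lit 229) (fin (add (add (add (start D9435) D9448) D9714) (orK (nat_lit 228) (fin (add (add (add (add (add (start (orK (nat_lit 231) (fin (add (add (start D9720) (orK (nat_lit 249) (fin (add (start D0) D9474)))) D2713)))) (orK (nat_lit 249) (fin (add (start D0) (orK (nat_lit 269) (fin (add (start D23) (orK (nat_lit 227) (fin (add (add (add (add (start D6803) D4044) (orK (nat_lit 226) (fin (add (add (add (start D2684) (orK (nat_lit 225) (fin (add (start D9479) (orK (nat_lit 207) (fin (add (start D431) (orK (nat_lit 224) (fin (add (start (win (nat_lit 4) (nat_lit 4) (nat_lit 10) (nat_lit 5))) (orK (nat_lit 203) (fin (add (start (win (nat_lit 2) (nat_lit 3) (nat_lit 10) (nat_lit 4))) D9730))))))))))))) (orK (nat_lit 225) (fin (add (start D9479) (orK (nat_lit 204) (fin (add (start D9739) (orK (nat_lit 224) (fin (add (start D9740) (orK (nat_lit 208) (fin (add (start D9741) D9730))))))))))))) D9753)))) (orK (nat_lit 208) (fin (add (add (start D4215) (orK (nat_lit 246) (fin (add (start D2688) (orK (nat_lit 226) (fin (add (start D2687) (orK (nat_lit 225) (fin (add (start D9479)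 (orK (nat_lit 204) (fin (add (start D9739) (orK (nat_lit 224) (fin (add (start D9740) D9741)))))))))))))))) (orK (nat_lit 247) (fin (add (start D217) (orK (nat_lit 188) (fin (add (start D218) (orK (nat_lit 267) (fin (add (start (win (nat_lit 3) (nat_lit 7) (nat_lit 9) (nat_lit 3))) D2929))))))))))))) (orK (nat_lit 246) (fin (add (start D2688) (orK (nat_lit 226) (fin (add (start D2687) D9753)))))))))))))))) D9472) (orK (nat_lit 249) (fin (add (start D0) D9704)))) (orK (nat_lit 170) (fin (add (start D188) (orK (nat_lit 231) (fin (add (start D10) (orK (nat_lit 151) (fin (add (start D166) (orK (nat_lit 150) (fin (add (start D167) (orK (nat_lit 149) (fin (add (start D168) (orK (nat_lit 207) (fin (add (start D432) (orK (nat_lit 227) (fin (add (start D431) (orK (nat_lit 246) (fin (add (start D2688) (orK (nat_lit 226) (fin (add (start D2687) (orK (nat_lit 167) (fin (add (start (win (nat_lit 1) (nat_lit 6) (nat_lit 8) (nat_lit 1))) (orK (nat_lit 148) (fin (add (start D7958) (orK (nat_lit 127) (fin (add (start D7985) (orK (nat_lit 147) D9788)))))))))))))))))))))))))))))))))))))) (orK (nat_lit 231)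 (fin (add (start D9720) D7311)))))))))) (orK (nat_lit 171) (fin (add (add (add (add (start (orK (nat_lit 151) (fin (add (start D7790) (orK (nat_lit 191) (fin (add (start D7789) D7819))))))) (orK (nat_lit 250) (fin (add (start D8) (orK (nat_lit 251) (fin (add (start D48) (orK (nat_lit 170) (fin (add (start D47) (orK (nat_lit 229) (fin (add (start D188) (orK (nat_lit 209) (fin (add (start D6633) (orK (nat_lit 227) (fin (add (start D5403) D8899))))))))))))))))))) (orK (nat_lit 191) (fin (add (start D7819) (orK (nat_lit 192) (fin (add (add (add (start D9180) (orK (nat_lit 131) (fin (add (start D9832) D9186)))) (orK (nat_lit 172) (fin (add (add (start D9408) (orK (nat_lit 174) (fin (add (start (win (nat_lit 5) (nat_lit 10) (nat_lit 8) (nat_lit 1))) (orK (nat_lit 212) (fin (add (start (orK (nat_lit 232) (fin (add (start D8914) (orK (nat_lit 231) (fin (add (start D5591) (orK (nat_lit 233) (fin (add (start D919) D8915)))))))))) (orK (nat_lit 152) (fin (add (add (start (orK (nat_lit 131) (fin (add (start D9832) (orK (nat_lit 132) (fin (add (start D9844) (win (nat_lit 7) (nat_lit 11) (nat_lit 5)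 (nat_lit 5))))))))) (orK (nat_lit 132) (fin (add (start D9844) (orK (nat_lit 133) (fin (add (start D9850) (win (nat_lit 3) (nat_lit 12) (nat_lit 6) (nat_lit 4))))))))) (orK (nat_lit 151) (fin (add (start D7789) (orK (nat_lit 153) (fin (add (start (win (nat_lit 3) (nat_lit 12) (nat_lit 6) (nat_lit 5))) (orK (nat_lit 154) (fin (add (start D9857) (win (nat_lit 5) (nat_lit 11) (nat_lit 7) (nat_lit 0))))))))))))))))))))) (orK (nat_lit 151) (fin (add (start D7789) (orK (nat_lit 189) (fin (add (start D7779) D9872)))))))))) (orK (nat_lit 173) (fin (add (add (add (start (orK (nat_lit 193) (fin (add (start D5280) (orK (nat_lit 213) (fin (add (start D5278) D9325))))))) (orK (nat_lit 213) (fin (add (add (add (start D9323) D9262) (orK (nat_lit 193) (fin (add (start D5278) D9284)))) (orK (nat_lit 193) (fin (add (start D5278) D9317))))))) (orK (nat_lit 174) (fin (add (start D9329) (orK (nat_lit 172) D9894))))) (orK (nat_lit 172) (fin (add (start D9312) (orK (nat_lit 174) D9894)))))))))))))) (orK (nat_lit 170) (fin (add (start D9) (orK (nat_lit 229) (fin (add (start D188) (orK (nat_lit 251) (fin (add (start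 D47) (orK (nat_lit 250) (fin (add (start D48) D8901))))))))))))) (orK (nat_lit 170) (fin (add (start D9) (orK (nat_lit 229) (fin (add (start D188) (orK (nat_lit 150) (fin (add (start D189) (orK (nat_lit 129) (fin (add (start D7832) (orK (nat_lit 130) (fin (add (start D7831) (orK (nat_lit 111) (fin (add (start D8553) (orK (nat_lit 110) (fin (add (start D8554) D8567)))))))))))))))))))))))))
noncomputable def D9932 : OP := orK (nat_lit 190) D9931
noncomputable def D7116 : OP := orK (nat_lit 270) (fin (add (add (add (add (start D259) (orK (nat_lit 269) (fin (add (start D104) (orK (nat_lit 249) (fin (add (start D5243) (orK (nat_lit 268) (fin (add (add (add (add (start (orK (nat_lit 267) (fin (add (start D358) (orK (nat_lit 247) (fin (add (start D277) (orK (nat_lit 248) (fin (add (start D4939) D408)))))))))) (orK (nat_lit 267) (fin (add (start D358) (orK (nat_lit 287) (fin (add (start D278) (orK (nat_lit 271) (fin (add (start D279) (orK (nat_lit 272) D308))))))))))) (orK (nat_lit 248) (fin (add (start (orK (nat_lit 288) (fin (add (start (orK (nat_lit 271) (fin (add (start D351) D355)))) D6676))))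 (orK (nat_lit 247) (fin (add (start D1283) D408))))))) (orK (nat_lit 267) (fin (add (start D358) (orK (nat_lit 287) (fin (add (start D278) (orK (nat_lit 288) (fin (add (start (win (nat_lit 5) (nat_lit 7) (nat_lit 13) (nat_lit 0))) (orK (nat_lit 247) (fin (add (start D277) (orK (nat_lit 308) (fin (add (start D4218) (win (nat_lit 6) (nat_lit 7) (nat_lit 11) (nat_lit 0)))))))))))))))))) (orK (nat_lit 267) (fin (add (start D358) (orK (nat_lit 247) (fin (add (start D277) (orK (nat_lit 248) (fin (add (start D408) (orK (nat_lit 227) (fin (add (start D561) D2948)))))))))))))))))))))) D391) D401) (orK (nat_lit 291) (fin (add (start D252) (orK (nat_lit 290) (fin (add (start D253) (orK (nat_lit 229) (fin (add (start D380) (orK (nat_lit 249) (fin (add (start D402) D7106))))))))))))))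
noncomputable def D8035 : OP := orK (nat_lit 189) (fin (add (start D113) D8033))
noncomputable def D7827 : OP := orK (nat_lit 169) D7826
noncomputable def D9082 : OP := orK (nat_lit 190) (fin (add (add (add (add (add (start D7827) (orK (nat_lit 250) (fin (add (add (add (start D124) D7728) (orK (nat_lit 171) (fin (add (start D8) (orK (nat_lit 270) (fin (add (add (add (start D6211) D259) D391) (orK (nat_lit 291) (fin (add (start D252) (orK (nat_lit 290) (fin (add (start D253) (orK (nat_lit 249) (fin (add (start D7) (orK (nat_lit 229) D8885))))))))))))))))) D6523)))) (orK (nat_lit 250) (fin (add (add (add (start D5482) D8035) D7116) D8905)))) D7700) D9074) (orK (nat_lit 170) (fin (add (add (start D8911) D175) (orK (nat_lit 249) (fin (add (start D31) (orK (nat_lit 250) (fin (add (start D7) D14)))))))))))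
noncomputable def D8624 : OP := win (nat_lit 5) (nat_lit 6) (nat_lit 9) (nat_lit 3)
noncomputable def D8625 : OP := win (nat_lit 4) (nat_lit 5) (nat_lit 9) (nat_lit 0)
noncomputable def D8820 : OP := orK (nat_lit 206) (fin (add (start D8625) D8624))
noncomputable def D8826 : OP := orK (nat_lit 148) (fin (add (start D8746) (orK (nat_lit 128) (fin (add (start D8745) D8754)))))
noncomputable def D8626 : OP := win (nat_lit 5) (nat_lit 7) (nat_lit 9) (nat_lit 0)
noncomputable def D8682 : OP := orK (nat_lit 128) (fin (add (start D8587) D8680))
noncomputable def D8662 : OP := win (nat_lit 2) (nat_lit 7) (nat_lit 7) (nat_lit 2)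
noncomputable def D8589 : OP := orK (nat_lit 128) (fin (add (start (win (nat_lit 6) (nat_lit 8) (nat_lit 5) (nat_lit 0))) D8587))
noncomputable def D8661 : OP := orK (nat_lit 169) (fin (add (start D8583) D8589))
noncomputable def D8482 : OP := orK (nat_lit 147) (fin (add (add (start (orK (nat_lit 227) (fin (add (start D4295) D8474)))) (orK (nat_lit 127) (fin (add (start D8465) D5962)))) D6058))
noncomputable def D8606 : OP := win (nat_lit 1) (nat_lit 9) (nat_lit 6) (nat_lit 5)
noncomputable def D8874 : AP := fin (add (add (add (add (start (orK (nat_lit 169) (fin (add (start D11) (orK (nat_lit 188) (fin (add (add (start (orK (nat_lit 187) (fin (add (start D7805) D7806)))) (orK (nat_lit 168) (fin (add (start (orK (nat_lit 191) (fin (add (start D7683) D7767)))) (orK (nat_lit 148) (fin (add (start (orK (nat_lit 171) (fin (add (start D8583) D8526)))) D8589))))))) (orK (nat_lit 187) (fin (add (start D7805) (orK (nat_lit 167) (fin (add (start D5386) (orK (nat_lit 168) (fin (add (start D8522) (orK (nat_lit 147) (fin (add (start D7658) (orK (nat_lit 127) D8466)))))))))))))))))))) (orK (nat_lit 150)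 (fin (add (add (start D171) (orK (nat_lit 130) (fin (add (start D8606) (orK (nat_lit 110) (fin (add (start (win (nat_lit 1) (nat_lit 9) (nat_lit 5) (nat_lit 4))) (orK (nat_lit 111) (fin (add (start D8554) D8553)))))))))) (orK (nat_lit 130) (fin (add (start D8606) D7834))))))) (orK (nat_lit 188) (fin (add (add (add (start (orK (nat_lit 187) (fin (add (start D7806) (orK (nat_lit 186) (fin (add (start D3069) (win (nat_lit 4) (nat_lit 6) (nat_lit 8) (nat_lit 4))))))))) D8623) (orK (nat_lit 207) (fin (add (add (add (start (orK (nat_lit 206) (fin (add (start D8624) (orK (nat_lit 208) (fin (add (start D8625) D8626))))))) (orK (nat_lit 191) (fin (add (start D5388) (orK (nat_lit 168) (fin (add (start D5395) (orK (nat_lit 192) (fin (add (start (win (nat_lit 2) (nat_lit 8) (nat_lit 8) (nat_lit 4))) D5286)))))))))) (orK (nat_lit 187) (fin (add (start D5387) (orK (nat_lit 167) (fin (add (start D5386) D8482))))))) (orK (nat_lit 187) D8647))))) (orK (nat_lit 171) (fin (add (add (start D223) (orK (nat_lit 168) (fin (add (add (add (start D8659) (orK (nat_lit 148) (fin (add (add (start D8661) (orK (nat_lit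 147) (fin (add (start D8662) (orK (nat_lit 208) (fin (add (start D8663) (orK (nat_lit 207) (fin (add (start D8664) D8626)))))))))) D8682)))) (orK (nat_lit 191) (fin (add (start D5395) (orK (nat_lit 208) (fin (add (start D5396) (orK (nat_lit 192) (fin (add (start D7701) (orK (nat_lit 213) (fin (add (start D5277) (orK (nat_lit 193) (fin (add (start D5278) D7856)))))))))))))))) (orK (nat_lit 148) (fin (add (add (start D8661) (orK (nat_lit 147) (fin (add (start D8662) (orK (nat_lit 127) (fin (add (start (win (nat_lit 7) (nat_lit 7) (nat_lit 6) (nat_lit 0))) (orK (nat_lit 107) (fin (add (start D8696) (win (nat_lit 6) (nat_lit 7) (nat_lit 5) (nat_lit 3)))))))))))) D8682))))))) (orK (nat_lit 172) (fin (add (start D8651) D221)))))))))) D8810) (orK (nat_lit 149) (fin (add (start D169) (orK (nat_lit 129) (fin (add (start (win (nat_lit 7) (nat_lit 9) (nat_lit 6) (nat_lit 3))) (orK (nat_lit 188) (fin (add (add (add (start D8623) (orK (nat_lit 168) (fin (add (add (add (start (orK (nat_lit 167) (fin (add (start D8642) (orK (nat_lit 166) (fin (add (start D8654) (win (nat_lit 2) (nat_lit 6) (nat_lit 8)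 (nat_lit 3))))))))) (orK (nat_lit 208) (fin (add (start (orK (nat_lit 207) (fin (add (start D8626) D8820)))) D8826)))) (orK (nat_lit 191) (fin (add (start D5395) (orK (nat_lit 208) (fin (add (start D5396) D8826))))))) (orK (nat_lit 148) (fin (add (add (start (orK (nat_lit 109) (fin (add (start D8833) (orK (nat_lit 149) (fin (add (start D8834) D8835))))))) (orK (nat_lit 208) (fin (add (start D8746) (orK (nat_lit 207) (fin (add (start D8664) D8820))))))) (orK (nat_lit 128) (fin (add (start D8745) (orK (nat_lit 187) (fin (add (start D8844) (orK (nat_lit 167) (fin (add (start D6004) D5386)))))))))))))))) (orK (nat_lit 191) (fin (add (start (orK (nat_lit 168) (fin (add (start D5395) (orK (nat_lit 208) (fin (add (start D8855) D5396))))))) D8800)))) (orK (nat_lit 187) (fin (add (start D7806) (orK (nat_lit 166) (fin (add (start D5416) (orK (nat_lit 186) (fin (add (start D3070) D7716)))))))))))))))))))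
noncomputable def D8558 : OP := orK (nat_lit 109) (fin (add (start D8555) (win (nat_lit 7) (nat_lit 9) (nat_lit 5) (nat_lit 4))))
noncomputable def D8497 : OP := orK (nat_lit 227) (fin (add (start D2659) (orK (nat_lit 228) (fin (add (start D6147) D4371)))))
noncomputable def D8303 : OP := orK (nat_lit 149) (fin (add (start D169) (orK (nat_lit 150) (fin (add (start D8299) D168)))))
noncomputable def D7555 : AP := fin (add (start D7553) D7554)
noncomputable def D7556 : OP := orK (nat_lit 173) D7555
noncomputable def D7543 : OP := win (nat_lit 7) (nat_lit 11) (nat_lit 7) (nat_lit 5)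
noncomputable def D8332 : OP := orK (nat_lit 149) (fin (add (start D8330) D169))
noncomputable def D8258 : OP := win (nat_lit 2) (nat_lit 9) (nat_lit 7) (nat_lit 1)
noncomputable def D8178 : OP := orK (nat_lit 172) (fin (add (start D7553) D7543))
noncomputable def D8149 : OP := win (nat_lit 1) (nat_lit 11) (nat_lit 9) (nat_lit 4)
noncomputable def D7545 : OP := orK (nat_lit 172) (fin (add (start D5591) D7543))
noncomputable def D7398 : AP := fin (add (start D1071) (orK (nat_lit 293) (fin (add (start D1099) D1101))))
noncomputable def D7474 : OP := win (nat_lit 4) (nat_lit 9) (nat_lit 10) (nat_lit 0)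
noncomputable def D7522 : OP := orK (nat_lit 253) (fin (add (add (add (start (orK (nat_lit 233) (fin (add (start D205) (orK (nat_lit 213) (fin (add (start D207) (orK (nat_lit 212) (fin (add (start D7474) (orK (nat_lit 192) (fin (add (start D923) D7475))))))))))))) (orK (nat_lit 254) (fin (add (start (win (nat_lit 0) (nat_lit 10) (nat_lit 11) (nat_lit 3))) (orK (nat_lit 252) D5640))))) (orK (nat_lit 252) D5642)) (orK (nat_lit 213) (fin (add (add (add (start (orK (nat_lit 229) (fin (add (start D204) D206)))) (orK (nat_lit 233) (fin (add (start D207) (orK (nat_lit 252) (fin (add (start D5638) D1201))))))) (orK (nat_lit 233) (fin (add (start D207) (orK (nat_lit 273) (fin (add (add (start (orK (nat_lit 212) (fin (add (start D911) D888)))) (orK (nat_lit 293) (fin (add (start D1861) D902)))) (orK (nat_lit 193) (fin (add (start (orK (nat_lit 252) D1200)) D837)))))))))) (orK (nat_lit 212) (fin (add (start D7474) (orK (nat_lit 214) (fin (add (start D7513) (win (nat_lit 5) (nat_lit 11) (nat_lit 10) (nat_lit 0)))))))))))))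
noncomputable def D8367 : AP := fin (add (add (start (orK (nat_lit 251) D8135)) (orK (nat_lit 232) (fin (add (add (add (start D7259) D7522) D8146) (orK (nat_lit 212) (fin (add (add (start (orK (nat_lit 252) (fin (add (add (start D5643) (orK (nat_lit 192) (fin (add (add (start D7545) (orK (nat_lit 193) (fin (add (start D7409) (orK (nat_lit 272) (fin (add (add (add (start (orK (nat_lit 271) (fin (add (start D8149) D1106)))) (orK (nat_lit 291) (fin (add (start (win (nat_lit 1) (nat_lit 11) (nat_lit 10) (nat_lit 4))) (orK (nat_lit 292) (fin (add (start D1043) (orK (nat_lit 293) (fin (add (start D7408) D1521)))))))))) (orK (nat_lit 293) (fin (add (start D7408) (orK (nat_lit 292) (fin (add (start D1521) (orK (nat_lit 311) (fin (add (start D4495) (orK (nat_lit 312) (fin (add (start D2027) D325))))))))))))) (orK (nat_lit 251) (fin (add (start D1091) (orK (nat_lit 293) (fin (add (start D7408) (orK (nat_lit 292) (fin (add (start D1521) D1518)))))))))))))))) (orK (nat_lit 173) (fin (add (start D7554) D8178))))))) (orK (nat_lit 253) (fin (add (start D5638) (orK (nat_lit 273) D7398)))))))) (orK (nat_lit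 229) (fin (add (start D3302) D7532)))) (orK (nat_lit 192) (fin (add (add (start D7545) (orK (nat_lit 252) (fin (add (add (start (orK (nat_lit 251) (fin (add (start D1091) (orK (nat_lit 253) (fin (add (start D1511) D5291))))))) (orK (nat_lit 193) (fin (add (start D7409) (orK (nat_lit 272) (fin (add (start D7410) (orK (nat_lit 273) (fin (add (start D1092) D1090)))))))))) (orK (nat_lit 271) (fin (add (start D8149) (orK (nat_lit 272) (fin (add (start D1106) D7412)))))))))) (orK (nat_lit 173) (fin (add (add (start D8178) (orK (nat_lit 193) (fin (add (start D8206) (orK (nat_lit 153) (fin (add (start D8207) D8208))))))) (orK (nat_lit 172) (fin (add (start D7543) (orK (nat_lit 174) (fin (add (add (add (start (orK (nat_lit 195) (fin (add (start D8213) (orK (nat_lit 175) (fin (add (start D8214) (orK (nat_lit 193) (fin (add (start D8206) D8215)))))))))) (orK (nat_lit 193) (fin (add (start D8206) (orK (nat_lit 194) (fin (add (start D7672) (orK (nat_lit 154) (fin (add (start D8222) (orK (nat_lit 134) (fin (add (start D5802) (win (nat_lit 1) (nat_lit 13) (nat_lit 6) (nat_lit 5))))))))))))))) (orK (nat_lit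 195) (fin (add (start D8213) (orK (nat_lit 175) (fin (add (start D8214) D8235))))))) (orK (nat_lit 193) (fin (add (start D8206) (orK (nat_lit 155) (fin (add (start D8232) (orK (nat_lit 175) (fin (add (start D8233) D8215)))))))))))))))))))))))))))) (orK (nat_lit 232) (fin (add (add (start D7259) (orK (nat_lit 170) (fin (add (start D9) (orK (nat_lit 233) (fin (add (add (add (start D8144) (orK (nat_lit 149) (fin (add (start D169) (orK (nat_lit 150) (fin (add (start D168) (orK (nat_lit 213) (fin (add (start D207) (orK (nat_lit 173) (fin (add (start D8258) (orK (nat_lit 193) (fin (add (start D6334) (orK (nat_lit 153) (fin (add (start D8259) D5778))))))))))))))))))) (orK (nat_lit 149) (fin (add (start D169) (orK (nat_lit 150) (fin (add (start D168) (orK (nat_lit 173) (fin (add (start D8258) (orK (nat_lit 254) (fin (add (start D2716) (orK (nat_lit 234) (fin (add (start D2717) (orK (nat_lit 214) (fin (add (start D8138) D8281))))))))))))))))))) (orK (nat_lit 253) (fin (add (start D205) (orK (nat_lit 172) (fin (add (add (start (orK (nat_lit 192) (fin (add (start D8294) (orK (nat_lit 169) (fin (add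 (start D7655) D11))))))) D8303) (orK (nat_lit 192) (fin (add (start D8294) (orK (nat_lit 193) (fin (add (start (win (nat_lit 7) (nat_lit 12) (nat_lit 8) (nat_lit 2))) (orK (nat_lit 194) (fin (add (start (win (nat_lit 0) (nat_lit 10) (nat_lit 8) (nat_lit 3))) D8306)))))))))))))))))))))) (orK (nat_lit 229) (fin (add (start D7532) (orK (nat_lit 212) (fin (add (start D3302) (orK (nat_lit 252) (fin (add (start D2706) (orK (nat_lit 172) (fin (add (add (add (start (orK (nat_lit 151) (fin (add (start D7790) (win (nat_lit 7) (nat_lit 11) (nat_lit 7) (nat_lit 2)))))) (orK (nat_lit 173) (fin (add (add (add (start (orK (nat_lit 192) D7555)) (orK (nat_lit 193) (fin (add (start (win (nat_lit 3) (nat_lit 12) (nat_lit 8) (nat_lit 3))) (orK (nat_lit 170) (fin (add (start D7646) D8332))))))) (orK (nat_lit 170) (fin (add (start D8332) (orK (nat_lit 174) (fin (add (start (orK (nat_lit 194) (fin (add (start D7671) D7672)))) D8341))))))) (orK (nat_lit 153) (fin (add (start (win (nat_lit 3) (nat_lit 12) (nat_lit 7) (nat_lit 2))) (orK (nat_lit 170) (fin (add (start D7648) D8332)))))))))) (orK (nat_lit 192) (fin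 (add (start D7543) D7556)))) (orK (nat_lit 170) (fin (add (start D9) D8303)))))))))))))))))))
noncomputable def D7763 : AP := fin (add (start D8) (orK (nat_lit 270) (fin (add (add (add (start D108) D259) D7748) (orK (nat_lit 289) (fin (add (start D250) (orK (nat_lit 290) (fin (add (start D251) (orK (nat_lit 251) (fin (add (start D48) (orK (nat_lit 229) (fin (add (start D380) (orK (nat_lit 228) (fin (add (start D1983) (orK (nat_lit 231) (fin (add (start D2101) D643))))))))))))))))))))))
noncomputable def D8084 : OP := orK (nat_lit 167) (fin (add (start D2662) D6501))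
noncomputable def D8067 : OP := orK (nat_lit 229) D4814
noncomputable def D8883 : AP := fin (add (add (add (add (add (add (add (add (start D68) (orK (nat_lit 250) (fin (add (add (add (start D120) D7728) (orK (nat_lit 171) D7763)) D6207)))) D7827) (orK (nat_lit 250) D6208)) D8031) (orK (nat_lit 250) (fin (add (add (add (start D78) D8035) (orK (nat_lit 251) (fin (add (start D48) (orK (nat_lit 231) (fin (add (start D6918) (orK (nat_lit 229) (fin (add (add (start D8036) (orK (nat_lit 252) (fin (add (start D127) (orK (nat_lit 232) (fin (add (add (start D203) D2730) (orK (nat_lit 209) (fin (add (start D200) (orK (nat_lit 212) (fin (add (start D3302) (orK (nat_lit 192) (fin (add (start D3303) (orK (nat_lit 193) (fin (add (start D7409) (win (nat_lit 5) (nat_lit 9) (nat_lit 9) (nat_lit 2))))))))))))))))))))) (orK (nat_lit 228) (fin (add (start D1983) D4964))))))))))))) (orK (nat_lit 189) (fin (add (start D113) (orK (nat_lit 209) (fin (add (start D1649) (orK (nat_lit 207) (fin (add (add (start D7945) (orK (nat_lit 187) (fin (add (add (add (start D7983) (orK (nat_lit 167) (fin (add (add (start D6141)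 (orK (nat_lit 206) (fin (add (start D6036) (orK (nat_lit 226) (fin (add (start D6037) (orK (nat_lit 246) (fin (add (start D6038) (win (nat_lit 3) (nat_lit 6) (nat_lit 9) (nat_lit 0)))))))))))) D6027)))) (orK (nat_lit 227) (fin (add (add (add (add (start (orK (nat_lit 167) (fin (add (add (start D4297) (orK (nat_lit 228) (fin (add (start D2662) D8067)))) D6023)))) D4340) (orK (nat_lit 247) (fin (add (add (add (start D5506) D6159) D6163) (orK (nat_lit 186) (fin (add (start D4319) (orK (nat_lit 246) (fin (add (start D4305) (orK (nat_lit 228) (fin (add (start (win (nat_lit 5) (nat_lit 6) (nat_lit 11) (nat_lit 1))) D6178))))))))))))) (orK (nat_lit 228) (fin (add (add (start D8084) (orK (nat_lit 229) (fin (add (start D404) (orK (nat_lit 247) (fin (add (start D217) (orK (nat_lit 248) (fin (add (start D2970) D3935)))))))))) (orK (nat_lit 229) (fin (add (start D404) (orK (nat_lit 246) (fin (add (start D2688) D8093)))))))))) (orK (nat_lit 228) (fin (add (start D8067) D8084))))))) (orK (nat_lit 188) (fin (add (start D3396) (orK (nat_lit 167) (fin (add (start D5386) (orK (nat_lit 227) (fin (add (start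 (orK (nat_lit 168) (fin (add (start D4308) (win (nat_lit 3) (nat_lit 7) (nat_lit 8) (nat_lit 0)))))) (orK (nat_lit 228) (fin (add (start D2662) (orK (nat_lit 229) D2646))))))))))))))))) D8118))))))))))))) (orK (nat_lit 171) (fin (add (add (start (orK (nat_lit 250) D7763)) (orK (nat_lit 231) D8367)) D8439)))) (orK (nat_lit 251) (fin (add (add (add (start D8442) (orK (nat_lit 170) (fin (add (start D47) (orK (nat_lit 151) (fin (add (start D166) (orK (nat_lit 150) (fin (add (start D167) (orK (nat_lit 209) (fin (add (start D7829) D171))))))))))))) D8456) (orK (nat_lit 250) (fin (add (start D48) (orK (nat_lit 189) (fin (add (start D113) (orK (nat_lit 209) (fin (add (start D1649) (orK (nat_lit 170) (fin (add (add (start D8458) (orK (nat_lit 187) (fin (add (add (start (orK (nat_lit 188) (fin (add (start D3396) (orK (nat_lit 167) (fin (add (start D5386) (orK (nat_lit 207) (fin (add (start D5387) D8482)))))))))) (orK (nat_lit 171) (fin (add (start D9) D8489)))) (orK (nat_lit 207) (fin (add (add (add (start (orK (nat_lit 208) (fin (add (start D2660) D8055)))) (orK (nat_lit 171) (fin (add (start D9)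 (orK (nat_lit 208) (fin (add (start D8055) D8497))))))) (orK (nat_lit 208) (fin (add (start D2660) (orK (nat_lit 171) (fin (add (start D9) D8497))))))) D6196))))))) (orK (nat_lit 150) (fin (add (start D7950) D191))))))))))))))))))) (orK (nat_lit 170) (fin (add (add (add (add (start D175) (orK (nat_lit 171) (fin (add (start D9) (orK (nat_lit 169) (fin (add (start D11) D8548))))))) (orK (nat_lit 251) (fin (add (start D47) (orK (nat_lit 150) (fin (add (add (start D191) (orK (nat_lit 209) (fin (add (start D7829) (orK (nat_lit 130) (fin (add (start D7830) (orK (nat_lit 111) (fin (add (start D8553) (orK (nat_lit 110) (fin (add (start D8554) D8558))))))))))))) (orK (nat_lit 209) (fin (add (start D7829) (orK (nat_lit 130) (fin (add (start D7830) (orK (nat_lit 171) (fin (add (start D9) (orK (nat_lit 110) (fin (add (start D8567) D8558))))))))))))))))))) (orK (nat_lit 189) D8874)) (orK (nat_lit 149) (fin (add (start D169) (orK (nat_lit 150) (fin (add (start D168) (orK (nat_lit 209) D7939)))))))))))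
noncomputable def D8884 : OP := orK (nat_lit 190) D8883
noncomputable def D7589 : AP := fin (add (start D142) D2897)
noncomputable def D7558 : OP := orK (nat_lit 172) (fin (add (start D5591) D7556))
noncomputable def D7237 : OP := orK (nat_lit 249) D674
noncomputable def D7272 : OP := orK (nat_lit 171) (fin (add (start D8) (orK (nat_lit 170) (fin (add (start D9) D10)))))
noncomputable def D7236 : OP := orK (nat_lit 233) D921
noncomputable def D7387 : OP := orK (nat_lit 209) (fin (add (start D200) (orK (nat_lit 270) (fin (add (start D2860) (orK (nat_lit 269) (fin (add (start D104) (orK (nat_lit 190) (fin (add (start D103) (orK (nat_lit 170) (fin (add (start D6633) D5261))))))))))))))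
noncomputable def D7267 : AP := fin (add (start D7) D7266)
noncomputable def D7339 : OP := orK (nat_lit 209) (fin (add (start D2645) D2860))
noncomputable def D7625 : AP := fin (add (add (add (add (add (add (add (start (orK (nat_lit 232) (fin (add (add (start D7237) (orK (nat_lit 229) (fin (add (add (add (start D3333) (orK (nat_lit 252) (fin (add (start D2706) (orK (nat_lit 228) (fin (add (start D2705) D2709))))))) (orK (nat_lit 208) (fin (add (start D214) (orK (nat_lit 228) (fin (add (start D215) D2709))))))) (orK (nat_lit 252) (fin (add (start D2706) (orK (nat_lit 209) (fin (add (start D200) (orK (nat_lit 249) (fin (add (start D6225) (orK (nat_lit 269) (fin (add (start D23) (orK (nat_lit 268) (fin (add (start D3127) (win (nat_lit 5) (nat_lit 8) (nat_lit 12) (nat_lit 1))))))))))))))))))))) D7259)))) (orK (nat_lit 249) (fin (add (start D5670) (orK (nat_lit 248) D547))))) (orK (nat_lit 190) (fin (add (add (add (start (orK (nat_lit 249) D7267)) D7272) (orK (nat_lit 171) (fin (add (start D8) (orK (nat_lit 229) (fin (add (add (add (add (start (orK (nat_lit 269) (fin (add (start D103) (orK (nat_lit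 270) (fin (add (start D104) (orK (nat_lit 290) (fin (add (start D380) D5747)))))))))) (orK (nat_lit 228) (fin (add (add (start D2649) D3317) (orK (nat_lit 248) (fin (add (start D2132) (orK (nat_lit 251) (fin (add (start D2101) (orK (nat_lit 268) (fin (add (add (add (start D5091) D4951) (orK (nat_lit 288) (fin (add (start D3476) (orK (nat_lit 287) (fin (add (start D2994) (orK (nat_lit 208) (fin (add (start D2993) D4947)))))))))) (orK (nat_lit 288) (fin (add (start D3476) D5017)))))))))))))))) (orK (nat_lit 269) (fin (add (start D103) (orK (nat_lit 289) (fin (add (start D759) (orK (nat_lit 228) (fin (add (start D2649) (orK (nat_lit 248) (fin (add (start D2132) (orK (nat_lit 208) (fin (add (start D215) (orK (nat_lit 268) (fin (add (start D2995) (orK (nat_lit 287) (fin (add (start D2993) (orK (nat_lit 288) (fin (add (start D2994) D2996))))))))))))))))))))))))) (orK (nat_lit 228) (fin (add (add (start D2649) D7311) (orK (nat_lit 251) (fin (add (start D2101) (orK (nat_lit 208) (fin (add (start D215) (orK (nat_lit 248) (fin (add (start D2132) (orK (nat_lit 268) (fin (add (add (start (orK (nat_lit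 269) (fin (add (start D3385) (orK (nat_lit 267) (fin (add (start D2735) D4078))))))) (orK (nat_lit 288) (fin (add (start D3476) D2998)))) D6926)))))))))))))))) (orK (nat_lit 269) (fin (add (start D103) (orK (nat_lit 228) (fin (add (add (add (start (orK (nat_lit 208) (fin (add (start D215) (orK (nat_lit 289) (fin (add (start D759) (orK (nat_lit 248) (fin (add (start D2132) D4633)))))))))) (orK (nat_lit 270) (fin (add (start D104) (orK (nat_lit 247) (fin (add (start D216) (orK (nat_lit 227) (fin (add (start D217) D7339)))))))))) (orK (nat_lit 270) (fin (add (start D104) (orK (nat_lit 207) (fin (add (start D432) (orK (nat_lit 227) (fin (add (start D431) D7339)))))))))) D7311))))))))))))) D5265)))) (orK (nat_lit 232) (fin (add (add (start D7236) (orK (nat_lit 249) (fin (add (add (add (start (orK (nat_lit 248) D2898)) (orK (nat_lit 190) (fin (add (start D7) (orK (nat_lit 251) (fin (add (start D660) D6918))))))) (orK (nat_lit 190) D7267)) (orK (nat_lit 190) (fin (add (start D7) (orK (nat_lit 229) (fin (add (start D0) D6225)))))))))) D7259)))) (orK (nat_lit 232) (fin (add (add (start (orK (nat_lit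 233) (fin (add (start D920) D2722)))) (orK (nat_lit 252) (fin (add (add (add (start D5643) (orK (nat_lit 229) (fin (add (start D2706) D7387)))) (orK (nat_lit 251) (fin (add (add (add (start (orK (nat_lit 253) (fin (add (start D1511) (orK (nat_lit 269) (fin (add (start D1811) (orK (nat_lit 190) (fin (add (start D103) D6918)))))))))) (orK (nat_lit 253) (fin (add (start D1511) (orK (nat_lit 273) (fin (add (start D131) (orK (nat_lit 270) (fin (add (start D1269) (orK (nat_lit 212) D7398))))))))))) (orK (nat_lit 190) (fin (add (start D6918) (orK (nat_lit 272) (fin (add (add (start (orK (nat_lit 249) (fin (add (start D698) D7)))) D7420) (orK (nat_lit 269) (fin (add (start D103) (orK (nat_lit 270) (fin (add (start D104) (orK (nat_lit 290) (fin (add (start D643) (orK (nat_lit 291) (fin (add (start D253) (orK (nat_lit 292) (fin (add (start D4483) D1518)))))))))))))))))))))) (orK (nat_lit 253) (fin (add (start D1511) (orK (nat_lit 273) (fin (add (start D131) (orK (nat_lit 272) (fin (add (start D1064) (orK (nat_lit 190) (fin (add (start D6918) (orK (nat_lit 212) (fin (add (start D1071) D1090)))))))))))))))))))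 (orK (nat_lit 229) (fin (add (add (add (start D3331) D7387) (orK (nat_lit 251) (fin (add (start D3301) (orK (nat_lit 190) (fin (add (start D6918) (orK (nat_lit 269) (fin (add (start D103) (orK (nat_lit 270) (fin (add (start D104) (orK (nat_lit 290) (fin (add (start D643) D380)))))))))))))))) (orK (nat_lit 228) (fin (add (start D2705) (orK (nat_lit 207) (fin (add (start D432) (orK (nat_lit 227) (fin (add (start D431) D2692)))))))))))))))) D7259)))) (orK (nat_lit 232) (fin (add (add (add (start D7259) D7522) (orK (nat_lit 233) (fin (add (start D919) D2722)))) (orK (nat_lit 229) (fin (add (add (add (start D7532) (orK (nat_lit 209) (fin (add (start D200) (orK (nat_lit 270) (fin (add (start D2860) (orK (nat_lit 252) (fin (add (start D2706) (orK (nat_lit 212) (fin (add (start D3302) (orK (nat_lit 269) (fin (add (start D104) (orK (nat_lit 192) (fin (add (add (start (orK (nat_lit 171) (fin (add (start D7542) D7545)))) D7558) (orK (nat_lit 191) (fin (add (start (win (nat_lit 7) (nat_lit 11) (nat_lit 8) (nat_lit 5))) (orK (nat_lit 193) (fin (add (start D7409) (win (nat_lit 5) (nat_lit 9) (nat_lit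 9) (nat_lit 3))))))))))))))))))))))))))) (orK (nat_lit 252) (fin (add (start D2706) (orK (nat_lit 228) (fin (add (start D2705) D7530))))))) (orK (nat_lit 252) (fin (add (start D2706) (orK (nat_lit 228) (fin (add (start D2705) D7311))))))))))))) (orK (nat_lit 232) (fin (add (add (start D7236) (orK (nat_lit 249) (fin (add (start (orK (nat_lit 248) D7589)) D5670)))) D7259)))) (orK (nat_lit 190) (fin (add (add (add (start D7272) (orK (nat_lit 170) (fin (add (start D10) D199)))) (orK (nat_lit 232) (fin (add (add (start D7237) (orK (nat_lit 248) (fin (add (add (add (start (orK (nat_lit 249) D672)) (orK (nat_lit 249) D2898)) (orK (nat_lit 229) (fin (add (add (start (orK (nat_lit 252) (fin (add (start D2706) (orK (nat_lit 228) (fin (add (start D2705) D2132))))))) (orK (nat_lit 208) (fin (add (start D214) (orK (nat_lit 228) D5025))))) (orK (nat_lit 209) (fin (add (start D200) (orK (nat_lit 252) (fin (add (start D2706) (orK (nat_lit 212) (fin (add (start D3302) (orK (nat_lit 192) (fin (add (add (start (orK (nat_lit 171) (fin (add (start D8) D7545)))) (orK (nat_lit 191) (fin (add (start D125) D7537))))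 D7558)))))))))))))))) (orK (nat_lit 249) D7589))))) D7259)))) D6643))))
noncomputable def D6953 : AP := fin (add (start D452) (orK (nat_lit 271) (fin (add (start D489) D5249))))
noncomputable def D6958 : OP := win (nat_lit 4) (nat_lit 10) (nat_lit 14) (nat_lit 5)
noncomputable def D6988 : AP := fin (add (start D6958) (orK (nat_lit 273) (fin (add (start D853) (orK (nat_lit 254) (fin (add (start (win (nat_lit 3) (nat_lit 13) (nat_lit 11) (nat_lit 5))) (orK (nat_lit 271) (fin (add (start (win (nat_lit 4) (nat_lit 10) (nat_lit 12) (nat_lit 2))) D5249))))))))))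
noncomputable def D6957 : OP := win (nat_lit 4) (nat_lit 9) (nat_lit 14) (nat_lit 4)
noncomputable def D6995 : OP := win (nat_lit 0) (nat_lit 11) (nat_lit 15) (nat_lit 5)
noncomputable def D6994 : OP := win (nat_lit 0) (nat_lit 10) (nat_lit 15) (nat_lit 4)
noncomputable def D6956 : OP := win (nat_lit 0) (nat_lit 10) (nat_lit 15) (nat_lit 5)
noncomputable def D6955 : OP := win (nat_lit 0) (nat_lit 9) (nat_lit 15) (nat_lit 4)
noncomputable def D7055 : AP := fin (add (add (add (add (start D259) (orK (nat_lit 271) (fin (add (start D106) (orK (nat_lit 251) (fin (add (start D5249) (orK (nat_lit 272) (fin (add (add (add (add (start (orK (nat_lit 273) (fin (add (start D754) (orK (nat_lit 253) (fin (add (start D823) (orK (nat_lit 252) (fin (add (start D1989) (win (nat_lit 4) (nat_lit 9) (nat_lit 12) (nat_lit 0)))))))))))) (orK (nat_lit 273) (fin (add (start D754) (orK (nat_lit 293) (fin (add (start D824) (orK (nat_lit 269) (fin (add (start D1436) D1334)))))))))) (orK (nat_lit 252) (fin (add (start (orK (nat_lit 292) (fin (add (start (orK (nat_lit 269) (fin (add (start D310) D4453)))) D1718)))) (orK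 (nat_lit 253) (fin (add (start D1989) D1270))))))) (orK (nat_lit 273) (fin (add (start D754) (orK (nat_lit 293) (fin (add (start D824) (orK (nat_lit 292) (fin (add (start D1406) (orK (nat_lit 253) (fin (add (start D823) D1407))))))))))))) (orK (nat_lit 273) (fin (add (start D754) (orK (nat_lit 253) (fin (add (start D823) (orK (nat_lit 252) (fin (add (start D1989) (orK (nat_lit 293) (fin (add (start D824) (orK (nat_lit 232) (fin (add (start D1921) D1101))))))))))))))))))))))))) D499) (orK (nat_lit 229) (fin (add (add (add (add (start D6776) D6799) D6908) D6915) (orK (nat_lit 228) (fin (add (add (add (start D2784) D3603) (orK (nat_lit 231) (fin (add (add (add (start D2734) (orK (nat_lit 251) (fin (add (start D2101) (orK (nat_lit 208) (fin (add (start D215) (orK (nat_lit 248) (fin (add (start D2132) (orK (nat_lit 190) (fin (add (start D6918) (orK (nat_lit 268) (fin (add (add (start (orK (nat_lit 269) (fin (add (start D104) D272)))) D6924) D6926)))))))))))))))) D6940) D6944)))) D2803))))))) (orK (nat_lit 290) (fin (add (add (add (start D501) D488) (orK (nat_lit 310) (fin (add (add (start (orK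 (nat_lit 251) D6953)) D693) (orK (nat_lit 309) (fin (add (start D379) (orK (nat_lit 311) (fin (add (start D393) (orK (nat_lit 229) (fin (add (start D380) (orK (nat_lit 312) (fin (add (add (add (add (start (orK (nat_lit 333) (fin (add (start D6955) (orK (nat_lit 313) (fin (add (start D6956) (orK (nat_lit 293) (fin (add (start D6957) D6958)))))))))) (orK (nat_lit 332) (fin (add (start (win (nat_lit 0) (nat_lit 9) (nat_lit 15) (nat_lit 5))) (orK (nat_lit 251) (fin (add (start D452) (orK (nat_lit 253) (fin (add (start D5357) (orK (nat_lit 271) (fin (add (start D5249) (orK (nat_lit 272) (fin (add (start (win (nat_lit 7) (nat_lit 11) (nat_lit 12) (nat_lit 2))) (orK (nat_lit 273) D1404))))))))))))))))) (orK (nat_lit 313) (fin (add (add (start (orK (nat_lit 333) (fin (add (start D6955) D6956)))) (orK (nat_lit 251) (fin (add (start D452) (orK (nat_lit 253) (fin (add (start D5357) (orK (nat_lit 293) D6988)))))))) (orK (nat_lit 334) (fin (add (start D6994) (orK (nat_lit 314) (fin (add (start D6995) (orK (nat_lit 294) (fin (add (start (win (nat_lit 4) (nat_lit 10) (nat_lit 14) (nat_lit 4))) (win (nat_lit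 4) (nat_lit 11) (nat_lit 14) (nat_lit 5))))))))))))))) (orK (nat_lit 251) (fin (add (start D452) (orK (nat_lit 293) (fin (add (start D6957) (orK (nat_lit 313) (fin (add (start D6958) (orK (nat_lit 334) (fin (add (start D6994) (orK (nat_lit 314) (fin (add (start D6995) (orK (nat_lit 253) (fin (add (start (win (nat_lit 6) (nat_lit 13) (nat_lit 12) (nat_lit 1))) (orK (nat_lit 252) (fin (add (start D1989) D1269)))))))))))))))))))))) (orK (nat_lit 251) (fin (add (start D452) (orK (nat_lit 293) (fin (add (start D6957) (orK (nat_lit 253) (fin (add (start D5357) (orK (nat_lit 313) D6988)))))))))))))))))))))))))) (orK (nat_lit 269) (fin (add (start D104) (orK (nat_lit 251) (fin (add (add (start (orK (nat_lit 310) D6953)) (orK (nat_lit 268) (fin (add (start D272) (orK (nat_lit 271) (fin (add (start D273) D5249))))))) (orK (nat_lit 231) (fin (add (start D643) (orK (nat_lit 252) (fin (add (start D695) (orK (nat_lit 229) (fin (add (start D3301) D380)))))))))))))))))))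
noncomputable def D7644 : OP := orK (nat_lit 250) (fin (add (add (add (add (add (add (add (add (add (add (start D5257) D474) D5276) (orK (nat_lit 251) (fin (add (add (start (orK (nat_lit 252) (fin (add (add (add (start D2020) D1030) D1988) (orK (nat_lit 249) (fin (add (add (start D6653) D1038) D149))))))) D6720) (orK (nat_lit 190) (fin (add (start D48) D5265))))))) D6727) D5726) (orK (nat_lit 270) D7055)) D7116) D7235) (orK (nat_lit 231) D7625)) D7642))

end Vale.Agent.Lib.P062.CV
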